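import Crest.Agent.N207.AI.Glob1

/-!
# Row 207, block A (helper8): static calculus of functions for `m : Met n M`
(namespace `Crest.Agent.N207.Sta`)
-/

set_option autoImplicit false
set_option linter.style.haveILetI false
set_option linter.unusedSectionVars false

open scoped ContDiff Manifold Topology
open Set Bundle Filter
open Crest.GeometryTopology.CoordMetric Crest.GeometryTopology.ChartCurvature
  Crest.GeometryTopology.MetricFamily
open Crest.Agent.R247 Crest.Agent.R202.Tens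

noncomputable section

namespace Crest.Agent.N207.Sta

/-- second order condition at a local maximum -/
theorem second_order_max {X : Type*} [NormedAddCommGroup X] [NormedSpace ℝ X] {f : X → ℝ} {x : X}
    (hf : ContDiffAt ℝ 2 f x) (hmax : IsLocalMax f x) (v : X) :
    fderiv ℝ (fderiv ℝ f) x v v ≤ 0 := by
  set g : ℝ → ℝ := fun t => f (x + t • v) with hg
  have hline : ∀ t : ℝ, HasDerivAt (fun t : ℝ => x + t • v) v t := fun t => by
    simpa using ((hasDerivAt_id t).smul_const v).const_add x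
  have htend : Tendsto (fun t : ℝ => x + t • v) (𝓝 0) (𝓝 x) := by
    have := (hline 0).continuousAt.tendsto
    simpa using this
  have hev : ∀ᶠ y in 𝓝 x, DifferentiableAt ℝ f y := by
    have h := hf.eventually (by simp)
    filter_upwards [h] with y hy using hy.differentiableAt (by norm_num)
  have h1 : deriv g =ᶠ[𝓝 0] fun t => fderiv ℝ f (x + t • v) v := by
    filter_upwards [htend.eventually hev] with t ht
    exact (ht.hasFDerivAt.comp_hasDerivAt t (hline t)).deriv
  have h3 : ContDiffAt ℝ 1 (fderiv ℝ f) x := hf.fderiv_right (by norm_num)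
  have h4 : HasFDerivAt (fderiv ℝ f) (fderiv ℝ (fderiv ℝ f) x) x :=
    (h3.differentiableAt (by norm_num)).hasFDerivAt
  have h5 : HasDerivAt (fun t : ℝ => fderiv ℝ f (x + t • v)) (fderiv ℝ (fderiv ℝ f) x v) 0 := by
    have h6 : HasFDerivAt (fderiv ℝ f) (fderiv ℝ (fderiv ℝ f) x) (x + (0 : ℝ) • v) := by
      simpa using h4
    exact h6.comp_hasDerivAt 0 (hline 0)
  have h7 : HasDerivAt (fun t : ℝ => fderiv ℝ f (x + t • v) v) (fderiv ℝ (fderiv ℝ f) x v v) 0 := by
    have := h5.clm_apply (hasDerivAt_const (0 : ℝ) v)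
    simpa using this
  have h8 : deriv (deriv g) 0 = fderiv ℝ (fderiv ℝ f) x v v := by
    rw [h1.deriv_eq, h7.deriv]
  have hgc : ContinuousAt g 0 := by
    have h0 : ContinuousAt f (x + (0 : ℝ) • v) := by simpa using hf.continuousAt
    exact ContinuousAt.comp (g := f) (f := fun t : ℝ => x + t • v) h0 (hline 0).continuousAt
  have hgm : IsLocalMax g 0 := by
    have := htend.eventually hmax
    filter_upwards [this] with t ht
    simpa [hg] using ht
  have hle : deriv (deriv g) 0 ≤ 0 := by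
    by_contra hneg
    push Not at hneg
    have hmin := isLocalMin_of_deriv_deriv_pos hneg hgm.deriv_eq_zero hgc
    have hconst : g =ᶠ[𝓝 0] fun _ => g 0 := by
      filter_upwards [hmin, hgm] with y h1 h2 using le_antisymm h2 h1
    have h1 : deriv g =ᶠ[𝓝 0] fun _ => 0 := by
      have := hconst.deriv
      simpa using this
    have : deriv (deriv g) 0 = 0 := by
      rw [h1.deriv_eq]; simp
    linarith
  rwa [h8] at hle

variable {n k : ℕ}

/-- the coordinate Laplacian at a local maximum -/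
theorem lapB_nonpos_of_max {G : MetricField n} {U : Set (En n)} {y : En n} {f : En n → ℝ}
    (hG : IsRiemannianOn G U) (hy : y ∈ U) (hf : ContDiffAt ℝ 2 f y) (hm : IsLocalMax f y) :
    laplaceBeltrami G f y ≤ 0 := by
  obtain ⟨ξ, hξ⟩ := Bo84.exists_frame hG hy
  rw [Bo84.lap_frame hG hy hf hξ]
  refine Finset.sum_nonpos fun j _ => ?_
  rw [Bo84.hess_apply, hm.fderiv_eq_zero]
  have := second_order_max hf hm (ξ j)
  simpa using this

theorem gamB_eq_zero_of_max (G : MetricField n) {y : En n} {f : En n → ℝ} (hm : IsLocalMax f y)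
    (h : En n → ℝ) : Bo84.gam G f h y = 0 := by
  simp [Bo84.gam, pderiv, hm.fderiv_eq_zero]

variable {M : Type*} [TopologicalSpace M] [ChartedSpace (En n) M] [IsManifold 𝓘(ℝ, En n) ∞ M]
  (m : Met n M) {f h w : M → ℝ} {p x : M} {y : En n}

theorem isLocalMax_inCh (hm : IsLocalMax f p) : IsLocalMax (Bo84.inCh n p f) (ctr n p) := by
  have hz := mem_chart_source (En n) p
  have hc : ContinuousAt (chartAt (En n) p).symm (chartAt (En n) p p) :=
    (chartAt (En n) p).continuousAt_symm ((chartAt (En n) p).map_source hz)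
  have h1 := hc.tendsto
  rw [(chartAt (En n) p).left_inv hz] at h1
  have h2 := h1.eventually hm
  filter_upwards [h2] with a ha
  show f ((chartAt (En n) p).symm a) ≤ f ((chartAt (En n) p).symm (chartAt (En n) p p))
  rw [(chartAt (En n) p).left_inv hz]
  exact ha

/-- the bundle instance of `m` on `M` itself -/
@[reducible] def rb : RiemannianBundle (fun x : M => TangentSpace 𝓘(ℝ, En n) x) :=
  ⟨m.toRiemannianMetric⟩

theorem c2 (hf : Sm n f) (p : M) : ContMDiffAt 𝓘(ℝ, En n) 𝓘(ℝ, ℝ) 2 f p :=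
  (hf p).of_le Bo84.two_le_infty

theorem md (hf : Sm n f) (p : M) : MDifferentiableAt 𝓘(ℝ, En n) 𝓘(ℝ, ℝ) f p :=
  (hf p).mdifferentiableAt (by simp)

theorem gam_chart (hy : y ∈ tg n x) (f h : M → ℝ) :
    m.gam f h ((chartAt (En n) x).symm y) =
      Bo84.gam (m.G x) (Bo84.inCh n x f) (Bo84.inCh n x h) y :=
  letI := rb m
  Bo84.mGam_chart hy f h

theorem lap_chart (hy : y ∈ tg n x)
    (hf : ContMDiffAt 𝓘(ℝ, En n) 𝓘(ℝ, ℝ) 2 f ((chartAt (En n) x).symm y)) :
    m.lap f ((chartAt (En n) x).symm y) = laplaceBeltrami (m.G x) (Bo84.inCh n x f) y := by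
  letI := rb m
  have h1 := Bo84.mLap_chart (n := n) hy hf
  exact h1

theorem ip_chart {S T : CT n M k} (hS : Compat S) (hT : Compat T) (hy : y ∈ tg n x) :
    m.ip S T ((chartAt (En n) x).symm y) = ip (m.G x) (S x) (T x) y :=
  (Rel.ip (m.pull_trans x _) (hS.rel x _) (hT.rel x _) (mem_tdom_self hy)).symm

theorem scal_chart (hy : y ∈ tg n x) :
    m.scal ((chartAt (En n) x).symm y) = scalarCurv (m.G x) y :=
  (AI.scalarCurv_pull (m.pull_trans x _) (mem_tdom_self hy)).symm

theorem gam_comm (f h : M → ℝ) (p : M) : m.gam f h p = m.gam h f p :=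
  letI := rb m
  Bo84.mGam_comm f h p

theorem gam_nonneg (f : M → ℝ) (p : M) : 0 ≤ m.gam f f p :=
  letI := rb m
  Bo84.mGam_self_nonneg f p

theorem gam_sq_le (f h : M → ℝ) (p : M) : m.gam f h p ^ 2 ≤ m.gam f f p * m.gam h h p :=
  letI := rb m
  Bo84.mGam_sq_le f h p

theorem gam_add (hf : MDifferentiableAt 𝓘(ℝ, En n) 𝓘(ℝ, ℝ) f p)
    (hh : MDifferentiableAt 𝓘(ℝ, En n) 𝓘(ℝ, ℝ) h p) (w : M → ℝ) :
    m.gam (fun q => f q + h q) w p = m.gam f w p + m.gam h w p := by
  letI := rb m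
  have h1 := Bo84.mGam_add_left (n := n) (k := w) hf hh
  exact h1

theorem gam_mul (hf : MDifferentiableAt 𝓘(ℝ, En n) 𝓘(ℝ, ℝ) f p)
    (hh : MDifferentiableAt 𝓘(ℝ, En n) 𝓘(ℝ, ℝ) h p) (w : M → ℝ) :
    m.gam (fun q => f q * h q) w p = f p * m.gam h w p + h p * m.gam f w p := by
  letI := rb m
  have h1 := Bo84.mGam_mul_left (n := n) (k := w) hf hh
  exact h1

theorem gam_comp {φ : ℝ → ℝ} (hφ : DifferentiableAt ℝ φ (f p))
    (hf : MDifferentiableAt 𝓘(ℝ, En n) 𝓘(ℝ, ℝ) f p) (w : M → ℝ) :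
    m.gam (fun q => φ (f q)) w p = deriv φ (f p) * m.gam f w p := by
  letI := rb m
  have h1 := Bo84.mGam_comp_left (n := n) (k := w) hφ hf
  exact h1

theorem lap_add (hf : ContMDiffAt 𝓘(ℝ, En n) 𝓘(ℝ, ℝ) 2 f p)
    (hh : ContMDiffAt 𝓘(ℝ, En n) 𝓘(ℝ, ℝ) 2 h p) :
    m.lap (fun q => f q + h q) p = m.lap f p + m.lap h p := by
  letI := rb m
  have h1 := Bo84.mLap_add (n := n) hf hh
  exact h1


theorem lap_mul (hf : ContMDiffAt 𝓘(ℝ, En n) 𝓘(ℝ, ℝ) 2 f p)
    (hh : ContMDiffAt 𝓘(ℝ, En n) 𝓘(ℝ, ℝ) 2 h p) :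
    m.lap (fun q => f q * h q) p = f p * m.lap h p + h p * m.lap f p + 2 * m.gam f h p := by
  letI := rb m
  have h1 := Bo84.mLap_mul (n := n) hf hh
  exact h1

theorem lap_comp {φ : ℝ → ℝ} (hφ : ContDiffAt ℝ 2 φ (f p))
    (hf : ContMDiffAt 𝓘(ℝ, En n) 𝓘(ℝ, ℝ) 2 f p) :
    m.lap (fun q => φ (f q)) p =
      deriv φ (f p) * m.lap f p + deriv (deriv φ) (f p) * m.gam f f p := by
  letI := rb m
  have h1 := Bo84.mLap_comp (n := n) hφ hf
  exact h1



theorem lap_nonpos_of_max (hf : ContMDiffAt 𝓘(ℝ, En n) 𝓘(ℝ, ℝ) 2 f p) (hm : IsLocalMax f p) :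
    m.lap f p ≤ 0 :=
  letI := rb m
  lapB_nonpos_of_max (m.isRiem p) (mem_chart_target (En n) p)
    (Bo84.contDiffAt_centre Bo84.two_le_infty hf) (isLocalMax_inCh hm)

theorem gam_eq_zero_of_max (hm : IsLocalMax f p) (h : M → ℝ) : m.gam f h p = 0 :=
  gamB_eq_zero_of_max _ (isLocalMax_inCh hm) _

/-! ### joint smoothness -/

variable {g : ℝ → Met n M} {J : Set ℝ} {u v : ℝ → M → ℝ}

theorem sm_of_smST (hu : SmST n u J) {t : ℝ} (ht : t ∈ J) : Sm n (u t) :=
  sm_of_inCh fun x => st_slice (f := fun t => Bo84.inCh n x (u t)) (hu x) ht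

theorem smST_gam (hg : SmFam g J) (hu : SmST n u J) (hv : SmST n v J) :
    SmST n (fun t => (g t).gam (u t) (v t)) J := fun x =>
  ((hg.cfam x).st_gam (f := fun t => Bo84.inCh n x (u t)) (h := fun t => Bo84.inCh n x (v t))
    (hu x) (hv x)).congr fun q hq => gam_chart (g q.1) hq.2 _ _

theorem smST_lap (hg : SmFam g J) (hu : SmST n u J) : SmST n (fun t => (g t).lap (u t)) J :=
  fun x => ((hg.cfam x).st_lap (f := fun t => Bo84.inCh n x (u t)) (hu x)).congr fun q hq =>
    lap_chart (g q.1) hq.2 (c2 (sm_of_smST hu hq.1) _)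

theorem smST_scal (hg : SmFam g J) : SmST n (fun t => (g t).scal) J := fun x =>
  (hg.cfam x).st_scal.congr fun q hq => scal_chart (g q.1) hq.2

theorem smST_ip (hg : SmFam g J) {S T : ℝ → CT n M k} (hS : GlobST S J) (hT : GlobST T J) :
    SmST n (fun t => (g t).ip (S t) (T t)) J := fun x =>
  ((hg.cfam x).st_ip (hS.sm x) (hT.sm x)).congr fun q hq =>
    ip_chart (g q.1) (hS.compat _ hq.1) (hT.compat _ hq.1) hq.2

theorem globST_hess (hg : SmFam g J) (hu : SmST n u J) :
    GlobST (fun t => (g t).hess (u t)) J :=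
  ⟨fun x => SmTT.hessT (f := fun t => Bo84.inCh n x (u t)) (hg.cfam x) (hu x),
    fun t ht => (IsGlob.hess (g t) (sm_of_smST hu ht)).compat⟩

theorem globST_covN_ric (hg : SmFam g J) (j : ℕ) :
    GlobST (fun t => (g t).covN (g t).ric j) J :=
  ⟨fun x => SmTT.covN (hg.cfam x) (hg.cfam x).smTT_ricT j,
    fun t _ => ((g t).glob_ric.covN (g t) j).compat⟩

theorem globST_covN_riem (hg : SmFam g J) (j : ℕ) :
    GlobST (fun t => (g t).covN (g t).riem j) J :=
  ⟨fun x => SmTT.covN (hg.cfam x) (hg.cfam x).smTT_rmT j,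
    fun t _ => ((g t).glob_riem.covN (g t) j).compat⟩

theorem smST_rm (hg : SmFam g J) (j : ℕ) : SmST n (fun t => (g t).rm j) J :=
  smST_ip hg (globST_covN_riem hg j) (globST_covN_riem hg j)

theorem smST_rc (hg : SmFam g J) (j : ℕ) : SmST n (fun t => (g t).rc j) J :=
  smST_ip hg (globST_covN_ric hg j) (globST_covN_ric hg j)

end Crest.Agent.N207.Sta

end
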