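import Crest.Agent.N207.AI.Ev
import Crest.Agent.N207.A.Mk

/-!
# Row 207, block A (helper8): pointwise algebra of component arrays
-/

set_option autoImplicit false

open scoped ContDiff Topology
open Finset Function Filter
open Crest.GeometryTopology.CoordMetric Crest.GeometryTopology.ChartCurvature
open Crest.Agent.R202.Tens Crest.Agent.R247.Bo84 Crest.Agent.N207.AI

noncomputable section

namespace Crest.Agent.N207.Ar

variable {n k l : ℕ} {A A' H : Matrix (Fin n) (Fin n) ℝ}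

theorem exists_fr (hA : A.PosDef) : ∃ e, IsFrame A e := by
  obtain ⟨e, h1, h2⟩ := exists_frame_matrix hA
  exact ⟨e, h1, h2⟩

/-! ### bilinearity -/

theorem ipA_add_left (H : Matrix (Fin n) (Fin n) ℝ) (B B' C : Arr n k) :
    ipA H (B + B') C = ipA H B C + ipA H B' C := by
  simp only [ipA, Pi.add_apply, add_mul, mul_add, sum_add_distrib]

theorem ipA_add_right (H : Matrix (Fin n) (Fin n) ℝ) (B C C' : Arr n k) :
    ipA H B (C + C') = ipA H B C + ipA H B C' := by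
  simp only [ipA, Pi.add_apply, mul_add, sum_add_distrib]

theorem ipA_sub_left (H : Matrix (Fin n) (Fin n) ℝ) (B B' C : Arr n k) :
    ipA H (B - B') C = ipA H B C - ipA H B' C := by
  simp only [ipA, Pi.sub_apply, sub_mul, mul_sub, sum_sub_distrib]

theorem ipA_sub_right (H : Matrix (Fin n) (Fin n) ℝ) (B C C' : Arr n k) :
    ipA H B (C - C') = ipA H B C - ipA H B C' := by
  simp only [ipA, Pi.sub_apply, mul_sub, sum_sub_distrib]

theorem ipA_smul_left (H : Matrix (Fin n) (Fin n) ℝ) (c : ℝ) (B C : Arr n k) :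
    ipA H (c • B) C = c * ipA H B C := by
  simp only [ipA, Pi.smul_apply, smul_eq_mul, mul_sum]
  exact sum_congr rfl fun I _ => sum_congr rfl fun J _ => by ring

theorem ipA_smul_right (H : Matrix (Fin n) (Fin n) ℝ) (c : ℝ) (B C : Arr n k) :
    ipA H B (c • C) = c * ipA H B C := by
  simp only [ipA, Pi.smul_apply, smul_eq_mul, mul_sum]
  exact sum_congr rfl fun I _ => sum_congr rfl fun J _ => by ring

theorem ipA_neg_left (H : Matrix (Fin n) (Fin n) ℝ) (B C : Arr n k) :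
    ipA H (-B) C = -ipA H B C := by
  rw [← neg_one_smul ℝ B, ipA_smul_left]; ring

theorem ipA_neg_right (H : Matrix (Fin n) (Fin n) ℝ) (B C : Arr n k) :
    ipA H B (-C) = -ipA H B C := by
  rw [← neg_one_smul ℝ C, ipA_smul_right]; ring

theorem ipA_zero_left (H : Matrix (Fin n) (Fin n) ℝ) (C : Arr n k) : ipA H 0 C = 0 := by
  simp [ipA]

theorem ipA_zero_right (H : Matrix (Fin n) (Fin n) ℝ) (C : Arr n k) : ipA H C 0 = 0 := by
  simp [ipA]


theorem ipA_sum_right (H : Matrix (Fin n) (Fin n) ℝ) {ι : Type*} (s : Finset ι) (B : Arr n k)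
    (C : ι → Arr n k) : ipA H B (∑ i ∈ s, C i) = ∑ i ∈ s, ipA H B (C i) := by
  classical
  induction s using Finset.induction_on with
  | empty => simp [ipA_zero_right]
  | insert a s ha ih => rw [sum_insert ha, sum_insert ha, ipA_add_right, ih]

theorem ipA_scale (H : Matrix (Fin n) (Fin n) ℝ) (c : ℝ) (B C : Arr n k) :
    ipA (c • H) B C = c ^ k * ipA H B C := by
  simp only [ipA, Matrix.smul_apply, smul_eq_mul, prod_mul_distrib, prod_const, card_univ,
    Fintype.card_fin, mul_sum, mul_assoc]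

theorem ipA_one (B C : Arr n k) : ipA 1 B C = ∑ I, B I * C I := by
  refine sum_congr rfl fun I _ => ?_
  rw [sum_eq_single I]
  · simp
  · intro J _ hJ
    obtain ⟨s, hs⟩ := Function.ne_iff.1 hJ
    rw [prod_eq_zero (mem_univ s), zero_mul]
    exact Matrix.one_apply_ne (Ne.symm hs)
  · simp

theorem ipA_rank0 (H : Matrix (Fin n) (Fin n) ℝ) (B C : Arr n 0) :
    ipA H B C = B ![] * C ![] := by
  simp only [ipA, Fintype.sum_unique, univ_eq_empty, prod_empty, one_mul]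
  rfl

theorem ipA_succ (H : Matrix (Fin n) (Fin n) ℝ) (B C : Arr n (k + 1)) :
    ipA H B C = ∑ a, ∑ b, H a b * ipA H (fun J => B (Fin.cons a J)) fun J => C (Fin.cons b J) := by
  simp only [ipA, AI.sum_cons (k := k), Fin.prod_univ_succ, Fin.cons_zero, Fin.cons_succ, mul_sum]
  refine sum_congr rfl fun a _ => ?_
  rw [sum_comm]
  exact sum_congr rfl fun b _ => sum_congr rfl fun I _ => sum_congr rfl fun J _ => by ring

theorem ipA_rank1 (H : Matrix (Fin n) (Fin n) ℝ) (B C : Arr n 1) :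
    ipA H B C = ∑ a, ∑ b, H a b * (B ![a] * C ![b]) := by
  rw [ipA_succ]; simp only [ipA_rank0]; rfl

theorem ipA_rank2 (H : Matrix (Fin n) (Fin n) ℝ) (B C : Arr n 2) :
    ipA H B C = ∑ a, ∑ b, H a b * ∑ c, ∑ d, H c d * (B ![a, c] * C ![b, d]) := by
  rw [ipA_succ]; simp only [ipA_rank1]; rfl

/-- invariance under a renaming of the slots -/
theorem ipA_perm (H : Matrix (Fin n) (Fin n) ℝ) (σ : Fin k ≃ Fin l) (B C : Arr n k) :
    ipA H (fun I : Fin l → Fin n => B (I ∘ σ)) (fun I => C (I ∘ σ)) = ipA H B C := by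
  let e : (Fin l → Fin n) ≃ (Fin k → Fin n) := (Equiv.arrowCongr σ (Equiv.refl _)).symm
  unfold ipA
  rw [← e.sum_comp]
  refine sum_congr rfl fun I _ => ?_
  rw [← e.sum_comp]
  refine sum_congr rfl fun J _ => ?_
  rw [← σ.prod_comp]
  rfl


/-! ### positivity, Cauchy-Schwarz -/

theorem ipA_comm (hA : A.PosDef) (B C : Arr n k) : ipA A⁻¹ B C = ipA A⁻¹ C B := by
  obtain ⟨e, he⟩ := exists_fr hA
  simp only [ipA_frame he.inv, mul_comm]

theorem ipA_self_eq {e : Fin n → En n} (he : IsFrame A e) (B : Arr n k) :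
    ipA A⁻¹ B B = ∑ I, frA e B I ^ 2 := by
  simp only [ipA_frame he.inv, sq]

theorem ipA_nonneg (hA : A.PosDef) (B : Arr n k) : 0 ≤ ipA A⁻¹ B B := by
  obtain ⟨e, he⟩ := exists_fr hA
  rw [ipA_self_eq he]
  positivity

theorem ipA_sq_le (hA : A.PosDef) (B C : Arr n k) :
    ipA A⁻¹ B C ^ 2 ≤ ipA A⁻¹ B B * ipA A⁻¹ C C := by
  obtain ⟨e, he⟩ := exists_fr hA
  rw [ipA_self_eq he, ipA_self_eq he, ipA_frame he.inv]
  exact sum_mul_sq_le_sq_mul_sq _ _ _

theorem abs_ipA_le (hA : A.PosDef) (B C : Arr n k) :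
    |ipA A⁻¹ B C| ≤ √(ipA A⁻¹ B B) * √(ipA A⁻¹ C C) := by
  rw [← Real.sqrt_mul (ipA_nonneg hA B)]
  exact Real.abs_le_sqrt (ipA_sq_le hA B C)

theorem ipA_add_self (hA : A.PosDef) (B C : Arr n k) :
    ipA A⁻¹ (B + C) (B + C) = ipA A⁻¹ B B + 2 * ipA A⁻¹ B C + ipA A⁻¹ C C := by
  rw [ipA_add_left, ipA_add_right, ipA_add_right, ipA_comm hA C B]; ring

theorem ipA_sub_self (hA : A.PosDef) (B C : Arr n k) :
    ipA A⁻¹ (B - C) (B - C) = ipA A⁻¹ B B - 2 * ipA A⁻¹ B C + ipA A⁻¹ C C := by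
  rw [ipA_sub_left, ipA_sub_right, ipA_sub_right, ipA_comm hA C B]; ring

theorem sqrt_add_le (hA : A.PosDef) (B C : Arr n k) :
    √(ipA A⁻¹ (B + C) (B + C)) ≤ √(ipA A⁻¹ B B) + √(ipA A⁻¹ C C) := by
  rw [Real.sqrt_le_left (by positivity), ipA_add_self hA, add_sq,
    Real.sq_sqrt (ipA_nonneg hA B), Real.sq_sqrt (ipA_nonneg hA C)]
  have := (le_abs_self _).trans (abs_ipA_le hA B C)
  linarith

theorem sqrt_smul (c : ℝ) (B : Arr n k) :
    √(ipA H (c • B) (c • B)) = |c| * √(ipA H B B) := by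
  rw [ipA_smul_left, ipA_smul_right, ← mul_assoc, ← sq, Real.sqrt_mul (sq_nonneg c),
    Real.sqrt_sq_eq_abs]

theorem sqrt_sub_le (hA : A.PosDef) (B C : Arr n k) :
    √(ipA A⁻¹ (B - C) (B - C)) ≤ √(ipA A⁻¹ B B) + √(ipA A⁻¹ C C) := by
  have h := sqrt_add_le hA B (-C)
  rwa [← sub_eq_add_neg, ipA_neg_left, ipA_neg_right, neg_neg] at h



theorem ipA_sub_le (hA : A.PosDef) (B C : Arr n k) :
    ipA A⁻¹ (B - C) (B - C) ≤ 2 * ipA A⁻¹ B B + 2 * ipA A⁻¹ C C := by
  have h := ipA_nonneg hA (B + C)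
  rw [ipA_add_self hA] at h
  rw [ipA_sub_self hA]; linarith

/-! ### frames -/

theorem fr_expand (hA : A.PosDef) {e : Fin n → En n} (he : IsFrame A e) (X : En n) :
    X = ∑ a, bil A X (e a) • e a :=
  IsFrame.expand (g := fun _ => A) (U := Set.univ) (x := 0)
    ⟨isOpen_univ, fun _ _ => contDiffOn_const, fun _ _ => hA⟩ (Set.mem_univ _) he X

theorem fr_bil (hA : A.PosDef) {e : Fin n → En n} (he : IsFrame A e) (X Y : En n) :
    bil A X Y = ∑ a, bil A X (e a) * bil A Y (e a) :=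
  IsFrame.bil_eq (g := fun _ => A) (U := Set.univ) (x := 0)
    ⟨isOpen_univ, fun _ _ => contDiffOn_const, fun _ _ => hA⟩ (Set.mem_univ _) he X Y

theorem bil_nonneg (hA : A.PosDef) (X : En n) : 0 ≤ bil A X X := by
  by_cases h : X = 0
  · simp [h]
  · exact (bil_pos_of hA h).le

theorem evT_fr (hA : A.PosDef) {e : Fin n → En n} (he : IsFrame A e) (B : Arr n k)
    (v : Fin k → En n) :
    evT B v = ∑ I : Fin k → Fin n, (∏ s, bil A (v s) (e (I s))) * frA e B I := by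
  have h : v = fun s => ∑ a, bil A (v s) (e a) • e a := funext fun s => fr_expand hA he (v s)
  conv_lhs => rw [h]
  rw [evT_expand]
  rfl

/-- `|B(v₁, .., vₖ)|² ≤ |B|² ∏ |vₛ|²` -/
theorem evT_sq_le (hA : A.PosDef) (B : Arr n k) (v : Fin k → En n) :
    evT B v ^ 2 ≤ ipA A⁻¹ B B * ∏ s, bil A (v s) (v s) := by
  obtain ⟨e, he⟩ := exists_fr hA
  rw [evT_fr hA he, ipA_self_eq he, mul_comm]
  refine (sum_mul_sq_le_sq_mul_sq _ _ _).trans_eq ?_
  congr 1
  simp only [fr_bil hA he (v _) (v _), ← sq]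
  rw [Finset.prod_univ_sum, Fintype.piFinset_univ]
  exact sum_congr rfl fun I _ => (prod_pow _ _ _).symm

theorem abs_evT_le (hA : A.PosDef) (B : Arr n k) (v : Fin k → En n) :
    |evT B v| ≤ √(ipA A⁻¹ B B) * ∏ s, √(bil A (v s) (v s)) := by
  rw [← Real.sqrt_prod _ fun s _ => bil_nonneg hA (v s), ← Real.sqrt_mul (ipA_nonneg hA B)]
  exact Real.abs_le_sqrt (evT_sq_le hA B v)

/-- components are bounded by the norm -/
theorem comp_sq_le (hA : A.PosDef) {c : ℝ} (hc : ∀ v : En n, bil A v v ≤ c * ‖v‖ ^ 2) (B : Arr n k)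
    (I : Fin k → Fin n) : B I ^ 2 ≤ c ^ k * ipA A⁻¹ B B := by
  rw [← evT_single B I, mul_comm]
  refine (evT_sq_le hA B _).trans (mul_le_mul_of_nonneg_left ?_ (ipA_nonneg hA B))
  calc ∏ s, bil A (eb (I s)) (eb (I s)) ≤ ∏ _s : Fin k, c :=
        prod_le_prod (fun s _ => bil_nonneg hA _) fun s _ => by simpa using hc (eb (I s))
    _ = c ^ k := by simp

theorem eq_zero_of_ipA (hA : A.PosDef) {B : Arr n k} (h : ipA A⁻¹ B B = 0) : B = 0 := by
  funext I
  have h1 := evT_sq_le hA B fun s => eb (I s)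
  rw [evT_single, h, zero_mul] at h1
  exact pow_eq_zero_iff (two_ne_zero) |>.1 (le_antisymm h1 (sq_nonneg _))

/-- the slice `B(X, ·)` -/
def slc (X : En n) (B : Arr n (k + 1)) : Arr n k := fun J => ∑ a, X a * B (Fin.cons a J)

theorem evT_slc (X : En n) (B : Arr n (k + 1)) (v : Fin k → En n) :
    evT (slc X B) v = evT B (Fin.cons X v) := by
  rw [evT_cons]
  unfold slc
  simp only [evT_sum, evT_mul]

theorem frA_slc (e : Fin n → En n) (B : Arr n (k + 1)) (a : Fin n) (J : Fin k → Fin n) :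
    frA e (slc (e a) B) J = frA e B (Fin.cons a J) := by
  rw [frA_apply, evT_slc, frA_apply]
  congr 1
  funext s
  refine Fin.cases rfl (fun _ => rfl) s

theorem ipA_slc {e : Fin n → En n} (h : ∀ i j, H i j = ∑ a, e a i * e a j)
    (B C : Arr n (k + 1)) : ipA H B C = ∑ a, ipA H (slc (e a) B) (slc (e a) C) := by
  simp only [ipA_frame h, frA_slc]
  rw [AI.sum_cons]


theorem cov_le_of_le (hA : A.PosDef) (hA' : A'.PosDef) {c : ℝ} (hc0 : 0 ≤ c)
    (hc : ∀ v : En n, bil A v v ≤ c * bil A' v v) {e e' : Fin n → En n} (he : IsFrame A e)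
    (he' : IsFrame A' e') (w : Arr n 1) :
    ∑ a, evT w ![e' a] ^ 2 ≤ c * ∑ a, evT w ![e a] ^ 2 := by
  obtain ⟨s, hs⟩ : ∃ s, s = ∑ a, evT w ![e' a] ^ 2 := ⟨_, rfl⟩
  obtain ⟨v, hv⟩ : ∃ v : En n, v = ∑ a, evT w ![e' a] • e' a := ⟨_, rfl⟩
  have hs0 : 0 ≤ s := hs ▸ sum_nonneg fun a _ => sq_nonneg _
  have h1 : evT w ![v] = s := by
    have h2 := evT_update_sum univ w ![v] 0 (fun a => evT w ![e' a]) e'
    rw [← hv] at h2
    simp only [hs, sq]
    simpa only [Matrix.vecCons, Fin.update_cons_zero] using h2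
  have h2 : bil A' v v = s := by
    rw [fr_bil hA' he', hs]
    refine sum_congr rfl fun a _ => ?_
    have : bil A' v (e' a) = evT w ![e' a] := by
      simp only [hv, map_sum, map_smul, _root_.sum_apply, _root_.smul_apply, he'.orth,
        smul_eq_mul]
      simp
    rw [this, sq]
  have h3 := evT_sq_le hA w ![v]
  have h4 : ipA A⁻¹ w w = ∑ a, evT w ![e a] ^ 2 := by
    rw [ipA_self_eq he, AI.sum_cons]
    refine sum_congr rfl fun a _ => ?_
    rw [Fintype.sum_unique, frA_apply]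
    congr 2
    funext s; fin_cases s; rfl
  obtain ⟨q, hq⟩ : ∃ q, q = ∑ a, evT w ![e a] ^ 2 := ⟨_, rfl⟩
  have h6 : 0 ≤ q := hq ▸ sum_nonneg fun a _ => sq_nonneg _
  rw [h1, h4, Fin.prod_univ_one, ← hq] at h3
  have h5 : bil A v v ≤ c * s := h2 ▸ hc v
  have h7 : s ^ 2 ≤ q * (c * s) := h3.trans (mul_le_mul_of_nonneg_left h5 h6)
  rw [← hs, ← hq]
  rcases hs0.eq_or_lt with h0 | h0
  · rw [← h0]; exact mul_nonneg hc0 h6
  · nlinarith

/-- comparison of norms for comparable metrics -/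
theorem ipA_le_of_le (hA : A.PosDef) (hA' : A'.PosDef) {c : ℝ} (hc0 : 0 ≤ c)
    (hc : ∀ v : En n, bil A v v ≤ c * bil A' v v) :
    ∀ {k : ℕ} (B : Arr n k), ipA A'⁻¹ B B ≤ c ^ k * ipA A⁻¹ B B := by
  obtain ⟨e, he⟩ := exists_fr hA
  obtain ⟨e', he'⟩ := exists_fr hA'
  have key := cov_le_of_le hA hA' hc0 hc he he'
  intro k
  induction k with
  | zero => intro B; simp [ipA_rank0]
  | succ k ih =>
      intro B
      rw [ipA_slc he'.inv, ipA_slc he.inv]
      calc ∑ a, ipA A'⁻¹ (slc (e' a) B) (slc (e' a) B)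
          ≤ ∑ a, c ^ k * ipA A⁻¹ (slc (e' a) B) (slc (e' a) B) := sum_le_sum fun a _ => ih _
        _ = c ^ k * ∑ J : Fin k → Fin n, ∑ a, frA e (slc (e' a) B) J ^ 2 := by
            rw [← mul_sum, sum_comm]; simp only [ipA_self_eq he]
        _ ≤ c ^ k * ∑ J : Fin k → Fin n, c * ∑ a, frA e (slc (e a) B) J ^ 2 := by
            refine mul_le_mul_of_nonneg_left (sum_le_sum fun J _ => ?_) (by positivity)
            have h := key fun I => evT (fun K => B (Fin.cons (I 0) K)) fun s => e (J s)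
            simp only [evT_one] at h
            simp only [frA_apply, evT_slc, evT_cons]
            exact h
        _ = c ^ (k + 1) * ∑ a, ipA A⁻¹ (slc (e a) B) (slc (e a) B) := by
            rw [← mul_sum, sum_comm, pow_succ, mul_assoc]; simp only [ipA_self_eq he]

theorem bil_one (v : En n) : bil (1 : Matrix (Fin n) (Fin n) ℝ) v v = ‖v‖ ^ 2 := by
  rw [bil_apply, EuclideanSpace.real_norm_sq_eq]
  refine sum_congr rfl fun i _ => ?_
  rw [sum_eq_single i]
  · simp [sq]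
  · intro j _ hj
    simp [Matrix.one_apply_ne (Ne.symm hj)]
  · simp

/-- the norm is bounded by the components -/
theorem ipA_le_sum_sq (hA : A.PosDef) {c : ℝ} (hc0 : 0 ≤ c)
    (hc : ∀ v : En n, ‖v‖ ^ 2 ≤ c * bil A v v) (B : Arr n k) :
    ipA A⁻¹ B B ≤ c ^ k * ∑ I, B I ^ 2 := by
  have h := ipA_le_of_le Matrix.PosDef.one hA hc0 (fun v => by rw [bil_one]; exact hc v) B
  rwa [inv_one, ipA_one, ← funext fun I => sq (B I)] at h

theorem sum_sq_le_ipA (hA : A.PosDef) {c : ℝ} (hc0 : 0 ≤ c)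
    (hc : ∀ v : En n, bil A v v ≤ c * ‖v‖ ^ 2) (B : Arr n k) :
    ∑ I, B I ^ 2 ≤ c ^ k * ipA A⁻¹ B B := by
  have h := ipA_le_of_le hA Matrix.PosDef.one hc0 (fun v => by rw [bil_one]; exact hc v) B
  rwa [inv_one, ipA_one, ← funext fun I => sq (B I)] at h

/-! ### traces and contractions -/

theorem ipA_tr_le (hA : A.PosDef) (B : Arr n (k + 2)) :
    ipA A⁻¹ (fun I => ∑ a, ∑ b, A⁻¹ a b * B (Fin.cons a (Fin.cons b I)))
      (fun I => ∑ a, ∑ b, A⁻¹ a b * B (Fin.cons a (Fin.cons b I))) ≤ n * ipA A⁻¹ B B := by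
  obtain ⟨e, he⟩ := exists_fr hA
  rw [ipA_self_eq he, ipA_self_eq he, AI.sum_cons]
  simp only [AI.sum_cons (k := k)]
  have h1 : ∀ (c : Fin n) (I : Fin k → Fin n), evT B (Fin.cons (e c) (Fin.cons (e c) fun s => e (I s)))
      = frA e B (Fin.cons c (Fin.cons c I)) := by
    intro c I
    rw [frA_apply]
    congr 1
    funext s
    refine Fin.cases rfl (fun s => Fin.cases rfl (fun _ => rfl) s) s
  calc ∑ I : Fin k → Fin n, frA e (fun I => ∑ a, ∑ b, A⁻¹ a b * B (Fin.cons a (Fin.cons b I))) I ^ 2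
      ≤ ∑ I : Fin k → Fin n, n * ∑ c, frA e B (Fin.cons c (Fin.cons c I)) ^ 2 := by
        refine sum_le_sum fun I _ => ?_
        rw [frA_apply, evT_tr he.inv]
        simp only [h1]
        simpa using sq_sum_le_card_mul_sum_sq (s := univ)
          (f := fun c => frA e B (Fin.cons c (Fin.cons c I)))
    _ ≤ _ := by
        rw [← mul_sum, sum_comm]
        refine mul_le_mul_of_nonneg_left (sum_le_sum fun a _ => ?_) (Nat.cast_nonneg n)
        exact single_le_sum (f := fun b => ∑ I : Fin k → Fin n,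
          frA e B (Fin.cons a (Fin.cons b I)) ^ 2) (fun b _ => by positivity) (mem_univ a)

theorem evT_con (H : Matrix (Fin n) (Fin n) ℝ) (S : Arr n k) (T : Arr n (k + 1)) (X : En n) :
    evT (fun I : Fin 1 → Fin n => ipA H S fun J => T (Fin.cons (I 0) J)) ![X] =
      ipA H S (slc X T) := by
  rw [evT_one]
  have : slc X T = ∑ a, X a • fun J => T (Fin.cons a J) := by
    funext J; simp [slc, Finset.sum_apply]
  rw [this, ipA_sum_right]
  simp only [ipA_smul_right]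
  rfl

theorem ipA_con_le (hA : A.PosDef) (S : Arr n k) (T : Arr n (k + 1)) :
    ipA A⁻¹ (fun I : Fin 1 → Fin n => ipA A⁻¹ S fun J => T (Fin.cons (I 0) J))
      (fun I : Fin 1 → Fin n => ipA A⁻¹ S fun J => T (Fin.cons (I 0) J)) ≤
      ipA A⁻¹ S S * ipA A⁻¹ T T := by
  obtain ⟨e, he⟩ := exists_fr hA
  rw [ipA_self_eq he, AI.sum_cons, ipA_slc he.inv T T, mul_sum]
  refine sum_le_sum fun a _ => ?_
  rw [Fintype.sum_unique, frA_apply]
  have : (fun s : Fin 1 => e ((Fin.cons a default : Fin 1 → Fin n) s)) = ![e a] := by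
    funext s; fin_cases s; rfl
  rw [this, evT_con]
  exact ipA_sq_le hA _ _

end Crest.Agent.N207.Ar

end
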