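import Crest.Agent.N207.Tens

/-!
# Row 207, block A2 (helper41), file 1: `pderiv` calculus, smoothness closure, locality
-/

set_option autoImplicit false

open scoped ContDiff Topology
open Filter Set
open Crest.GeometryTopology.CoordMetric Crest.GeometryTopology.ChartCurvature
  Crest.GeometryTopology.MetricFamily
open Crest.Agent.R202.Tens Crest.Agent.R247

noncomputable section

namespace Crest.Agent.N207

variable {n k : ℕ} {G G' : MetricField n} {U V : Set (En n)} {y : En n}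

/-! ### `pderiv` calculus -/

section Pd

variable {f g : En n → ℝ} (i : Fin n)

theorem pd_const (c : ℝ) : pderiv i (fun _ : En n => c) y = 0 := by simp [pderiv]

theorem pd_add (hf : DifferentiableAt ℝ f y) (hg : DifferentiableAt ℝ g y) :
    pderiv i (fun z => f z + g z) y = pderiv i f y + pderiv i g y := by
  simp [pderiv, fderiv_fun_add hf hg]

theorem pd_sub (hf : DifferentiableAt ℝ f y) (hg : DifferentiableAt ℝ g y) :
    pderiv i (fun z => f z - g z) y = pderiv i f y - pderiv i g y := by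
  simp [pderiv, fderiv_fun_sub hf hg]

theorem pd_neg : pderiv i (fun z => -f z) y = -pderiv i f y := by
  simp [pderiv, fderiv_fun_neg]

theorem pd_mul (hf : DifferentiableAt ℝ f y) (hg : DifferentiableAt ℝ g y) :
    pderiv i (fun z => f z * g z) y = pderiv i f y * g y + f y * pderiv i g y := by
  simp only [pderiv, fderiv_fun_mul hf hg, add_apply, smul_apply, smul_eq_mul]
  ring

theorem pd_cmul (c : ℝ) : pderiv i (fun z => c * f z) y = c * pderiv i f y := by
  have h : (fun z => c * f z) = c • f := rfl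
  rw [pderiv, h, fderiv_const_smul_field]
  rfl

theorem pd_sum {ι : Type*} (s : Finset ι) {F : ι → En n → ℝ}
    (hF : ∀ a ∈ s, DifferentiableAt ℝ (F a) y) :
    pderiv i (fun z => ∑ a ∈ s, F a z) y = ∑ a ∈ s, pderiv i (F a) y := by
  simp [pderiv, fderiv_fun_sum hF]

theorem pd_prod {ι : Type*} [DecidableEq ι] (s : Finset ι) {F : ι → En n → ℝ}
    (hF : ∀ a ∈ s, DifferentiableAt ℝ (F a) y) :
    pderiv i (fun z => ∏ a ∈ s, F a z) y =
      ∑ a ∈ s, (∏ b ∈ s.erase a, F b y) * pderiv i (F a) y := by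
  have h := (HasFDerivAt.finsetProd (fun a ha => (hF a ha).hasFDerivAt)).fderiv
  rw [pderiv, h]
  simp [pderiv]

theorem pd_congr (h : f =ᶠ[𝓝 y] g) : pderiv i f y = pderiv i g y := by
  rw [pderiv, pderiv, h.fderiv_eq]

theorem pd_congr_ev (h : f =ᶠ[𝓝 y] g) : pderiv i f =ᶠ[𝓝 y] pderiv i g :=
  h.eventuallyEq_nhds.mono fun _ hz => pd_congr i hz

theorem pd_congr_on (hU : IsOpen U) (hy : y ∈ U) (h : ∀ z ∈ U, f z = g z) :
    pderiv i f y = pderiv i g y :=
  pd_congr i (Filter.mem_of_superset (hU.mem_nhds hy) h)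

theorem pd_comp {φ : ℝ → ℝ} (hφ : DifferentiableAt ℝ φ (f y)) (hf : DifferentiableAt ℝ f y) :
    pderiv i (fun z => φ (f z)) y = deriv φ (f y) * pderiv i f y := by
  have h := (hφ.hasDerivAt.comp_hasFDerivAt y hf.hasFDerivAt).fderiv
  have h2 : (fun z => φ (f z)) = φ ∘ f := rfl
  rw [pderiv, h2, h]
  rfl

theorem pd_comm (j : Fin n) (hf : ContDiffAt ℝ 2 f y) :
    pderiv i (pderiv j f) y = pderiv j (pderiv i f) y := by
  have h1 : ∀ a b : Fin n, pderiv a (pderiv b f) y =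
      fderiv ℝ (fderiv ℝ f) y (EuclideanSpace.single a 1) (EuclideanSpace.single b 1) := by
    intro a b
    have hd : DifferentiableAt ℝ (fderiv ℝ f) y :=
      (hf.fderiv_right (m := 1) (by norm_num)).differentiableAt (by norm_num)
    have h2 : pderiv b f = fun z => fderiv ℝ f z (EuclideanSpace.single b 1) := rfl
    rw [pderiv, h2, fderiv_clm_apply hd (differentiableAt_const _)]
    simp
  rw [h1, h1, Bo84.fderiv2_symm hf]

end Pd

/-- a smooth function on an open set is differentiable at its points -/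
theorem dAt {f : En n → ℝ} (hf : ContDiffOn ℝ ∞ f U) (hU : IsOpen U) (hy : y ∈ U) :
    DifferentiableAt ℝ f y :=
  (hf.contDiffAt (hU.mem_nhds hy)).differentiableAt (by norm_num)

/-- a smooth function on an open set is `C²` at its points -/
theorem c2At {f : En n → ℝ} (hf : ContDiffOn ℝ ∞ f U) (hU : IsOpen U) (hy : y ∈ U) :
    ContDiffAt ℝ 2 f y :=
  (hf.contDiffAt (hU.mem_nhds hy)).of_le Bo84.two_le_infty

theorem riemOn_mono (hG : IsRiemannianOn G U) (hV : IsOpen V) (h : V ⊆ U) : IsRiemannianOn G V :=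
  ⟨hV, fun i j => (hG.contDiffOn i j).mono h, fun x hx => hG.posDef x (h hx)⟩

/-! ### smoothness -/

theorem sm_inv (hG : IsRiemannianOn G U) (a b : Fin n) :
    ContDiffOn ℝ ∞ (fun y => (G y)⁻¹ a b) U := contDiffOn_inv_entry hG a b

theorem sm_chr (hG : IsRiemannianOn G U) (a b c : Fin n) :
    ContDiffOn ℝ ∞ (fun y => christoffel G y a b c) U := contDiffOn_christoffel hG a b c

theorem sm_pd {f : En n → ℝ} (hU : IsOpen U) (hf : ContDiffOn ℝ ∞ f U) (i : Fin n) :
    ContDiffOn ℝ ∞ (pderiv i f) U := contDiffOn_pderiv hU hf i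

theorem sm_riemann (hG : IsRiemannianOn G U) (l a i j : Fin n) :
    ContDiffOn ℝ ∞ (fun y => riemann G y l a i j) U :=
  ((sm_pd hG.isOpen (sm_chr hG _ _ _) _).sub (sm_pd hG.isOpen (sm_chr hG _ _ _) _)).add
    (ContDiffOn.sum fun _ _ => ((sm_chr hG _ _ _).mul (sm_chr hG _ _ _)).sub
      ((sm_chr hG _ _ _).mul (sm_chr hG _ _ _)))

theorem sm_ricci (hG : IsRiemannianOn G U) (i j : Fin n) :
    ContDiffOn ℝ ∞ (fun y => ricci G y i j) U :=
  (ContDiffOn.sum fun a _ => sm_riemann hG a i a j).congr fun _ hy => ricci_eq_sum_riemann hG hy i j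

theorem sm_scal (hG : IsRiemannianOn G U) : ContDiffOn ℝ ∞ (scalarCurv G) U :=
  ContDiffOn.sum fun _ _ => ContDiffOn.sum fun _ _ => (sm_inv hG _ _).mul (sm_ricci hG _ _)

theorem sm_sqrt_det (hG : IsRiemannianOn G U) :
    ContDiffOn ℝ ∞ (fun y => Real.sqrt (G y).det) U := fun _ hy =>
  (Bo84.contDiffAt_sqrt_det hG hy).contDiffWithinAt

theorem sm_lap {f : En n → ℝ} (hG : IsRiemannianOn G U) (hf : ContDiffOn ℝ ∞ f U) :
    ContDiffOn ℝ ∞ (laplaceBeltrami G f) U := by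
  refine ContDiffOn.mul (contDiffOn_const.div (sm_sqrt_det hG) fun y hy => ?_)
    (ContDiffOn.sum fun i _ => sm_pd hG.isOpen ((sm_sqrt_det hG).mul
      (ContDiffOn.sum fun j _ => (sm_inv hG i j).mul (sm_pd hG.isOpen hf j))) i)
  exact (Real.sqrt_pos.2 (Bo84.det_pos hG hy)).ne'

theorem sm_gam {f h : En n → ℝ} (hG : IsRiemannianOn G U) (hf : ContDiffOn ℝ ∞ f U)
    (hh : ContDiffOn ℝ ∞ h U) : ContDiffOn ℝ ∞ (Bo84.gam G f h) U :=
  ContDiffOn.sum fun i _ => ContDiffOn.sum fun j _ =>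
    ((sm_inv hG i j).mul (sm_pd hG.isOpen hf i)).mul (sm_pd hG.isOpen hh j)

namespace SmT

variable {S T : Tn n k}

theorem mono (hT : SmT T U) (h : V ⊆ U) : SmT T V := fun I => (hT I).mono h

theorem congr (hT : SmT T U) (h : ∀ y ∈ U, S y = T y) : SmT S U := fun I =>
  (hT I).congr fun y hy => by rw [h y hy]

theorem dAt (hT : SmT T U) (hU : IsOpen U) (hy : y ∈ U) (I : Fin k → Fin n) :
    DifferentiableAt ℝ (fun z => T z I) y := N207.dAt (hT I) hU hy

theorem zero : SmT (0 : Tn n k) U := fun _ => contDiffOn_const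

theorem const (A : Arr n k) : SmT (fun _ => A) U := fun _ => contDiffOn_const

theorem add (hS : SmT S U) (hT : SmT T U) : SmT (S + T) U := fun I => (hS I).add (hT I)

theorem sub (hS : SmT S U) (hT : SmT T U) : SmT (S - T) U := fun I => (hS I).sub (hT I)

theorem neg (hT : SmT T U) : SmT (-T) U := fun I => (hT I).neg

theorem smul (c : ℝ) (hT : SmT T U) : SmT (c • T) U := fun I => contDiffOn_const.mul (hT I)

theorem sum {ι : Type*} (s : Finset ι) {F : ι → Tn n k} (hF : ∀ a ∈ s, SmT (F a) U) :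
    SmT (∑ a ∈ s, F a) U := fun I => by
  simp only [Finset.sum_apply]
  exact ContDiffOn.sum fun a ha => hF a ha I

theorem smT {f : En n → ℝ} (hf : ContDiffOn ℝ ∞ f U) (hT : SmT T U) : SmT (smT f T) U :=
  fun I => hf.mul (hT I)

theorem fnT {f : En n → ℝ} (hf : ContDiffOn ℝ ∞ f U) : SmT (fnT f) U := fun _ => hf

theorem dT {f : En n → ℝ} (hU : IsOpen U) (hf : ContDiffOn ℝ ∞ f U) : SmT (dT f) U :=
  fun I => sm_pd hU hf (I 0)

theorem matT {A : MetricField n} (hA : ∀ i j, ContDiffOn ℝ ∞ (fun y => A y i j) U) :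
    SmT (matT A) U := fun _ => hA _ _

theorem met (hG : IsRiemannianOn G U) : SmT (N207.matT G) U := matT hG.contDiffOn

theorem cov (hG : IsRiemannianOn G U) (hT : SmT T U) : SmT (cov G T) U := fun J =>
  (sm_pd hG.isOpen (hT _) (J 0)).sub
    (ContDiffOn.sum fun _ _ => ContDiffOn.sum fun _ _ => (sm_chr hG _ _ _).mul (hT _))

theorem covN (hG : IsRiemannianOn G U) (hT : SmT T U) : ∀ j, SmT (covN G T j) U
  | 0 => hT
  | j + 1 => (covN hG hT j).cov hG

theorem trT {T : Tn n (k + 2)} (hG : IsRiemannianOn G U) (hT : SmT T U) : SmT (trT G T) U :=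
  fun _ => ContDiffOn.sum fun _ _ => ContDiffOn.sum fun _ _ => (sm_inv hG _ _).mul (hT _)

theorem divT {T : Tn n (k + 1)} (hG : IsRiemannianOn G U) (hT : SmT T U) : SmT (divT G T) U :=
  (hT.cov hG).trT hG

theorem lapT (hG : IsRiemannianOn G U) (hT : SmT T U) : SmT (lapT G T) U :=
  ((hT.cov hG).cov hG).trT hG

theorem ip (hG : IsRiemannianOn G U) (hS : SmT S U) (hT : SmT T U) :
    ContDiffOn ℝ ∞ (ip G S T) U :=
  ContDiffOn.sum fun _ _ => ContDiffOn.sum fun _ _ =>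
    (contDiffOn_prod fun _ _ => sm_inv hG _ _).mul ((hS _).mul (hT _))

theorem nsq (hG : IsRiemannianOn G U) (hT : SmT T U) : ContDiffOn ℝ ∞ (nsq G T) U :=
  hT.ip hG hT

theorem conT {T : Tn n (k + 1)} (hG : IsRiemannianOn G U) (hS : SmT S U) (hT : SmT T U) :
    SmT (conT G S T) U := fun _ =>
  ContDiffOn.sum fun _ _ => ContDiffOn.sum fun _ _ =>
    (contDiffOn_prod fun _ _ => sm_inv hG _ _).mul ((hS _).mul (hT _))

theorem hessT {f : En n → ℝ} (hG : IsRiemannianOn G U) (hf : ContDiffOn ℝ ∞ f U) :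
    SmT (hessT G f) U := (dT hG.isOpen hf).cov hG

theorem ricT (hG : IsRiemannianOn G U) : SmT (ricT G) U := fun _ => sm_ricci hG _ _

theorem rmT (hG : IsRiemannianOn G U) : SmT (rmT G) U := fun I => by
  simp only [N207.rmT, riemannLower]
  exact ContDiffOn.sum fun m _ => (hG.contDiffOn (I 0) m).mul (sm_riemann hG m (I 1) (I 2) (I 3))


end SmT

/-! ### locality -/

section Congr

variable {S S' T T' : Tn n k}

theorem ev_comp {α β : Type*} {A B : En n → α} (h : A =ᶠ[𝓝 y] B) (φ : α → β) :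
    (fun z => φ (A z)) =ᶠ[𝓝 y] fun z => φ (B z) := h.mono fun _ hz => by simp only [hz]

theorem chr_congr (h : G =ᶠ[𝓝 y] G') : christoffel G y = christoffel G' y := by
  funext a b c
  simp only [christoffel, inverseField, h.eq_of_nhds,
    fun l i j => pd_congr (y := y) l (ev_comp h fun A => A i j)]

theorem chr_congr_ev (h : G =ᶠ[𝓝 y] G') : christoffel G =ᶠ[𝓝 y] christoffel G' :=
  h.eventuallyEq_nhds.mono fun _ hz => chr_congr hz


theorem ricci_congr (h : G =ᶠ[𝓝 y] G') : ricci G y = ricci G' y := by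
  funext i j
  simp only [ricci, chr_congr h,
    fun l a b c => pd_congr (y := y) l (ev_comp (chr_congr_ev h) fun A => A a b c),
    fun l c => pd_congr (y := y) l (ev_comp (chr_congr_ev h) fun A => ∑ a, A a a c)]

theorem scal_congr (h : G =ᶠ[𝓝 y] G') : scalarCurv G y = scalarCurv G' y := by
  simp only [scalarCurv, ricci_congr h, h.eq_of_nhds]

theorem ricT_congr (h : G =ᶠ[𝓝 y] G') : ricT G =ᶠ[𝓝 y] ricT G' :=
  h.eventuallyEq_nhds.mono fun z hz => by funext I; simp only [ricT, ricci_congr hz]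


theorem cov_congr (h : G =ᶠ[𝓝 y] G') (hT : T =ᶠ[𝓝 y] T') : cov G T =ᶠ[𝓝 y] cov G' T' := by
  filter_upwards [h.eventuallyEq_nhds, hT.eventuallyEq_nhds] with z hz hz'
  funext J
  simp only [cov, chr_congr hz, hz'.eq_of_nhds,
    pd_congr (J 0) (ev_comp hz' fun A => A (Fin.tail J))]

theorem covN_congr (h : G =ᶠ[𝓝 y] G') (hT : T =ᶠ[𝓝 y] T') :
    ∀ j, covN G T j =ᶠ[𝓝 y] covN G' T' j
  | 0 => hT
  | j + 1 => cov_congr h (covN_congr h hT j)

theorem trT_congr {T T' : Tn n (k + 2)} (h : G =ᶠ[𝓝 y] G') (hT : T =ᶠ[𝓝 y] T') :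
    trT G T =ᶠ[𝓝 y] trT G' T' := by
  filter_upwards [h, hT] with z hz hz'
  funext I
  simp only [trT, hz, hz']

theorem divT_congr {T T' : Tn n (k + 1)} (h : G =ᶠ[𝓝 y] G') (hT : T =ᶠ[𝓝 y] T') :
    divT G T =ᶠ[𝓝 y] divT G' T' := trT_congr h (cov_congr h hT)

theorem lapT_congr (h : G =ᶠ[𝓝 y] G') (hT : T =ᶠ[𝓝 y] T') :
    lapT G T =ᶠ[𝓝 y] lapT G' T' := trT_congr h (cov_congr h (cov_congr h hT))

theorem ip_congr (h : G =ᶠ[𝓝 y] G') (hS : S =ᶠ[𝓝 y] S') (hT : T =ᶠ[𝓝 y] T') :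
    ip G S T =ᶠ[𝓝 y] ip G' S' T' := by
  filter_upwards [h, hS, hT] with z hz hz' hz''
  simp only [ip, hz, hz', hz'']

theorem nsq_congr (h : G =ᶠ[𝓝 y] G') (hT : T =ᶠ[𝓝 y] T') : nsq G T =ᶠ[𝓝 y] nsq G' T' :=
  ip_congr h hT hT

theorem conT_congr {T T' : Tn n (k + 1)} (h : G =ᶠ[𝓝 y] G') (hS : S =ᶠ[𝓝 y] S')
    (hT : T =ᶠ[𝓝 y] T') : conT G S T =ᶠ[𝓝 y] conT G' S' T' := by
  filter_upwards [h, hS, hT] with z hz hz' hz''
  funext I
  simp only [conT, hz, hz', hz'']

theorem dT_congr {f f' : En n → ℝ} (h : f =ᶠ[𝓝 y] f') : dT f =ᶠ[𝓝 y] dT f' :=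
  h.eventuallyEq_nhds.mono fun z hz => by funext I; exact pd_congr (I 0) hz

theorem hessT_congr {f f' : En n → ℝ} (h : G =ᶠ[𝓝 y] G') (hf : f =ᶠ[𝓝 y] f') :
    hessT G f =ᶠ[𝓝 y] hessT G' f' := cov_congr h (dT_congr hf)


theorem lapB_congr {f f' : En n → ℝ} (h : G =ᶠ[𝓝 y] G') (hf : f =ᶠ[𝓝 y] f') :
    laplaceBeltrami G f =ᶠ[𝓝 y] laplaceBeltrami G' f' := by
  filter_upwards [h.eventuallyEq_nhds, hf.eventuallyEq_nhds] with z hz hz'
  simp only [laplaceBeltrami, hz.eq_of_nhds]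
  congr 1
  refine Finset.sum_congr rfl fun i _ => pd_congr i ?_
  filter_upwards [hz, hz'.eventuallyEq_nhds] with w hw hw'
  simp only [inverseField, hw, fun j => pd_congr j hw']

/-- equality on an open set gives eventual equality -/
theorem ev_of_on {α : Type*} {A B : En n → α} (hU : IsOpen U) (hy : y ∈ U)
    (h : ∀ z ∈ U, A z = B z) : A =ᶠ[𝓝 y] B := Filter.mem_of_superset (hU.mem_nhds hy) h

theorem cov_congr_on (hU : IsOpen U) (hy : y ∈ U) (h : ∀ z ∈ U, T z = T' z) :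
    cov G T y = cov G T' y := (cov_congr EventuallyEq.rfl (ev_of_on hU hy h)).eq_of_nhds

end Congr

end Crest.Agent.N207

end
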