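import Crest.Agent.N207.A.Co2

/-!
# Row 207, block A2 (helper41), file 3: metric compatibility, traces, divergence, Laplacian
-/

set_option autoImplicit false

open scoped ContDiff Topology
open Filter Set Function
open Crest.GeometryTopology.CoordMetric Crest.GeometryTopology.ChartCurvature
  Crest.GeometryTopology.MetricFamily
open Crest.Agent.R202.Tens Crest.Agent.R247

noncomputable section

namespace Crest.Agent.N207

variable {n k : ℕ} {G : MetricField n} {U : Set (En n)} {y : En n}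

theorem ginv_symm (hG : IsRiemannianOn G U) (hy : y ∈ U) (a b : Fin n) :
    (G y)⁻¹ a b = (G y)⁻¹ b a := Bo84.inv_symm hG hy a b

theorem g_ginv (hG : IsRiemannianOn G U) (hy : y ∈ U) (a b : Fin n) :
    ∑ m, G y a m * (G y)⁻¹ m b = if a = b then 1 else 0 := Bo84.mul_inv_apply hG hy a b

theorem ginv_g (hG : IsRiemannianOn G U) (hy : y ∈ U) (a b : Fin n) :
    ∑ m, (G y)⁻¹ a m * G y m b = if a = b then 1 else 0 := by
  have h1 := Matrix.nonsing_inv_mul (G y) (Bo84.det_pos hG hy).ne'.isUnit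
  have h2 := congrFun (congrFun h1 a) b
  rwa [Matrix.mul_apply, Matrix.one_apply] at h2

/-- raising after lowering -/
theorem ginv_g_sum (hG : IsRiemannianOn G U) (hy : y ∈ U) (a : Fin n) (X : Fin n → ℝ) :
    ∑ l, (G y)⁻¹ a l * ∑ m, G y l m * X m = X a := by
  simp only [Finset.mul_sum, ← mul_assoc]
  rw [Finset.sum_comm]
  simp only [← Finset.sum_mul, ginv_g hG hy]
  simp

/-- lowering after raising -/
theorem g_ginv_sum (hG : IsRiemannianOn G U) (hy : y ∈ U) (a : Fin n) (X : Fin n → ℝ) :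
    ∑ l, G y a l * ∑ m, (G y)⁻¹ l m * X m = X a := by
  simp only [Finset.mul_sum, ← mul_assoc]
  rw [Finset.sum_comm]
  simp only [← Finset.sum_mul, g_ginv hG hy]
  simp

theorem tr_g (hG : IsRiemannianOn G U) (hy : y ∈ U) :
    ∑ a, ∑ b, (G y)⁻¹ a b * G y a b = n := by
  have : ∀ a : Fin n, ∑ b, (G y)⁻¹ a b * G y a b = 1 := fun a => by
    rw [Finset.sum_congr rfl fun b _ => by rw [metric_symm hG hy a b], ginv_g hG hy]; simp
  simp [this]

theorem pd_g (hG : IsRiemannianOn G U) (hy : y ∈ U) (l a b : Fin n) :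
    pderiv l (fun z => G z a b) y =
      ∑ m, christoffel G y m l a * G y m b + ∑ m, christoffel G y m l b * G y a m := by
  have hd := (Bo84.det_pos hG hy).ne'.isUnit
  have h1 := sum_g_christoffel hd b l a
  have h2 := sum_g_christoffel hd a l b
  have e1 : ∑ m, christoffel G y m l a * G y m b = ∑ m, G y b m * christoffel G y m l a :=
    Finset.sum_congr rfl fun m _ => by rw [metric_symm hG hy m b, mul_comm]
  have e2 : ∑ m, christoffel G y m l b * G y a m = ∑ m, G y a m * christoffel G y m l b :=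
    Finset.sum_congr rfl fun m _ => mul_comm _ _
  rw [e1, e2, h1, h2, low, low, pderiv_metric_symm hG hy l b a]
  ring

/-- `∇ g = 0` -/
theorem cov_met (hG : IsRiemannianOn G U) (hy : y ∈ U) : cov G (matT G) y = 0 := by
  funext J
  have hJ : J = ![J 0, J 1, J 2] := by funext s; fin_cases s <;> rfl
  rw [hJ, cov_two]
  have h := pd_g hG hy (J 0) (J 1) (J 2)
  simp only [matT, Matrix.cons_val_zero, Matrix.cons_val_one, Pi.zero_apply]
  linarith

/-- the derivative of an inverse matrix, algebraic part -/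
theorem inv_deriv_alg {A H A' H' : Matrix (Fin n) (Fin n) ℝ} (hHA : H * A = 1) (hAH : A * H = 1)
    (h : H' * A + H * A' = 0) : H' = -(H * A' * H) := by
  have h1 : H' * A = -(H * A') := eq_neg_of_add_eq_zero_left h
  have _h := hHA
  calc H' = H' * A * H := by rw [Matrix.mul_assoc, hAH, Matrix.mul_one]
    _ = -(H * A' * H) := by rw [h1, Matrix.neg_mul]

theorem pd_ginv' (hG : IsRiemannianOn G U) (hy : y ∈ U) (l a b : Fin n) :
    pderiv l (fun z => (G z)⁻¹ a b) y =
      -∑ c, ∑ d, (G y)⁻¹ a c * pderiv l (fun z => G z c d) y * (G y)⁻¹ d b := by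
  have hd := (Bo84.det_pos hG hy).ne'.isUnit
  have h := inv_deriv_alg (A' := Matrix.of fun c d => pderiv l (fun z => G z c d) y)
    (H' := Matrix.of fun c d => pderiv l (fun z => (G z)⁻¹ c d) y)
    (Matrix.nonsing_inv_mul (G y) hd) (Matrix.mul_nonsing_inv (G y) hd) (by
      ext c d
      have h1 : pderiv l (fun z => ∑ m, (G z)⁻¹ c m * G z m d) y = 0 := by
        rw [pd_congr_on l hG.isOpen hy fun z hz => ginv_g hG hz c d, pd_const]
      rw [pd_sum l _ fun m _ => (dAt (sm_inv hG c m) hG.isOpen hy).fun_mul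
        (differentiableAt_entry hG hy m d)] at h1
      simp only [Matrix.add_apply, Matrix.mul_apply, Matrix.of_apply, Matrix.zero_apply,
        ← Finset.sum_add_distrib]
      rw [← h1]
      exact Finset.sum_congr rfl fun m _ =>
        (pd_mul l (dAt (sm_inv hG c m) hG.isOpen hy) (differentiableAt_entry hG hy m d)).symm)
  have h2 := congrFun (congrFun h a) b
  simp only [Matrix.of_apply, Matrix.neg_apply, Matrix.mul_apply, Finset.sum_mul] at h2
  rw [h2, Finset.sum_comm]

theorem pd_ginv (hG : IsRiemannianOn G U) (hy : y ∈ U) (l a b : Fin n) :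
    pderiv l (fun z => (G z)⁻¹ a b) y = -(∑ m, christoffel G y a l m * (G y)⁻¹ m b)
      - ∑ m, christoffel G y b l m * (G y)⁻¹ a m := by
  rw [pd_ginv' hG hy]
  simp only [pd_g hG hy, mul_add, add_mul, Finset.sum_add_distrib]
  have e1 : ∑ c, ∑ d, ((G y)⁻¹ a c * ∑ m, christoffel G y m l c * G y m d) * (G y)⁻¹ d b =
      ∑ m, christoffel G y b l m * (G y)⁻¹ a m := by
    refine Finset.sum_congr rfl fun c _ => ?_
    have h := ginv_g_sum hG hy b fun m => christoffel G y m l c
    rw [← h, Finset.sum_mul]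
    refine Finset.sum_congr rfl fun d _ => ?_
    rw [ginv_symm hG hy d b]
    simp only [fun m => metric_symm hG hy m d, mul_comm (christoffel G y _ l c)]
    ring
  have e2 : ∑ c, ∑ d, ((G y)⁻¹ a c * ∑ m, christoffel G y m l d * G y c m) * (G y)⁻¹ d b =
      ∑ m, christoffel G y a l m * (G y)⁻¹ m b := by
    rw [Finset.sum_comm]
    refine Finset.sum_congr rfl fun d _ => ?_
    have h := ginv_g_sum hG hy a fun m => christoffel G y m l d
    rw [← h, ← Finset.sum_mul]
    simp only [mul_comm (christoffel G y _ l d)]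
  rw [e1, e2]
  ring

variable {S T : Tn n k}

/-- `∂ₗ ⟨S, T⟩ = ⟨∇ₗ S, T⟩ + ⟨S, ∇ₗ T⟩` -/
theorem pd_ip (hG : IsRiemannianOn G U) (hy : y ∈ U) (hS : DfT S y) (hT : DfT T y) (l : Fin n) :
    pderiv l (ip G S T) y = ipA (G y)⁻¹ (slA l (cov G S y)) (T y) +
      ipA (G y)⁻¹ (S y) (slA l (cov G T y)) := by
  have hi : ∀ a b, DifferentiableAt ℝ (fun z => (G z)⁻¹ a b) y := fun a b =>
    dAt (sm_inv hG a b) hG.isOpen hy
  have hp : ∀ I J : Fin k → Fin n,
      DifferentiableAt ℝ (fun z => ∏ s, (G z)⁻¹ (I s) (J s)) y := fun I J =>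
    dAt (contDiffOn_prod fun s _ => sm_inv hG (I s) (J s)) hG.isOpen hy
  rw [slA_cov, slA_cov, ← ipA_deriv_alg (fun m i => christoffel G y m l i)
    (fun a b => pderiv l (fun z => (G z)⁻¹ a b) y) (fun a b => pd_ginv hG hy l a b)]
  have e : ip G S T = fun z => ∑ I : Fin k → Fin n, ∑ J : Fin k → Fin n,
      (∏ s, (G z)⁻¹ (I s) (J s)) * (S z I * T z J) := rfl
  rw [e, pd_sum l _ fun I _ => DifferentiableAt.fun_sum fun J _ =>
    (hp I J).fun_mul ((hS I).fun_mul (hT J))]
  refine Finset.sum_congr rfl fun I _ => ?_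
  rw [pd_sum l _ fun J _ => (hp I J).fun_mul ((hS I).fun_mul (hT J))]
  refine Finset.sum_congr rfl fun J _ => ?_
  rw [pd_mul l (hp I J) ((hS I).fun_mul (hT J)), pd_mul l (hS I) (hT J),
    pd_prod l _ fun s _ => hi (I s) (J s)]

theorem conT_apply (G : MetricField n) (S : Tn n k) (W : Tn n (k + 1)) (y : En n) (l : Fin n) :
    conT G S W y ![l] = ipA (G y)⁻¹ (S y) (slA l (W y)) := rfl

theorem arr1_ext {A B : Arr n 1} (h : ∀ l, A ![l] = B ![l]) : A = B := by
  funext J
  have hJ : J = ![J 0] := by funext s; fin_cases s; rfl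
  rw [hJ]; exact h _

theorem arr0_ext {A B : Arr n 0} (h : A ![] = B ![]) : A = B := by
  funext J
  rw [Subsingleton.elim J ![]]; exact h

theorem arr2_ext {A B : Arr n 2} (h : ∀ a b, A ![a, b] = B ![a, b]) : A = B := by
  funext J
  have hJ : J = ![J 0, J 1] := by funext s; fin_cases s <;> rfl
  rw [hJ]; exact h _ _

/-- `d⟨S, T⟩ = ⟨T, ∇S⟩ + ⟨S, ∇T⟩` -/
theorem dT_ip (hG : IsRiemannianOn G U) (hy : y ∈ U) (hS : DfT S y) (hT : DfT T y) :
    dT (ip G S T) y = conT G T (cov G S) y + conT G S (cov G T) y := by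
  refine arr1_ext fun l => ?_
  rw [Pi.add_apply, conT_apply, conT_apply, ipA_comm (ginv_symm hG hy) (T y)]
  exact pd_ip hG hy hS hT l

theorem dT_nsq (hG : IsRiemannianOn G U) (hy : y ∈ U) (hT : DfT T y) :
    dT (nsq G T) y = (2 : ℝ) • conT G T (cov G T) y := by
  rw [two_smul]
  exact dT_ip hG hy hT hT

theorem ip_comm (hG : IsRiemannianOn G U) (hy : y ∈ U) (S T : Tn n k) : ip G S T y = ip G T S y :=
  ipA_comm (ginv_symm hG hy) _ _

theorem trT_eq (G : MetricField n) (T : Tn n (k + 2)) :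
    trT G T = ∑ a, ∑ b, smT (fun z => (G z)⁻¹ a b) (slT b (slT a T)) := by
  funext z I
  simp only [Finset.sum_apply]
  rfl

/-- `∇` commutes with the trace -/
theorem cov_trT {T : Tn n (k + 2)} (hG : IsRiemannianOn G U) (hy : y ∈ U) (hT : DfT T y)
    (l : Fin n) (I : Fin k → Fin n) : cov G (trT G T) y (Fin.cons l I) =
      ∑ a, ∑ b, (G y)⁻¹ a b * cov G T y (Fin.cons l (Fin.cons a (Fin.cons b I))) := by
  have hi : ∀ a b, DifferentiableAt ℝ (fun z => (G z)⁻¹ a b) y := fun a b =>
    dAt (sm_inv hG a b) hG.isOpen hy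
  have hs : ∀ a b, DfT (slT b (slT a T)) y := fun a b J => hT _
  have hm : ∀ a b, DfT (smT (fun z => (G z)⁻¹ a b) (slT b (slT a T))) y := fun a b J =>
    (hi a b).mul (hs a b J)
  rw [trT_eq, cov_sum _ fun a _ J => by
    simpa only [Finset.sum_apply] using DifferentiableAt.fun_sum fun b _ => hm a b J]
  have h0 : ∀ a, cov G (∑ b, smT (fun z => (G z)⁻¹ a b) (slT b (slT a T))) y =
      ∑ b, cov G (smT (fun z => (G z)⁻¹ a b) (slT b (slT a T))) y := fun a =>
    cov_sum _ fun b _ => hm a b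
  simp only [Finset.sum_apply, h0,
    fun a b => cov_smT_cons (G := G) (hi a b) (hs a b), cov_cons_cons, pd_ginv hG hy,
    mul_sub, sub_mul, neg_mul, Finset.sum_add_distrib, Finset.sum_sub_distrib,
    Finset.sum_neg_distrib]
  have e1 : ∑ a, ∑ b, (∑ m, christoffel G y a l m * (G y)⁻¹ m b) * slT b (slT a T) y I =
      ∑ a, ∑ b, (G y)⁻¹ a b * ∑ m, christoffel G y m l a * T y (Fin.cons m (Fin.cons b I)) := by
    simp only [Finset.sum_mul, Finset.mul_sum]
    rw [Finset.sum_comm]
    conv_rhs => rw [Finset.sum_comm]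
    refine Finset.sum_congr rfl fun b _ => ?_
    rw [Finset.sum_comm]
    exact Finset.sum_congr rfl fun a _ => Finset.sum_congr rfl fun m _ => by
      simp only [slT, slA]; ring
  have e2 : ∑ a, ∑ b, (∑ m, christoffel G y b l m * (G y)⁻¹ a m) * slT b (slT a T) y I =
      ∑ a, ∑ b, (G y)⁻¹ a b * ∑ m, christoffel G y m l b * slT a T y (Fin.cons m I) := by
    simp only [Finset.sum_mul, Finset.mul_sum]
    refine Finset.sum_congr rfl fun a _ => ?_
    rw [Finset.sum_comm]
    exact Finset.sum_congr rfl fun b _ => Finset.sum_congr rfl fun m _ => by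
      simp only [slT, slA]; ring
  rw [e1, e2]
  ring

/-- `∇⟨S, W⟩` for the partial contraction `conT` -/
theorem cov_conT {W : Tn n (k + 1)} (hG : IsRiemannianOn G U) (hy : y ∈ U) (hS : DfT S y)
    (hW : DfT W y) (a b : Fin n) : cov G (conT G S W) y ![a, b] =
      ipA (G y)⁻¹ (slA a (cov G S y)) (slA b (W y)) +
        ipA (G y)⁻¹ (S y) (slA b (slA a (cov G W y))) := by
  rw [cov_one]
  have e : (fun z => conT G S W z ![b]) = ip G S (slT b W) := rfl
  have e2 : slA b (slA a (cov G W y)) = slA a (cov G (slT b W) y) -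
      ∑ m, christoffel G y m a b • slA m (W y) := by
    funext I
    simp only [Pi.sub_apply, Finset.sum_apply, Pi.smul_apply, smul_eq_mul]
    exact cov_cons_cons G W y a b I
  rw [e, pd_ip (T := slT b W) hG hy hS (fun J => hW _), e2, ipA_sub_right, ipA_sum_right]
  simp only [ipA_smul_right, conT_apply, slT]
  ring

theorem trT_zero_rank (G : MetricField n) (T : Tn n 2) (y : En n) :
    trT G T y ![] = ∑ a, ∑ b, (G y)⁻¹ a b * T y ![a, b] := rfl

theorem slA_trT (G : MetricField n) (T : Tn n (k + 2)) (y : En n) :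
    trT G T y = ∑ a, ∑ b, (G y)⁻¹ a b • slA b (slA a (T y)) := by
  funext I
  simp only [Finset.sum_apply]
  rfl

/-- pointwise integration by parts: `div ⟨S, W⟩ = ⟨∇S, W⟩ + ⟨S, div W⟩` -/
theorem divT_conT {W : Tn n (k + 1)} (hG : IsRiemannianOn G U) (hy : y ∈ U) (hS : DfT S y)
    (hW : DfT W y) :
    divT G (conT G S W) y ![] = ip G (cov G S) W y + ip G S (divT G W) y := by
  rw [divT, trT_zero_rank, ip, ip, ipA_succ, divT, slA_trT]
  simp only [cov_conT hG hy hS hW, ipA_sum_right, ipA_smul_right, mul_add, Finset.sum_add_distrib]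


theorem divT_sub {S T : Tn n (k + 1)} (hS : DfT S y) (hT : DfT T y) :
    divT G (S - T) y = divT G S y - divT G T y := by
  funext I
  simp only [divT, trT, cov_sub hS hT, Pi.sub_apply, mul_sub, Finset.sum_sub_distrib]

theorem divT_smul (c : ℝ) (T : Tn n (k + 1)) : divT G (c • T) = c • divT G T := by
  funext y I
  simp only [divT, trT, cov_smul, Pi.smul_apply, smul_eq_mul, Finset.mul_sum]
  exact Finset.sum_congr rfl fun _ _ => Finset.sum_congr rfl fun _ _ => by ring

/-- `div (f W) = ⟨df, W⟩ + f div W` -/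
theorem divT_smT {W : Tn n (k + 1)} {f : En n → ℝ} (hf : DifferentiableAt ℝ f y) (hW : DfT W y)
    (I : Fin k → Fin n) : divT G (smT f W) y I =
      ∑ a, ∑ b, (G y)⁻¹ a b * (pderiv a f y * W y (Fin.cons b I)) + f y * divT G W y I := by
  simp only [divT, trT, cov_smT_cons hf hW, mul_add, Finset.sum_add_distrib, Finset.mul_sum]
  congr 1
  exact Finset.sum_congr rfl fun _ _ => Finset.sum_congr rfl fun _ _ => by ring


theorem ip_dT (G : MetricField n) (f h : En n → ℝ) (y : En n) :
    ip G (dT f) (dT h) y = Bo84.gam G f h y := by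
  rw [ip, ipA_one, Bo84.gam]
  exact Finset.sum_congr rfl fun _ _ => Finset.sum_congr rfl fun _ _ => (mul_assoc _ _ _).symm

/-- the divergence of a 1-form as a coordinate divergence -/
theorem sqrt_det_mul_divT {w : Tn n 1} (hG : IsRiemannianOn G U) (hy : y ∈ U) (hw : DfT w y) :
    Real.sqrt (G y).det * divT G w y ![] =
      ∑ i, pderiv i (fun z => Real.sqrt (G z).det * ∑ j, (G z)⁻¹ i j * w z ![j]) y := by
  have hi : ∀ a b, DifferentiableAt ℝ (fun z => (G z)⁻¹ a b) y := fun a b =>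
    dAt (sm_inv hG a b) hG.isOpen hy
  have hs := dAt (sm_sqrt_det hG) hG.isOpen hy
  have h1 : ∀ i, pderiv i (fun z => Real.sqrt (G z).det * ∑ j, (G z)⁻¹ i j * w z ![j]) y =
      Real.sqrt (G y).det * ((∑ m, christoffel G y m m i) * ∑ j, (G y)⁻¹ i j * w y ![j] +
        ∑ j, ((-(∑ m, christoffel G y i i m * (G y)⁻¹ m j)
          - ∑ m, christoffel G y j i m * (G y)⁻¹ i m) * w y ![j]
          + (G y)⁻¹ i j * pderiv i (fun z => w z ![j]) y)) := by
    intro i
    rw [pd_mul i hs (DifferentiableAt.fun_sum fun j _ => (hi i j).fun_mul (hw ![j])),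
      Bo84.pderiv_sqrt_det hG hy, pd_sum i _ fun j _ => (hi i j).fun_mul (hw ![j])]
    simp only [fun j => pd_mul i (hi i j) (hw ![j]), pd_ginv hG hy]
    ring
  simp only [h1]
  rw [← Finset.mul_sum, divT, trT_zero_rank]
  congr 1
  simp only [cov_one, mul_sub, sub_mul, neg_mul, Finset.sum_add_distrib, Finset.sum_sub_distrib,
    Finset.sum_neg_distrib]
  have e1 : ∑ i, (∑ m, christoffel G y m m i) * ∑ j, (G y)⁻¹ i j * w y ![j] =
      ∑ i, ∑ j, (∑ m, christoffel G y i i m * (G y)⁻¹ m j) * w y ![j] := by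
    simp only [Finset.sum_mul, Finset.mul_sum]
    rw [Finset.sum_comm]
    conv_rhs => rw [Finset.sum_comm]
    refine Finset.sum_congr rfl fun j _ => ?_
    rw [Finset.sum_comm]
    exact Finset.sum_congr rfl fun _ _ => Finset.sum_congr rfl fun _ _ => by ring
  have e2 : ∑ a, ∑ b, (G y)⁻¹ a b * ∑ m, christoffel G y m a b * w y ![m] =
      ∑ i, ∑ j, (∑ m, christoffel G y j i m * (G y)⁻¹ i m) * w y ![j] := by
    simp only [Finset.sum_mul, Finset.mul_sum]
    refine Finset.sum_congr rfl fun a _ => ?_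
    rw [Finset.sum_comm]
    exact Finset.sum_congr rfl fun _ _ => Finset.sum_congr rfl fun _ _ => by ring
  rw [e1, e2]
  ring

theorem divT_one_eq {w : Tn n 1} (hG : IsRiemannianOn G U) (hy : y ∈ U) (hw : DfT w y) :
    divT G w y ![] = (1 / Real.sqrt (G y).det) *
      ∑ i, pderiv i (fun z => Real.sqrt (G z).det * ∑ j, (G z)⁻¹ i j * w z ![j]) y := by
  have hne : Real.sqrt (G y).det ≠ 0 := (Real.sqrt_pos.2 (Bo84.det_pos hG hy)).ne'
  rw [← sqrt_det_mul_divT hG hy hw]
  field_simp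

theorem dfT_dT {f : En n → ℝ} (hf : ContDiffAt ℝ 2 f y) : DfT (dT f) y := fun I =>
  (Bo84.contDiffAt_pderiv (m := 1) hf (by norm_num) (I 0)).differentiableAt (by norm_num)

/-- `Δ f = div df` -/
theorem lapB_eq_divT {f : En n → ℝ} (hG : IsRiemannianOn G U) (hy : y ∈ U)
    (hf : ContDiffAt ℝ 2 f y) : laplaceBeltrami G f y = divT G (dT f) y ![] :=
  (divT_one_eq hG hy (dfT_dT hf)).symm

theorem lapB_eq_trT {f : En n → ℝ} (hG : IsRiemannianOn G U) (hy : y ∈ U)
    (hf : ContDiffAt ℝ 2 f y) : laplaceBeltrami G f y = trT G (hessT G f) y ![] :=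
  lapB_eq_divT hG hy hf

theorem lapB_eq_lapT {f : En n → ℝ} (hG : IsRiemannianOn G U) (hy : y ∈ U)
    (hf : ContDiffAt ℝ 2 f y) : laplaceBeltrami G f y = lapT G (fnT f) y ![] := by
  rw [lapT, cov_fnT]
  exact lapB_eq_divT hG hy hf

theorem hessT_apply (G : MetricField n) (f : En n → ℝ) (y : En n) (a b : Fin n) :
    hessT G f y ![a, b] =
      pderiv a (pderiv b f) y - ∑ m, christoffel G y m a b * pderiv m f y := cov_one G _ y a b

theorem hessT_symm {f : En n → ℝ} (hG : IsRiemannianOn G U) (hy : y ∈ U)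
    (hf : ContDiffAt ℝ 2 f y) (a b : Fin n) : hessT G f y ![a, b] = hessT G f y ![b, a] := by
  rw [hessT_apply, hessT_apply, pd_comm a b hf]
  simp only [fun m => christoffel_symm hG hy m a b]

theorem lapB_coord {f : En n → ℝ} (hG : IsRiemannianOn G U) (hy : y ∈ U)
    (hf : ContDiffAt ℝ 2 f y) : laplaceBeltrami G f y = ∑ a, ∑ b, (G y)⁻¹ a b *
      (pderiv a (pderiv b f) y - ∑ m, christoffel G y m a b * pderiv m f y) := by
  rw [lapB_eq_trT hG hy hf, trT_zero_rank]
  simp only [hessT_apply]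



end Crest.Agent.N207

end
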