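import Mathlib

-- ▼ part N207/A/Tf1
section

/-!
# Row 207, block A (helper33): tensors over a differential ring, part 1

`Ten n S p`: component arrays with values in a commutative `ℝ`-algebra `S`.  `act ω` is the action
of a matrix on all slots, `cd δ ω = δ - act ω` the covariant derivative in one direction.
-/

set_option autoImplicit false
set_option linter.unusedSectionVars false

namespace Crest.Agent.N207.A

open Finset Function

/-- component arrays -/
abbrev Ten (n : ℕ) (S : Type*) (p : ℕ) : Type _ := (Fin p → Fin n) → S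

variable {n p q : ℕ} {S : Type*} [CommRing S] [Algebra ℝ S]

/-- freeze the index `0` -/
def sl (T : Ten n S (p + 1)) (k : Fin n) : Ten n S p := fun y => T (Fin.cons k y)

/-- action of a matrix on all slots -/
def act (ω : Matrix (Fin n) (Fin n) S) (T : Ten n S p) : Ten n S p := fun x =>
  ∑ s : Fin p, ∑ m, ω (x s) m * T (update x s m)

/-- entrywise derivative of a matrix -/
def dM (δ : Derivation ℝ S S) (M : Matrix (Fin n) (Fin n) S) : Matrix (Fin n) (Fin n) S :=
  fun i j => δ (M i j)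

/-- covariant derivative in one direction -/
def cd (δ : Derivation ℝ S S) (ω : Matrix (Fin n) (Fin n) S) (T : Ten n S p) : Ten n S p :=
  fun x => δ (T x) - act ω T x

lemma D_mul (δ : Derivation ℝ S S) (f g : S) : δ (f * g) = δ f * g + f * δ g := by
  rw [Derivation.leibniz]; simp only [smul_eq_mul]; ring

lemma cons_ind {P : (Fin (p + 1) → Fin n) → Prop} (h : ∀ k y, P (Fin.cons k y))
    (x : Fin (p + 1) → Fin n) : P x := by
  rw [← Fin.cons_self_tail x]; exact h _ _

lemma ten_ext {A B : Ten n S (p + 1)} (h : ∀ k y, A (Fin.cons k y) = B (Fin.cons k y)) : A = B :=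
  funext fun x => cons_ind (P := fun x => A x = B x) h x

lemma sum_cons {M : Type*} [AddCommMonoid M] (f : (Fin (p + 1) → Fin n) → M) :
    ∑ x, f x = ∑ k, ∑ y, f (Fin.cons k y) := by
  rw [← Fintype.sum_prod_type']
  exact (Fintype.sum_equiv (Fin.consEquiv fun _ => Fin n) _ _ fun _ => rfl).symm

@[simp] lemma sl_apply (T : Ten n S (p + 1)) (k : Fin n) (y : Fin p → Fin n) :
    sl T k y = T (Fin.cons k y) := rfl

lemma sl_add (A B : Ten n S (p + 1)) (k : Fin n) : sl (A + B) k = sl A k + sl B k := rfl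

section act

variable (ω A B : Matrix (Fin n) (Fin n) S) (T U : Ten n S p)

lemma act_zero0 (T : Ten n S 0) (x : Fin 0 → Fin n) : act ω T x = 0 := by simp [act]

lemma act_cons (T : Ten n S (p + 1)) (k : Fin n) (y : Fin p → Fin n) :
    act ω T (Fin.cons k y) = ∑ m, ω k m * T (Fin.cons m y) + act ω (sl T k) y := by
  simp only [act, Fin.sum_univ_succ, Fin.cons_zero, Fin.cons_succ, Fin.update_cons_zero,
    ← Fin.cons_update, sl_apply]

lemma act_add : act ω (T + U) = act ω T + act ω U := by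
  funext x; simp only [act, Pi.add_apply, mul_add, sum_add_distrib]

lemma act_sub : act ω (T - U) = act ω T - act ω U := by
  funext x; simp only [act, Pi.sub_apply, mul_sub, sum_sub_distrib]

lemma act_neg : act ω (-T) = -act ω T := by
  funext x; simp only [act, Pi.neg_apply, mul_neg, sum_neg_distrib]

lemma act_smul (c : S) : act ω (c • T) = c • act ω T := by
  funext x
  simp only [act, Pi.smul_apply, smul_eq_mul, mul_sum]
  exact sum_congr rfl fun _ _ => sum_congr rfl fun _ _ => by ring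

lemma act_zero : act ω (0 : Ten n S p) = 0 := by funext x; simp [act]

lemma act_sum {ι : Type*} (s : Finset ι) (T : ι → Ten n S p) :
    act ω (∑ i ∈ s, T i) = ∑ i ∈ s, act ω (T i) := by
  classical
  induction s using Finset.induction_on with
  | empty => simpa using act_zero ω
  | insert a s ha ih => rw [sum_insert ha, sum_insert ha, act_add, ih]

lemma act_addL : act (A + B) T = act A T + act B T := by
  funext x; simp only [act, Pi.add_apply, Matrix.add_apply, add_mul, sum_add_distrib]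

lemma act_subL : act (A - B) T = act A T - act B T := by
  funext x; simp only [act, Pi.sub_apply, Matrix.sub_apply, sub_mul, sum_sub_distrib]

lemma act_negL : act (-A) T = -act A T := by
  funext x; simp only [act, Pi.neg_apply, Matrix.neg_apply, neg_mul, sum_neg_distrib]

lemma act_smulL (c : S) : act (c • A) T = c • act A T := by
  funext x
  simp only [act, Pi.smul_apply, Matrix.smul_apply, smul_eq_mul, mul_sum]
  exact sum_congr rfl fun _ _ => sum_congr rfl fun _ _ => by ring

lemma act_zeroL : act (0 : Matrix (Fin n) (Fin n) S) T = 0 := by funext x; simp [act]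

lemma act_sumL {ι : Type*} (s : Finset ι) (A : ι → Matrix (Fin n) (Fin n) S) :
    act (∑ i ∈ s, A i) T = ∑ i ∈ s, act (A i) T := by
  classical
  induction s using Finset.induction_on with
  | empty => simpa using act_zeroL T
  | insert a s ha ih => rw [sum_insert ha, sum_insert ha, act_addL, ih]

lemma sl_act (T : Ten n S (p + 1)) (k : Fin n) :
    sl (act ω T) k = ∑ m, ω k m • sl T m + act ω (sl T k) := by
  funext y
  simp only [sl_apply, act_cons, Pi.add_apply, Finset.sum_apply, Pi.smul_apply, smul_eq_mul]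

/-- `act` is a representation of the Lie algebra of matrices -/
lemma act_act : ∀ {p : ℕ} (T : Ten n S p) (x : Fin p → Fin n),
    act A (act B T) x - act B (act A T) x = act (A * B - B * A) T x
  | 0, T, x => by simp [act_zero0]
  | p + 1, T, x => by
    induction x using cons_ind with
    | h k y =>
    have ih := act_act (sl T k) y
    have e : ∀ A B : Matrix (Fin n) (Fin n) S, act A (act B T) (Fin.cons k y) =
        ∑ l, (A * B) k l * T (Fin.cons l y) + ∑ m, A k m * act B (sl T m) y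
          + ∑ m, B k m * act A (sl T m) y + act A (act B (sl T k)) y := by
      intro A B
      rw [act_cons, sl_act, act_add, act_sum]
      simp only [act_cons, act_smul, Pi.add_apply, Finset.sum_apply, Pi.smul_apply, smul_eq_mul,
        mul_add, sum_add_distrib, Matrix.mul_apply, mul_sum, sum_mul]
      rw [sum_comm (f := fun m l => A k m * (B m l * T (Fin.cons l y)))]
      simp only [mul_assoc]; ring
    rw [e A B, e B A, act_cons]
    simp only [Matrix.sub_apply, sub_mul, sum_sub_distrib]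
    linear_combination ih

lemma D_act (δ : Derivation ℝ S S) (x : Fin p → Fin n) :
    δ (act ω T x) = act (dM δ ω) T x + act ω (fun y => δ (T y)) x := by
  simp only [act, map_sum, D_mul, dM, sum_add_distrib]

lemma act_one_slot (T : Ten n S 1) (a : Fin n) :
    act ω T (fun _ => a) = ∑ m, ω a m * T (fun _ => m) := by
  simp only [act, Fin.sum_univ_one]
  refine sum_congr rfl fun m _ => ?_
  congr 2
  funext i; fin_cases i; simp

/-- a matrix is determined by its action on 1-tensors with constant components -/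
lemma act_delta (a b : Fin n) :
    act ω (fun x : Fin 1 → Fin n => if x 0 = b then (1 : S) else 0) (fun _ => a) = ω a b := by
  rw [act_one_slot]; simp

end act

section cd

variable (δ : Derivation ℝ S S) (ω : Matrix (Fin n) (Fin n) S) (T U : Ten n S p)

lemma cd_apply (x : Fin p → Fin n) : cd δ ω T x = δ (T x) - act ω T x := rfl

lemma cd_add : cd δ ω (T + U) = cd δ ω T + cd δ ω U := by
  funext x; simp only [cd, act_add, Pi.add_apply, map_add]; ring

lemma cd_sub : cd δ ω (T - U) = cd δ ω T - cd δ ω U := by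
  funext x; simp only [cd, act_sub, Pi.sub_apply, map_sub]; ring

lemma cd_neg : cd δ ω (-T) = -cd δ ω T := by
  funext x; simp only [cd, act_neg, Pi.neg_apply, map_neg]; ring

lemma cd_zero : cd δ ω (0 : Ten n S p) = 0 := by
  funext x; simp [cd, act_zero]

lemma cd_smul (c : S) : cd δ ω (c • T) = δ c • T + c • cd δ ω T := by
  funext x; simp only [cd, act_smul, Pi.add_apply, Pi.smul_apply, smul_eq_mul, D_mul]; ring

lemma cd_sum {ι : Type*} (s : Finset ι) (T : ι → Ten n S p) :
    cd δ ω (∑ i ∈ s, T i) = ∑ i ∈ s, cd δ ω (T i) := by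
  classical
  induction s using Finset.induction_on with
  | empty => simpa using cd_zero δ ω
  | insert a s ha ih => rw [sum_insert ha, sum_insert ha, cd_add, ih]

lemma cd_zero0 (T : Ten n S 0) (x : Fin 0 → Fin n) : cd δ ω T x = δ (T x) := by
  simp [cd, act_zero0]

lemma cd_cons (T : Ten n S (p + 1)) (k : Fin n) (y : Fin p → Fin n) :
    cd δ ω T (Fin.cons k y) = cd δ ω (sl T k) y - ∑ m, ω k m * T (Fin.cons m y) := by
  simp only [cd, act_cons, sl_apply]; ring

lemma sl_cd (T : Ten n S (p + 1)) (k : Fin n) :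
    sl (cd δ ω T) k = cd δ ω (sl T k) - ∑ m, ω k m • sl T m := by
  funext y
  simp only [sl_apply, cd_cons, Pi.sub_apply, Finset.sum_apply, Pi.smul_apply, smul_eq_mul]

/-- commutator of two covariant derivatives -/
lemma cd_comm (δ' : Derivation ℝ S S) (ω' : Matrix (Fin n) (Fin n) S) (x : Fin p → Fin n) :
    cd δ ω (cd δ' ω' T) x - cd δ' ω' (cd δ ω T) x = δ (δ' (T x)) - δ' (δ (T x))
      - act (dM δ ω' - dM δ' ω + (ω' * ω - ω * ω')) T x := by
  have e : ∀ (δ δ' : Derivation ℝ S S) (ω ω' : Matrix (Fin n) (Fin n) S),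
      cd δ ω (cd δ' ω' T) x = δ (δ' (T x)) - act (dM δ ω') T x - act ω' (fun y => δ (T y)) x
        - act ω (fun y => δ' (T y)) x + act ω (act ω' T) x := by
    intro δ δ' ω ω'
    have : cd δ' ω' T = (fun y => δ' (T y)) - act ω' T := rfl
    rw [cd_apply, this, act_sub]
    simp only [Pi.sub_apply, map_sub, D_act]; ring
  rw [e, e, act_addL, act_subL]
  have := act_act ω' ω T x
  simp only [Pi.add_apply, Pi.sub_apply]
  linear_combination -this

lemma cd_act (A : Matrix (Fin n) (Fin n) S) (x : Fin p → Fin n) :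
    cd δ ω (act A T) x = act A (cd δ ω T) x + act (dM δ A - (ω * A - A * ω)) T x := by
  have : cd δ ω T = (fun y => δ (T y)) - act ω T := rfl
  rw [cd_apply, this, act_sub, act_subL, D_act]
  have := act_act ω A T x
  simp only [Pi.sub_apply]
  linear_combination -this

end cd

/-! ### permutations and traces -/

/-- relabelling of the slots -/
def prm (e : Fin p ≃ Fin q) (T : Ten n S p) : Ten n S q := fun x => T (x ∘ e)

lemma act_prm (ω : Matrix (Fin n) (Fin n) S) (e : Fin p ≃ Fin q) (T : Ten n S p) :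
    act ω (prm e T) = prm e (act ω T) := by
  funext x
  simp only [act, prm]
  rw [← e.sum_comp]
  refine sum_congr rfl fun s _ => sum_congr rfl fun m _ => ?_
  rw [Function.update_comp_equiv, e.symm_apply_apply]; rfl

lemma cd_prm (δ : Derivation ℝ S S) (ω : Matrix (Fin n) (Fin n) S) (e : Fin p ≃ Fin q)
    (T : Ten n S p) : cd δ ω (prm e T) = prm e (cd δ ω T) := by
  funext x; rw [cd_apply, act_prm]; rfl

/-- exchange of the slots `0` and `1` -/
def sw (T : Ten n S (p + 2)) : Ten n S (p + 2) := fun x =>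
  T (Fin.cons (x 1) (Fin.cons (x 0) (Fin.tail (Fin.tail x))))

@[simp] lemma sw_cons (T : Ten n S (p + 2)) (a b : Fin n) (y : Fin p → Fin n) :
    sw T (Fin.cons a (Fin.cons b y)) = T (Fin.cons b (Fin.cons a y)) := rfl

lemma ten_ext2 {A B : Ten n S (p + 2)}
    (h : ∀ a b y, A (Fin.cons a (Fin.cons b y)) = B (Fin.cons a (Fin.cons b y))) : A = B :=
  ten_ext fun a y => cons_ind (P := fun y => A (Fin.cons a y) = B (Fin.cons a y)) (h a) y

lemma cd_cons2 (δ : Derivation ℝ S S) (ω : Matrix (Fin n) (Fin n) S) (T : Ten n S (p + 2))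
    (a b : Fin n) (y : Fin p → Fin n) :
    cd δ ω T (Fin.cons a (Fin.cons b y)) = cd δ ω (sl (sl T a) b) y
      - ∑ m, ω b m * T (Fin.cons a (Fin.cons m y)) - ∑ m, ω a m * T (Fin.cons m (Fin.cons b y)) := by
  rw [cd_cons, cd_cons]; rfl

lemma cd_sw (δ : Derivation ℝ S S) (ω : Matrix (Fin n) (Fin n) S) (T : Ten n S (p + 2)) :
    cd δ ω (sw T) = sw (cd δ ω T) := by
  refine ten_ext2 fun a b y => ?_
  rw [sw_cons, cd_cons2, cd_cons2]
  have : sl (sl (sw T) a) b = sl (sl T b) a := rfl
  rw [this]; simp only [sw_cons]; ring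

/-- trace over the slots `0, 1` for the inverse metric `H` -/
def tr (H : Matrix (Fin n) (Fin n) S) (T : Ten n S (p + 2)) : Ten n S p := fun I =>
  ∑ a, ∑ b, H a b * T (Fin.cons a (Fin.cons b I))

/-- the connection `(δ, ω)` preserves the inverse metric `H` -/
def Compat (δ : Derivation ℝ S S) (ω H : Matrix (Fin n) (Fin n) S) : Prop :=
  ∀ a b, δ (H a b) = -(∑ m, ω m a * H m b) - ∑ m, H a m * ω m b

lemma Compat.sum {δ : Derivation ℝ S S} {ω H : Matrix (Fin n) (Fin n) S} (h : Compat δ ω H)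
    (X : Fin n → Fin n → S) : ∑ a, ∑ b, δ (H a b) * X a b =
      -(∑ a, ∑ b, H a b * ∑ m, ω b m * X a m) - ∑ a, ∑ b, H a b * ∑ m, ω a m * X m b := by
  have e1 : ∑ a, ∑ b, H a b * ∑ m, ω b m * X a m = ∑ a, ∑ b, (∑ m, H a m * ω m b) * X a b := by
    refine sum_congr rfl fun a _ => ?_
    simp only [mul_sum, sum_mul]
    rw [sum_comm]
    exact sum_congr rfl fun _ _ => sum_congr rfl fun _ _ => by ring
  have e2 : ∑ a, ∑ b, H a b * ∑ m, ω a m * X m b = ∑ a, ∑ b, (∑ m, ω m a * H m b) * X a b := by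
    rw [sum_comm, sum_comm (f := fun a b => (∑ m, ω m a * H m b) * X a b)]
    refine sum_congr rfl fun b _ => ?_
    simp only [mul_sum, sum_mul]
    rw [sum_comm]
    exact sum_congr rfl fun _ _ => sum_congr rfl fun _ _ => by ring
  rw [e1, e2, ← sum_neg_distrib, ← sum_sub_distrib]
  refine sum_congr rfl fun a _ => ?_
  rw [← sum_neg_distrib, ← sum_sub_distrib]
  exact sum_congr rfl fun b _ => by rw [h a b]; ring

lemma tr_eq (H : Matrix (Fin n) (Fin n) S) (T : Ten n S (p + 2)) :
    tr H T = ∑ a, ∑ b, H a b • sl (sl T a) b := by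
  funext x; simp only [tr, Finset.sum_apply, Pi.smul_apply, smul_eq_mul, sl_apply]

lemma cd_tr {δ : Derivation ℝ S S} {ω H : Matrix (Fin n) (Fin n) S} (h : Compat δ ω H)
    (T : Ten n S (p + 2)) : cd δ ω (tr H T) = tr H (cd δ ω T) := by
  funext x
  have h1 := h.sum fun a b => T (Fin.cons a (Fin.cons b x))
  rw [tr_eq]
  simp only [cd_sum, cd_smul, Finset.sum_apply, Pi.add_apply, Pi.smul_apply, smul_eq_mul, sl_apply,
    sum_add_distrib, tr, cd_cons2, mul_sub, sum_sub_distrib]
  linear_combination h1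

/-! ### inner products -/

/-- inner product for the inverse metric `H` -/
def ip (H : Matrix (Fin n) (Fin n) S) (A B : Ten n S p) : S :=
  ∑ I : Fin p → Fin n, ∑ J : Fin p → Fin n, (∏ s, H (I s) (J s)) * (A I * B J)

lemma ip_zero0 (H : Matrix (Fin n) (Fin n) S) (A B : Ten n S 0) :
    ip H A B = A Fin.elim0 * B Fin.elim0 := by
  simp only [ip, Fintype.sum_unique, Finset.univ_eq_empty, prod_empty, one_mul]
  congr 2

lemma ip_cons (H : Matrix (Fin n) (Fin n) S) (A B : Ten n S (p + 1)) :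
    ip H A B = ∑ a, ∑ b, H a b * ip H (sl A a) (sl B b) := by
  simp only [ip, sum_cons (p := p), Fin.prod_univ_succ, Fin.cons_zero, Fin.cons_succ, mul_sum,
    sl_apply]
  refine sum_congr rfl fun a _ => ?_
  rw [sum_comm]
  exact sum_congr rfl fun b _ => sum_congr rfl fun _ _ => sum_congr rfl fun _ _ => by ring

section ip

variable (H : Matrix (Fin n) (Fin n) S) (A B U : Ten n S p)

lemma ip_addL : ip H (A + B) U = ip H A U + ip H B U := by
  simp only [ip, Pi.add_apply, add_mul, mul_add, sum_add_distrib]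

lemma ip_subL : ip H (A - B) U = ip H A U - ip H B U := by
  simp only [ip, Pi.sub_apply, sub_mul, mul_sub, sum_sub_distrib]

lemma ip_smulL (c : S) : ip H (c • A) U = c * ip H A U := by
  simp only [ip, Pi.smul_apply, smul_eq_mul, mul_sum]
  exact sum_congr rfl fun _ _ => sum_congr rfl fun _ _ => by ring

lemma ip_addR : ip H U (A + B) = ip H U A + ip H U B := by
  simp only [ip, Pi.add_apply, mul_add, sum_add_distrib]

lemma ip_subR : ip H U (A - B) = ip H U A - ip H U B := by
  simp only [ip, Pi.sub_apply, mul_sub, sum_sub_distrib]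

lemma ip_smulR (c : S) : ip H U (c • A) = c * ip H U A := by
  simp only [ip, Pi.smul_apply, smul_eq_mul, mul_sum]
  exact sum_congr rfl fun _ _ => sum_congr rfl fun _ _ => by ring

lemma ip_zeroL : ip H 0 U = 0 := by simp [ip]
lemma ip_zeroR : ip H U 0 = 0 := by simp [ip]

lemma ip_sumL {ι : Type*} (s : Finset ι) (A : ι → Ten n S p) :
    ip H (∑ i ∈ s, A i) U = ∑ i ∈ s, ip H (A i) U := by
  classical
  induction s using Finset.induction_on with
  | empty => simpa using ip_zeroL H U
  | insert a s ha ih => rw [sum_insert ha, sum_insert ha, ip_addL, ih]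

lemma ip_sumR {ι : Type*} (s : Finset ι) (A : ι → Ten n S p) :
    ip H U (∑ i ∈ s, A i) = ∑ i ∈ s, ip H U (A i) := by
  classical
  induction s using Finset.induction_on with
  | empty => simpa using ip_zeroR H U
  | insert a s ha ih => rw [sum_insert ha, sum_insert ha, ip_addR, ih]

lemma ip_comm {H : Matrix (Fin n) (Fin n) S} (hH : ∀ a b, H a b = H b a) :
    ip H A B = ip H B A := by
  simp only [ip]
  rw [sum_comm]
  refine sum_congr rfl fun I _ => sum_congr rfl fun J _ => ?_
  rw [mul_comm (A J), prod_congr rfl fun s _ => hH (J s) (I s)]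

end ip

lemma D_ip {δ : Derivation ℝ S S} {ω H : Matrix (Fin n) (Fin n) S} (h : Compat δ ω H) :
    ∀ {p : ℕ} (A B : Ten n S p), δ (ip H A B) = ip H (cd δ ω A) B + ip H A (cd δ ω B)
  | 0, A, B => by simp only [ip_zero0, cd_zero0, D_mul]
  | p + 1, A, B => by
    have h1 := h.sum fun a b => ip H (sl A a) (sl B b)
    simp only [ip_cons H (p := p), map_sum, D_mul, D_ip h, sl_cd, ip_subL, ip_subR, ip_sumL, ip_sumR,
      ip_smulL, ip_smulR, mul_add, mul_sub, sum_add_distrib, sum_sub_distrib]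
    linear_combination h1

end Crest.Agent.N207.A
end

-- ▼ part N207/A/Tf2
section

/-!
# Row 207, block A (helper33): tensors over a differential ring, part 2

Coordinates with a metric (`Co`), Levi-Civita connection, curvature, Ricci identity, symmetries of
the curvature tensor, Bianchi identities.  The definitions mirror `N207/Tens.lean`.
-/

set_option autoImplicit false
set_option linter.unusedSectionVars false

namespace Crest.Agent.N207.A

open Finset Function

/-- commuting derivations, a symmetric matrix `g` and its inverse `gi` -/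
structure Co (n : ℕ) (S : Type*) [CommRing S] [Algebra ℝ S] where
  d : Fin n → Derivation ℝ S S
  comm : ∀ k l f, d k (d l f) = d l (d k f)
  g : Matrix (Fin n) (Fin n) S
  gi : Matrix (Fin n) (Fin n) S
  g_symm : ∀ i j, g i j = g j i
  gi_g : gi * g = 1

variable {n p q : ℕ} {S : Type*} [CommRing S] [Algebra ℝ S]

/-- `1/2` in `S` -/
noncomputable def hf : S := algebraMap ℝ S (1 / 2)

lemma two_hf : (2 : S) * hf = 1 := by
  have : (2 : S) = algebraMap ℝ S 2 := (map_ofNat (algebraMap ℝ S) 2).symm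
  rw [this, hf, ← map_mul]; norm_num

lemma eq_of_two {x y : S} (h : 2 * x = 2 * y) : x = y := by
  have := two_hf (S := S)
  linear_combination hf * h - (x - y) * this

/-- index vectors -/
abbrev v1 (a : Fin n) : Fin 1 → Fin n := Fin.cons a Fin.elim0
/-- index vectors -/
abbrev v2 (a b : Fin n) : Fin 2 → Fin n := Fin.cons a (v1 b)
/-- index vectors -/
abbrev v3 (a b c : Fin n) : Fin 3 → Fin n := Fin.cons a (v2 b c)
/-- index vectors -/
abbrev v4 (a b c d : Fin n) : Fin 4 → Fin n := Fin.cons a (v3 b c d)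
/-- index vectors -/
abbrev v5 (a b c d e : Fin n) : Fin 5 → Fin n := Fin.cons a (v4 b c d e)
/-- index vectors -/
abbrev v6 (a b c d e f : Fin n) : Fin 6 → Fin n := Fin.cons a (v5 b c d e f)

lemma ext0 {A B : Ten n S 0} (h : A Fin.elim0 = B Fin.elim0) : A = B :=
  funext fun x => by rw [Subsingleton.elim x Fin.elim0, h]

lemma ext1 {A B : Ten n S 1} (h : ∀ a, A (v1 a) = B (v1 a)) : A = B :=
  ten_ext fun a y => by rw [Subsingleton.elim y Fin.elim0]; exact h a

lemma ext2 {A B : Ten n S 2} (h : ∀ a b, A (v2 a b) = B (v2 a b)) : A = B :=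
  ten_ext fun a => congrFun (ext1 (A := sl A a) (B := sl B a) (h a))

lemma ext3 {A B : Ten n S 3} (h : ∀ a b c, A (v3 a b c) = B (v3 a b c)) : A = B :=
  ten_ext fun a => congrFun (ext2 (A := sl A a) (B := sl B a) (h a))

lemma ext4 {A B : Ten n S 4} (h : ∀ a b c d, A (v4 a b c d) = B (v4 a b c d)) : A = B :=
  ten_ext fun a => congrFun (ext3 (A := sl A a) (B := sl B a) (h a))

lemma ext5 {A B : Ten n S 5} (h : ∀ a b c d e, A (v5 a b c d e) = B (v5 a b c d e)) : A = B :=
  ten_ext fun a => congrFun (ext4 (A := sl A a) (B := sl B a) (h a))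

lemma act_v1 (ω : Matrix (Fin n) (Fin n) S) (T : Ten n S 1) (a : Fin n) :
    act ω T (v1 a) = ∑ m, ω a m * T (v1 m) := by
  rw [act_cons, act_zero0, add_zero]

lemma act_v2 (ω : Matrix (Fin n) (Fin n) S) (T : Ten n S 2) (a b : Fin n) :
    act ω T (v2 a b) = ∑ m, ω a m * T (v2 m b) + ∑ m, ω b m * T (v2 a m) := by
  rw [act_cons, act_v1]; rfl



/-- a matrix is determined by its action -/
lemma act_inj {A B : Matrix (Fin n) (Fin n) S}
    (h : ∀ (T : Ten n S 1) x, act A T x = act B T x) : A = B := by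
  ext a b; rw [← act_delta A a b, ← act_delta B a b, h]

/-- a matrix as a 2-tensor -/
def matT (A : Matrix (Fin n) (Fin n) S) : Ten n S 2 := fun I => A (I 0) (I 1)

/-- a 2-tensor as a matrix -/
def mat (M : Ten n S 2) : Matrix (Fin n) (Fin n) S := fun a b => M (v2 a b)

/-- a function as a 0-tensor -/
def fnT (f : S) : Ten n S 0 := fun _ => f

@[simp] lemma matT_v2 (A : Matrix (Fin n) (Fin n) S) (a b : Fin n) : matT A (v2 a b) = A a b := rfl

lemma mat_add (A B : Ten n S 2) : mat (A + B) = mat A + mat B := rfl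
lemma mat_sub (A B : Ten n S 2) : mat (A - B) = mat A - mat B := rfl
lemma mat_neg (A : Ten n S 2) : mat (-A) = -mat A := rfl
lemma mat_smul (c : S) (A : Ten n S 2) : mat (c • A) = c • mat A := rfl
lemma mat_sum {ι : Type*} (s : Finset ι) (A : ι → Ten n S 2) :
    mat (∑ i ∈ s, A i) = ∑ i ∈ s, mat (A i) := by
  ext a b; simp only [mat, Finset.sum_apply, Matrix.sum_apply]

/-- raising the second index commutes with compatible connections -/
lemma Compat.raise {δ : Derivation ℝ S S} {ω H : Matrix (Fin n) (Fin n) S} (h : Compat δ ω H)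
    (M : Ten n S 2) :
    dM δ (mat M * H) - (ω * (mat M * H) - mat M * H * ω) = mat (cd δ ω M) * H := by
  ext a b
  have hM : ∀ a b, mat (cd δ ω M) a b = δ (mat M a b) - (ω * mat M) a b
      - ∑ m, ω b m * mat M a m := by
    intro a b
    simp only [mat, cd_apply, act_v2, Matrix.mul_apply]; ring
  have e1 : ∑ c, mat M a c * ∑ m, ω m c * H m b = ∑ c, (∑ m, ω c m * mat M a m) * H c b := by
    simp only [mul_sum, sum_mul]
    rw [sum_comm]
    exact sum_congr rfl fun _ _ => sum_congr rfl fun _ _ => by ring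
  have e2 : ∑ c, mat M a c * ∑ m, H c m * ω m b = (mat M * H * ω) a b := by
    rw [Matrix.mul_assoc]; rfl
  have e3 : (ω * (mat M * H)) a b = ∑ c, (ω * mat M) a c * H c b := by
    rw [← Matrix.mul_assoc]; rfl
  rw [Matrix.sub_apply, Matrix.sub_apply, e3, ← e2, Matrix.mul_apply (M := mat (cd δ ω M))]
  simp only [dM, Matrix.mul_apply (M := mat M), map_sum, D_mul, h _ b, hM, mul_sub, sub_mul,
    sum_add_distrib, sum_sub_distrib, mul_neg, sum_neg_distrib]
  linear_combination -e1

/-- `gam H R T (i, j, x) = (R(i,j,·,·)^♯ · T)(x)` -/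
def gamH (H : Matrix (Fin n) (Fin n) S) (R : Ten n S 4) (T : Ten n S p) : Ten n S (p + 2) :=
  fun x => act (mat (sl (sl R (x 0)) (x 1)) * H) T (Fin.tail (Fin.tail x))

lemma gamH_cons (H : Matrix (Fin n) (Fin n) S) (R : Ten n S 4) (T : Ten n S p) (i j : Fin n)
    (x : Fin p → Fin n) :
    gamH H R T (Fin.cons i (Fin.cons j x)) = act (mat (sl (sl R i) j) * H) T x := rfl

lemma sl_sl_cd (δ : Derivation ℝ S S) (ω : Matrix (Fin n) (Fin n) S) (R : Ten n S (p + 2))
    (i j : Fin n) : sl (sl (cd δ ω R) i) j = cd δ ω (sl (sl R i) j)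
      - ∑ m, ω j m • sl (sl R i) m - ∑ m, ω i m • sl (sl R m) j := by
  funext y
  simp only [sl_apply, cd_cons2, Pi.sub_apply, Finset.sum_apply, Pi.smul_apply, smul_eq_mul]

lemma cd_gamH {δ : Derivation ℝ S S} {ω H : Matrix (Fin n) (Fin n) S} (h : Compat δ ω H)
    (R : Ten n S 4) (T : Ten n S p) :
    cd δ ω (gamH H R T) = gamH H (cd δ ω R) T + gamH H R (cd δ ω T) := by
  refine ten_ext2 fun i j x => ?_
  have e : sl (sl (gamH H R T) i) j = act (mat (sl (sl R i) j) * H) T := rfl
  rw [cd_cons2, e, cd_act, h.raise, Pi.add_apply, gamH_cons, gamH_cons, sl_sl_cd]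
  simp only [gamH_cons, mat_sub, mat_sum, mat_smul, Matrix.sub_mul, Matrix.sum_mul,
    Matrix.smul_mul, act_subL, act_sumL, act_smulL, Pi.sub_apply, Finset.sum_apply, Pi.smul_apply,
    smul_eq_mul]
  ring

namespace Co

variable (C : Co n S)

lemma g_gi : C.g * C.gi = 1 := mul_eq_one_comm.1 C.gi_g

lemma gi_symm (i j : Fin n) : C.gi i j = C.gi j i := by
  have hg : C.g.transpose = C.g := by ext i j; exact C.g_symm j i
  have h1 : C.gi.transpose * C.g = 1 := by
    have := congrArg Matrix.transpose C.g_gi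
    rwa [Matrix.transpose_mul, hg, Matrix.transpose_one] at this
  have : C.gi.transpose = C.gi := by
    rw [← Matrix.mul_one C.gi.transpose, ← C.g_gi, ← Matrix.mul_assoc, h1, Matrix.one_mul]
  exact (congrFun (congrFun this j) i).symm ▸ rfl

lemma sum_g_gi (k m : Fin n) : ∑ l, C.g k l * C.gi l m = if k = m then 1 else 0 := by
  have := congrFun (congrFun C.g_gi k) m
  rwa [Matrix.mul_apply, Matrix.one_apply] at this

lemma sum_gi_g (k m : Fin n) : ∑ l, C.gi k l * C.g l m = if k = m then 1 else 0 := by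
  have := congrFun (congrFun C.gi_g k) m
  rwa [Matrix.mul_apply, Matrix.one_apply] at this

/-- raising a lowered index -/
lemma gi_g_sum (k : Fin n) (X : Fin n → S) : ∑ l, C.gi k l * ∑ m, C.g l m * X m = X k := by
  have : ∑ l, C.gi k l * ∑ m, C.g l m * X m = ∑ m, (∑ l, C.gi k l * C.g l m) * X m := by
    simp only [mul_sum, sum_mul]
    rw [sum_comm]
    exact sum_congr rfl fun _ _ => sum_congr rfl fun _ _ => by ring
  rw [this]; simp [sum_gi_g]

/-- Christoffel symbols `Γᵏᵢⱼ` -/
noncomputable def Gam (k i j : Fin n) : S :=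
  hf * ∑ l, C.gi k l * (C.d i (C.g j l) + C.d j (C.g i l) - C.d l (C.g i j))

/-- connection matrices -/
noncomputable def Gm (k : Fin n) : Matrix (Fin n) (Fin n) S := fun i m => C.Gam m k i

lemma Gam_symm (l i j : Fin n) : C.Gam l i j = C.Gam l j i := by
  simp only [Gam, C.g_symm i j]
  congr 1
  exact sum_congr rfl fun m _ => by ring

lemma g_Gam (k i j : Fin n) : ∑ l, C.g k l * C.Gam l i j
    = hf * (C.d i (C.g j k) + C.d j (C.g i k) - C.d k (C.g i j)) := by
  simp only [Gam, mul_sum]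
  rw [sum_comm]
  have : ∀ m, ∑ l, C.g k l * (hf * (C.gi l m * (C.d i (C.g j m) + C.d j (C.g i m)
      - C.d m (C.g i j)))) = hf * ((∑ l, C.g k l * C.gi l m) * (C.d i (C.g j m)
        + C.d j (C.g i m) - C.d m (C.g i j))) := by
    intro m
    rw [sum_mul, mul_sum]
    exact sum_congr rfl fun l _ => by ring
  simp_rw [this, sum_g_gi]
  simp

/-- a connection preserving `g` preserves `gi` -/
lemma compat_of {δ : Derivation ℝ S S} {ω : Matrix (Fin n) (Fin n) S}
    (h : cd δ ω (matT C.g) = 0) : Compat δ ω C.gi := by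
  have h1 : dM δ C.g = ω * C.g + C.g * ω.transpose := by
    ext a b
    have := congrFun h (v2 a b)
    simp only [cd_apply, act_v2, matT_v2, Pi.zero_apply] at this
    simp only [dM, Matrix.add_apply, Matrix.mul_apply, Matrix.transpose_apply, mul_comm (C.g a _)]
    linear_combination this
  have h2 : dM δ C.gi * C.g + C.gi * dM δ C.g = 0 := by
    ext a b
    have := congrArg δ (C.sum_gi_g a b)
    rw [map_sum] at this
    simp only [D_mul, sum_add_distrib] at this
    simp only [dM, Matrix.add_apply, Matrix.mul_apply, Matrix.zero_apply, this]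
    split_ifs <;> simp
  have h3 : dM δ C.gi = -(ω.transpose * C.gi) - C.gi * ω := by
    have h4 : dM δ C.gi = -(C.gi * dM δ C.g * C.gi) := by
      have := congrArg (· * C.gi) h2
      simp only [Matrix.add_mul, Matrix.mul_assoc, C.g_gi, Matrix.mul_one, Matrix.zero_mul] at this
      rw [Matrix.mul_assoc]; exact eq_neg_of_add_eq_zero_left this
    rw [h4, h1, Matrix.mul_add, Matrix.add_mul, ← Matrix.mul_assoc, ← Matrix.mul_assoc, C.gi_g,
      Matrix.mul_assoc, C.g_gi, Matrix.one_mul, Matrix.mul_one]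
    abel
  intro a b
  have := congrFun (congrFun h3 a) b
  simpa only [dM, Matrix.sub_apply, Matrix.neg_apply, Matrix.mul_apply, Matrix.transpose_apply]
    using this

lemma cd_g (k : Fin n) : cd (C.d k) (C.Gm k) (matT C.g) = 0 := by
  refine ext2 fun a b => ?_
  have h1 := C.g_Gam b k a
  have h2 := C.g_Gam a k b
  have e1 : ∑ m, C.Gm k a m * C.g m b = ∑ l, C.g b l * C.Gam l k a :=
    sum_congr rfl fun m _ => by rw [Gm, C.g_symm m b, mul_comm]
  have e2 : ∑ m, C.Gm k b m * C.g a m = ∑ l, C.g a l * C.Gam l k b :=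
    sum_congr rfl fun m _ => by rw [Gm, mul_comm]
  simp only [cd_apply, act_v2, matT_v2, Pi.zero_apply, e1, e2, h1, h2, C.g_symm b a]
  linear_combination (-C.d k (C.g a b)) * two_hf (S := S)

lemma compat (k : Fin n) : Compat (C.d k) (C.Gm k) C.gi := C.compat_of (C.cd_g k)

/-- covariant derivative; the new index is index `0` -/
noncomputable def cov (T : Ten n S p) : Ten n S (p + 1) := fun J =>
  cd (C.d (J 0)) (C.Gm (J 0)) T (Fin.tail J)

/-- iterated covariant derivative -/
noncomputable def covN (T : Ten n S p) : (j : ℕ) → Ten n S (p + j)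
  | 0 => T
  | j + 1 => C.cov (covN T j)

lemma cov_cons (T : Ten n S p) (k : Fin n) (y : Fin p → Fin n) :
    C.cov T (Fin.cons k y) = cd (C.d k) (C.Gm k) T y := rfl

lemma sl_cov (T : Ten n S p) (k : Fin n) : sl (C.cov T) k = cd (C.d k) (C.Gm k) T := rfl

lemma cov_add (T U : Ten n S p) : C.cov (T + U) = C.cov T + C.cov U :=
  ten_ext fun k y => by simp only [cov_cons, cd_add, Pi.add_apply]

lemma cov_sub (T U : Ten n S p) : C.cov (T - U) = C.cov T - C.cov U :=
  ten_ext fun k y => by simp only [cov_cons, cd_sub, Pi.sub_apply]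

lemma cov_neg (T : Ten n S p) : C.cov (-T) = -C.cov T :=
  ten_ext fun k y => by simp only [cov_cons, cd_neg, Pi.neg_apply]

lemma cov_zero : C.cov (0 : Ten n S p) = 0 :=
  ten_ext fun k y => by simp only [cov_cons, cd_zero, Pi.zero_apply]

/-- `Rˡₖᵢⱼ` -/
noncomputable def riem (l k i j : Fin n) : S :=
  C.d i (C.Gam l j k) - C.d j (C.Gam l i k) +
    ∑ a, (C.Gam l i a * C.Gam a j k - C.Gam l j a * C.Gam a i k)

/-- `R_{lkij}` -/
noncomputable def rl (l k i j : Fin n) : S := ∑ m, C.g l m * C.riem m k i j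

/-- the Riemann tensor -/
noncomputable def rmT : Ten n S 4 := fun I => C.rl (I 0) (I 1) (I 2) (I 3)

@[simp] lemma rmT_v4 (l k i j : Fin n) : C.rmT (v4 l k i j) = C.rl l k i j := rfl

/-- the Ricci tensor (formula of the prelude) -/
noncomputable def ricc (i j : Fin n) : S :=
  (∑ k, C.d k (C.Gam k i j)) - C.d j (∑ k, C.Gam k k i)
    + (∑ k, ∑ l, C.Gam k k l * C.Gam l i j) - (∑ k, ∑ l, C.Gam k j l * C.Gam l k i)

/-- the Ricci tensor -/
noncomputable def ricT : Ten n S 2 := fun I => C.ricc (I 0) (I 1)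

@[simp] lemma ricT_v2 (i j : Fin n) : C.ricT (v2 i j) = C.ricc i j := rfl

/-- scalar curvature -/
noncomputable def scal : S := ∑ i, ∑ j, C.gi i j * C.ricc i j

/-- curvature matrices -/
noncomputable def Km (i j : Fin n) : Matrix (Fin n) (Fin n) S := fun a b => C.riem b a i j

lemma cov_cov (T : Ten n S p) (i j : Fin n) (x : Fin p → Fin n) :
    C.cov (C.cov T) (Fin.cons i (Fin.cons j x)) = cd (C.d i) (C.Gm i) (cd (C.d j) (C.Gm j) T) x
      - ∑ m, C.Gam m i j * cd (C.d m) (C.Gm m) T x := by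
  rw [cov_cons, cd_cons]; rfl

lemma ricci_id0 (T : Ten n S p) (i j : Fin n) (x : Fin p → Fin n) :
    C.cov (C.cov T) (Fin.cons i (Fin.cons j x)) - C.cov (C.cov T) (Fin.cons j (Fin.cons i x))
      = - act (C.Km i j) T x := by
  have h := cd_comm (C.d i) (C.Gm i) T (C.d j) (C.Gm j) x
  have e : dM (C.d i) (C.Gm j) - dM (C.d j) (C.Gm i) + (C.Gm j * C.Gm i - C.Gm i * C.Gm j)
      = C.Km i j := by
    ext a b
    simp only [dM, Gm, Km, riem, Matrix.add_apply, Matrix.sub_apply, Matrix.mul_apply,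
      sum_sub_distrib, mul_comm]
  rw [e, C.comm i j] at h
  simp only [cov_cov, C.Gam_symm _ j i]
  linear_combination h

lemma riem_anti (l k i j : Fin n) : C.riem l k i j = -C.riem l k j i := by
  simp only [riem, sum_sub_distrib]; ring

lemma rl_anti34 (l k i j : Fin n) : C.rl l k i j = -C.rl l k j i := by
  simp only [rl, C.riem_anti _ k i j, mul_neg, sum_neg_distrib]

lemma cov_g : C.cov (matT C.g) = 0 := ten_ext fun k y => by rw [cov_cons, cd_g]; rfl

lemma rl_anti12 (l k i j : Fin n) : C.rl l k i j = -C.rl k l i j := by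
  have h := C.ricci_id0 (matT C.g) i j (v2 k l)
  simp only [cov_g, cov_zero, Pi.zero_apply, act_v2, matT_v2, Km] at h
  have e1 : ∑ m, C.riem m k i j * C.g m l = C.rl l k i j :=
    sum_congr rfl fun m _ => by rw [C.g_symm m l, mul_comm]
  have e2 : ∑ m, C.riem m l i j * C.g k m = C.rl k l i j :=
    sum_congr rfl fun m _ => by rw [mul_comm]
  rw [e1, e2] at h
  linear_combination h

lemma riem_bianchi (l k i j : Fin n) : C.riem l k i j + C.riem l i j k + C.riem l j k i = 0 := by
  simp only [riem, sum_sub_distrib, C.Gam_symm _ k i, C.Gam_symm _ k j, C.Gam_symm _ j i]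
  ring

lemma rl_bianchi (l k i j : Fin n) : C.rl l k i j + C.rl l i j k + C.rl l j k i = 0 := by
  simp only [rl, ← sum_add_distrib, ← mul_add, riem_bianchi, mul_zero, sum_const_zero]

lemma rl_pair (l k i j : Fin n) : C.rl l k i j = C.rl i j l k := by
  apply eq_of_two
  linear_combination C.rl_bianchi l k i j - C.rl_bianchi k i j l - C.rl_bianchi i j l k
    + C.rl_bianchi j l k i - C.rl_anti12 l i j k - C.rl_anti34 i l j k - C.rl_anti12 l j k i
    + C.rl_anti12 k i j l + C.rl_anti34 i k j l + C.rl_anti12 k j l i + C.rl_anti12 k l i j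
    - C.rl_anti12 j i l k + C.rl_anti34 i l k j - C.rl_anti34 j k i l + C.rl_anti34 i k l j
    + C.rl_anti34 i l j k - 2 * C.rl_anti34 i k j l

lemma riem_eq (b a i j : Fin n) : C.riem b a i j = ∑ l, C.gi b l * C.rl l a i j :=
  (C.gi_g_sum b fun m => C.riem m a i j).symm

lemma Km_eq (i j : Fin n) : C.Km i j = -(mat (sl (sl C.rmT i) j) * C.gi) := by
  ext a b
  simp only [Km, riem_eq, Matrix.neg_apply, Matrix.mul_apply, mat, sl_apply, rmT_v4,
    ← sum_neg_distrib]
  exact sum_congr rfl fun l _ => by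
    rw [C.rl_pair l a i j, C.rl_anti34 i j l a, C.gi_symm b l]; ring

/-- Ricci identity -/
theorem ricci_id (T : Ten n S p) :
    C.cov (C.cov T) = sw (C.cov (C.cov T)) + gamH C.gi C.rmT T := by
  refine ten_ext2 fun i j x => ?_
  have := C.ricci_id0 T i j x
  rw [Km_eq, act_negL] at this
  rw [Pi.add_apply, sw_cons, gamH_cons]
  simp only [Pi.neg_apply] at this
  linear_combination this

lemma ricc_eq (k j : Fin n) : C.ricc k j = ∑ l, ∑ i, C.gi l i * C.rl l k i j := by
  have : ∑ l, ∑ i, C.gi l i * C.rl l k i j = ∑ i, C.riem i k i j := by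
    rw [sum_comm]
    exact sum_congr rfl fun i _ => by
      rw [riem_eq]; exact sum_congr rfl fun l _ => by rw [C.gi_symm l i]
  rw [this]
  simp only [ricc, riem, sum_add_distrib, sum_sub_distrib, map_sum, C.Gam_symm _ j k]
  ring

lemma ricc_symm (k j : Fin n) : C.ricc k j = C.ricc j k := by
  rw [ricc_eq, ricc_eq, sum_comm]
  exact sum_congr rfl fun _ _ => sum_congr rfl fun _ _ => by rw [C.rl_pair, C.gi_symm]

end Co

end Crest.Agent.N207.A
private theorem rz_ffc5584229 : type_of% @_root_.Crest.Agent.N207.A.Co.covN.eq_def := @_root_.Crest.Agent.N207.A.Co.covN.eq_def -- L262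
private theorem rz_9e21c64378 : type_of% @_root_.Crest.Agent.N207.A.Co.covN.eq_1 := @_root_.Crest.Agent.N207.A.Co.covN.eq_1 -- L262
end

-- ▼ part N207/A/Tf3
section

/-!
# Row 207, block A (helper33): tensors over a differential ring, part 3

Second Bianchi identity and its contractions, commutator of `Δ` and `∇`, Laplacian of `Rm`.
-/

set_option autoImplicit false
set_option linter.unusedSectionVars false

namespace Crest.Agent.N207.A

open Finset Function

variable {n p q : ℕ} {S : Type*} [CommRing S] [Algebra ℝ S]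

/-- exchange of the slots `2, 3` -/
def e23 : Fin 4 ≃ Fin 4 := ⟨![0, 1, 3, 2], ![0, 1, 3, 2], by decide, by decide⟩
/-- exchange of the slots `1, 2` -/
def e12 : Fin 4 ≃ Fin 4 := ⟨![0, 2, 1, 3], ![0, 2, 1, 3], by decide, by decide⟩
/-- exchange of the two pairs -/
def ePr : Fin 4 ≃ Fin 4 := ⟨![2, 3, 0, 1], ![2, 3, 0, 1], by decide, by decide⟩
/-- cyclic permutation of the first three slots -/
def eC5 : Fin 5 ≃ Fin 5 := ⟨![1, 2, 0, 3, 4], ![2, 0, 1, 3, 4], by decide, by decide⟩
/-- cyclic permutation of three slots -/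
def eC3 : Fin 3 ≃ Fin 3 := ⟨![1, 2, 0], ![2, 0, 1], by decide, by decide⟩
/-- reversal of three slots -/
def eR3 : Fin 3 ≃ Fin 3 := ⟨![2, 1, 0], ![2, 1, 0], by decide, by decide⟩

@[simp] lemma prm_e23 (T : Ten n S 4) (a b c d : Fin n) :
    prm e23 T (v4 a b c d) = T (v4 a b d c) := by
  unfold prm; congr 1; funext i; fin_cases i <;> rfl

@[simp] lemma prm_e12 (T : Ten n S 4) (a b c d : Fin n) :
    prm e12 T (v4 a b c d) = T (v4 a c b d) := by
  unfold prm; congr 1; funext i; fin_cases i <;> rfl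

@[simp] lemma prm_ePr (T : Ten n S 4) (a b c d : Fin n) :
    prm ePr T (v4 a b c d) = T (v4 c d a b) := by
  unfold prm; congr 1; funext i; fin_cases i <;> rfl

@[simp] lemma prm_eC5 (T : Ten n S 5) (a b c d e : Fin n) :
    prm eC5 T (v5 a b c d e) = T (v5 b c a d e) := by
  unfold prm; congr 1; funext i; fin_cases i <;> rfl

@[simp] lemma prm_eC3 (T : Ten n S 3) (a b c : Fin n) :
    prm eC3 T (v3 a b c) = T (v3 b c a) := by
  unfold prm; congr 1; funext i; fin_cases i <;> rfl

@[simp] lemma prm_eR3 (T : Ten n S 3) (a b c : Fin n) :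
    prm eR3 T (v3 a b c) = T (v3 c b a) := by
  unfold prm; congr 1; funext i; fin_cases i <;> rfl

/-- the symmetries of a curvature tensor (without the first Bianchi identity) -/
structure CS (T : Ten n S 4) : Prop where
  a12 : ∀ a b c d, T (v4 a b c d) = -T (v4 b a c d)
  a34 : ∀ a b c d, T (v4 a b c d) = -T (v4 a b d c)
  pr : ∀ a b c d, T (v4 a b c d) = T (v4 c d a b)

lemma CS.cd {T : Ten n S 4} (h : CS T) (δ : Derivation ℝ S S) (ω : Matrix (Fin n) (Fin n) S) :
    CS (cd δ ω T) := by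
  have h1 : T = -sw (p := 2) T := ext4 h.a12
  have h2 : T = -prm e23 T := ext4 fun a b c d => by rw [Pi.neg_apply, prm_e23]; exact h.a34 ..
  have h3 : T = prm ePr T := ext4 fun a b c d => by rw [prm_ePr]; exact h.pr ..
  refine ⟨fun a b c d => ?_, fun a b c d => ?_, fun a b c d => ?_⟩
  · have := congrFun (congrArg (A.cd δ ω) h1) (v4 a b c d)
    rwa [cd_neg, cd_sw] at this
  · have := congrFun (congrArg (A.cd δ ω) h2) (v4 a b c d)
    rwa [cd_neg, cd_prm, Pi.neg_apply, prm_e23] at this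
  · have := congrFun (congrArg (A.cd δ ω) h3) (v4 a b c d)
    rwa [cd_prm, prm_ePr] at this

lemma CS.act_a12 {T : Ten n S 4} (h : CS T) (ω : Matrix (Fin n) (Fin n) S) (a b c d : Fin n) :
    act ω T (v4 a b c d) = -act ω T (v4 b a c d) := by
  have := (h.cd 0 ω).a12 a b c d
  simp only [cd_apply, Derivation.coe_zero, Pi.zero_apply] at this
  linear_combination -this

lemma cs_slices {U : Ten n S 5} (h : ∀ k, CS (sl U k)) (δ : Derivation ℝ S S)
    (ω : Matrix (Fin n) (Fin n) S) (k : Fin n) : CS (sl (cd δ ω U) k) := by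
  rw [sl_cd]
  refine ⟨fun a b c d => ?_, fun a b c d => ?_, fun a b c d => ?_⟩ <;>
    simp only [Pi.sub_apply, Finset.sum_apply, Pi.smul_apply, smul_eq_mul]
  · rw [((h k).cd δ ω).a12, sum_congr rfl fun m _ => by rw [(h m).a12 a b c d]]
    simp only [mul_neg, sum_neg_distrib]; ring
  · rw [((h k).cd δ ω).a34, sum_congr rfl fun m _ => by rw [(h m).a34 a b c d]]
    simp only [mul_neg, sum_neg_distrib]; ring
  · rw [((h k).cd δ ω).pr, sum_congr rfl fun m _ => by rw [(h m).pr a b c d]]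

/-- `∑ M^♯(k,m) T(m,x)` -/
def rho (H : Matrix (Fin n) (Fin n) S) (M : Ten n S 2) (T : Ten n S (p + 1)) : Ten n S (p + 1) :=
  fun x => ∑ m, (mat M * H) (x 0) m * T (Fin.cons m (Fin.tail x))

/-- `(O(k,·,·)^♯ · T)(x)` -/
def the (H : Matrix (Fin n) (Fin n) S) (O : Ten n S 3) (T : Ten n S p) : Ten n S (p + 1) :=
  fun x => act (mat (sl O (x 0)) * H) T (Fin.tail x)

/-- `∑ Hᵃᵇ (R(b,k,·,·)^♯ · T(a,·))(x)` -/
def bet (H : Matrix (Fin n) (Fin n) S) (R : Ten n S 4) (T : Ten n S (p + 1)) : Ten n S (p + 1) :=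
  fun x => ∑ a, ∑ b, H a b * act (mat (sl (sl R b) (x 0)) * H) (sl T a) (Fin.tail x)

lemma rho_cons (H : Matrix (Fin n) (Fin n) S) (M : Ten n S 2) (T : Ten n S (p + 1)) (k : Fin n)
    (x : Fin p → Fin n) : rho H M T (Fin.cons k x) = ∑ m, (mat M * H) k m * T (Fin.cons m x) := rfl

lemma the_cons (H : Matrix (Fin n) (Fin n) S) (O : Ten n S 3) (T : Ten n S p) (k : Fin n)
    (x : Fin p → Fin n) : the H O T (Fin.cons k x) = act (mat (sl O k) * H) T x := rfl

lemma bet_cons (H : Matrix (Fin n) (Fin n) S) (R : Ten n S 4) (T : Ten n S (p + 1)) (k : Fin n)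
    (x : Fin p → Fin n) : bet H R T (Fin.cons k x)
      = ∑ a, ∑ b, H a b * act (mat (sl (sl R b) k) * H) (sl T a) x := rfl

lemma cd_the {δ : Derivation ℝ S S} {ω H : Matrix (Fin n) (Fin n) S} (h : Compat δ ω H)
    (O : Ten n S 3) (T : Ten n S p) :
    cd δ ω (the H O T) = the H (cd δ ω O) T + the H O (cd δ ω T) := by
  refine ten_ext fun i x => ?_
  have e : sl (the H O T) i = act (mat (sl O i) * H) T := rfl
  rw [cd_cons, e, cd_act, h.raise, Pi.add_apply, the_cons, the_cons, sl_cd]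
  simp only [the_cons, mat_sub, mat_sum, mat_smul, Matrix.sub_mul, Matrix.sum_mul,
    Matrix.smul_mul, act_subL, act_sumL, act_smulL, Pi.sub_apply, Finset.sum_apply, Pi.smul_apply,
    smul_eq_mul]
  ring

lemma rho_eq (H : Matrix (Fin n) (Fin n) S) (M : Ten n S 2) (T : Ten n S (p + 1)) (k : Fin n) :
    sl (rho H M T) k = sl (act (mat M * H) T) k - act (mat M * H) (sl T k) := by
  funext x; simp only [sl_apply, rho_cons, Pi.sub_apply, act_cons]; ring

lemma cd_rho {δ : Derivation ℝ S S} {ω H : Matrix (Fin n) (Fin n) S} (h : Compat δ ω H)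
    (M : Ten n S 2) (T : Ten n S (p + 1)) :
    cd δ ω (rho H M T) = rho H (cd δ ω M) T + rho H M (cd δ ω T) := by
  refine ten_ext fun k x => ?_
  have h1 := cd_act δ ω T (mat M * H) (Fin.cons k x)
  have h2 := cd_act δ ω (sl T k) (mat M * H) x
  have h3 : act (mat M * H) (sl (cd δ ω T) k) x = act (mat M * H) (cd δ ω (sl T k)) x
      - ∑ m, ω k m * act (mat M * H) (sl T m) x := by
    simp only [sl_cd, act_sub, act_sum, act_smul, Pi.sub_apply, Finset.sum_apply, Pi.smul_apply,
      smul_eq_mul]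
  have h4 : ∀ (M : Ten n S 2) (T : Ten n S (p + 1)) k, rho H M T (Fin.cons k x)
      = act (mat M * H) T (Fin.cons k x) - act (mat M * H) (sl T k) x :=
    fun M T k => congrFun (rho_eq H M T k) x
  rw [h.raise] at h1 h2
  rw [cd_cons] at h1
  rw [cd_cons, rho_eq, cd_sub, Pi.add_apply, Pi.sub_apply]
  simp only [h4, mul_sub, sum_sub_distrib]
  linear_combination h1 - h2 + h3

namespace Co

variable (C : Co n S)

lemma cs_rm : CS C.rmT := ⟨C.rl_anti12, C.rl_anti34, C.rl_pair⟩

lemma cs_cov (k : Fin n) : CS (sl (C.cov C.rmT) k) := C.cs_rm.cd (C.d k) (C.Gm k)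

lemma cs_cov2 (j k : Fin n) : CS (sl (sl (C.cov (C.cov C.rmT)) j) k) :=
  cs_slices C.cs_cov (C.d j) (C.Gm j) k

lemma raise_inj {M M' : Ten n S 2}
    (h : ∀ (T : Ten n S 1) x, act (mat M * C.gi) T x = act (mat M' * C.gi) T x) : M = M' := by
  have h1 := congrArg (· * C.g) (act_inj h)
  simp only [Matrix.mul_assoc, C.gi_g, Matrix.mul_one] at h1
  exact ext2 fun a b => congrFun (congrFun h1 a) b

/-- rough Laplacian -/
noncomputable def lapT (T : Ten n S p) : Ten n S p := tr C.gi (C.cov (C.cov T))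

/-- divergence in the index `0` -/
noncomputable def divT (T : Ten n S (p + 1)) : Ten n S p := tr C.gi (C.cov T)

/-- `df` -/
noncomputable def dT (f : S) : Ten n S 1 := fun I => C.d (I 0) f

/-- `Hess f` -/
noncomputable def hessT (f : S) : Ten n S 2 := C.cov (C.dT f)

lemma cov_fnT (f : S) : C.cov (fnT f) = C.dT f := ext1 fun a => by rw [cov_cons, cd_zero0]; rfl

lemma cov_tr (T : Ten n S (p + 2)) (k : Fin n) (x : Fin p → Fin n) :
    C.cov (tr C.gi T) (Fin.cons k x)
      = ∑ a, ∑ b, C.gi a b * C.cov T (Fin.cons k (Fin.cons a (Fin.cons b x))) := by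
  rw [cov_cons, cd_tr (C.compat k)]; rfl

lemma cov3_a (T : Ten n S p) (j k l : Fin n) (x : Fin p → Fin n) :
    C.cov (C.cov (C.cov T)) (Fin.cons j (Fin.cons k (Fin.cons l x)))
      = C.cov (C.cov (C.cov T)) (Fin.cons j (Fin.cons l (Fin.cons k x)))
        + act (mat (sl (sl (sl (C.cov C.rmT) j) k) l) * C.gi) T x
        + act (mat (sl (sl C.rmT k) l) * C.gi) (sl (C.cov T) j) x := by
  have := congrFun (congrArg (cd (C.d j) (C.Gm j)) (C.ricci_id T)) (Fin.cons k (Fin.cons l x))
  rw [cd_add, cd_sw, cd_gamH (C.compat j)] at this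
  exact this.trans (add_assoc _ _ _).symm

lemma cov3_b (T : Ten n S p) (j k l : Fin n) (x : Fin p → Fin n) :
    C.cov (C.cov (C.cov T)) (Fin.cons j (Fin.cons k (Fin.cons l x)))
      = C.cov (C.cov (C.cov T)) (Fin.cons k (Fin.cons j (Fin.cons l x)))
        + ∑ m, (mat (sl (sl C.rmT j) k) * C.gi) l m * C.cov T (Fin.cons m x)
        + act (mat (sl (sl C.rmT j) k) * C.gi) (sl (C.cov T) l) x := by
  have := congrFun (C.ricci_id (C.cov T)) (Fin.cons j (Fin.cons k (Fin.cons l x)))
  rw [Pi.add_apply, sw_cons, gamH_cons, act_cons] at this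
  exact this.trans (add_assoc _ _ _).symm

/-- second Bianchi identity -/
theorem bianchi2 (j k l a b : Fin n) : C.cov C.rmT (v5 j k l a b) + C.cov C.rmT (v5 k l j a b)
    + C.cov C.rmT (v5 l j k a b) = 0 := by
  have key : sl (sl (sl (C.cov C.rmT) j) k) l + sl (sl (sl (C.cov C.rmT) k) l) j
      + sl (sl (sl (C.cov C.rmT) l) j) k = 0 := by
    refine C.raise_inj fun T x => ?_
    have hK : ∀ j k l m, (mat (sl (sl C.rmT j) k) * C.gi) l m = -C.riem m l j k := by
      intro j k l m
      have := congrFun (congrFun (C.Km_eq j k) l) m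
      rw [Matrix.neg_apply] at this
      rw [← neg_neg ((mat (sl (sl C.rmT j) k) * C.gi) l m), ← this]; rfl
    have hs : ∑ m, (mat (sl (sl C.rmT j) k) * C.gi) l m * C.cov T (Fin.cons m x)
        + ∑ m, (mat (sl (sl C.rmT k) l) * C.gi) j m * C.cov T (Fin.cons m x)
        + ∑ m, (mat (sl (sl C.rmT l) j) * C.gi) k m * C.cov T (Fin.cons m x) = 0 := by
      rw [← sum_add_distrib, ← sum_add_distrib]
      refine sum_eq_zero fun m _ => ?_
      rw [hK, hK, hK]
      linear_combination (-C.cov T (Fin.cons m x)) * C.riem_bianchi m l j k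
    have h0 : mat (0 : Ten n S 2) = 0 := rfl
    simp only [mat_add, Matrix.add_mul, act_addL, Pi.add_apply, h0, Matrix.zero_mul, act_zeroL,
      Pi.zero_apply]
    linear_combination hs - C.cov3_a T j k l x - C.cov3_a T k l j x - C.cov3_a T l j k x
      + C.cov3_b T j k l x + C.cov3_b T k l j x + C.cov3_b T l j k x
  exact congrFun key (v2 a b)

lemma bianchi2_cov (i j k l a b : Fin n) : C.cov (C.cov C.rmT) (v6 i j k l a b)
    + C.cov (C.cov C.rmT) (v6 i k l j a b) + C.cov (C.cov C.rmT) (v6 i l j k a b) = 0 := by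
  have h : C.cov C.rmT + prm eC5 (C.cov C.rmT) + prm eC5 (prm eC5 (C.cov C.rmT)) = 0 :=
    ext5 fun j k l a b => by
      simp only [Pi.add_apply, prm_eC5, Pi.zero_apply]; exact C.bianchi2 j k l a b
  have := congrFun (congrArg (cd (C.d i) (C.Gm i)) h) (v5 j k l a b)
  simp only [cd_add, cd_prm, cd_zero, Pi.add_apply, prm_eC5, Pi.zero_apply] at this
  exact this

lemma ricT_eq : C.ricT = tr C.gi (prm e12 C.rmT) := ext2 fun k j => by
  simp only [ricT_v2, tr, prm_e12, rmT_v4]; exact C.ricc_eq k j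

lemma cd_ric {δ : Derivation ℝ S S} {ω : Matrix (Fin n) (Fin n) S} (h : Compat δ ω C.gi)
    (k j : Fin n) :
    cd δ ω C.ricT (v2 k j) = ∑ l, ∑ i, C.gi l i * cd δ ω C.rmT (v4 l k i j) := by
  rw [ricT_eq, cd_tr h, cd_prm]; simp only [tr, prm_e12]

lemma cov_ric (m k j : Fin n) :
    C.cov C.ricT (v3 m k j) = ∑ l, ∑ i, C.gi l i * C.cov C.rmT (v5 m l k i j) :=
  C.cd_ric (C.compat m) k j

lemma sw_ric : sw (p := 0) C.ricT = C.ricT := ext2 fun a b => C.ricc_symm b a

lemma cd_ric_symm (δ : Derivation ℝ S S) (ω : Matrix (Fin n) (Fin n) S) (k j : Fin n) :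
    cd δ ω C.ricT (v2 k j) = cd δ ω C.ricT (v2 j k) := by
  conv_lhs => rw [← C.sw_ric, cd_sw]
  rfl

lemma cov_ric_symm (m k j : Fin n) : C.cov C.ricT (v3 m k j) = C.cov C.ricT (v3 m j k) :=
  C.cd_ric_symm _ _ k j

/-- divergence of the curvature tensor -/
noncomputable def Om : Ten n S 3 := C.divT C.rmT

/-- contracted Bianchi identity -/
theorem Om_eq (k l m : Fin n) :
    C.Om (v3 k l m) = C.cov C.ricT (v3 l m k) - C.cov C.ricT (v3 m l k) := by
  rw [cov_ric, cov_ric, Om, divT, tr, ← sum_sub_distrib]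
  refine sum_congr rfl fun i _ => ?_
  rw [← sum_sub_distrib]
  refine sum_congr rfl fun i' _ => ?_
  have h1 := (C.cs_cov i).pr i' k l m
  have h2 := (C.cs_cov l).a12 m i i' k
  simp only [sl_apply] at h1 h2
  linear_combination C.gi i i' * (h1 + C.bianchi2 i l m i' k - h2)

lemma tr_Om (m : Fin n) : tr C.gi C.Om (v1 m) = -C.divT C.ricT (v1 m) := by
  have : ∀ k l, C.gi k l * C.Om (v3 k l m)
      = -∑ i, ∑ i', C.gi i i' * (C.gi k l * C.cov C.rmT (v5 i k i' l m)) := by
    intro k l
    simp only [Om, divT, tr, mul_sum, ← sum_neg_distrib]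
    refine sum_congr rfl fun i _ => sum_congr rfl fun i' _ => ?_
    have h2 := (C.cs_cov i).a12 i' k l m
    simp only [sl_apply] at h2
    linear_combination C.gi i i' * C.gi k l * h2
  have e : ∀ X : Fin n → Fin n → Fin n → Fin n → S,
      ∑ k, ∑ l, ∑ i, ∑ i', X k l i i' = ∑ i, ∑ i', ∑ k, ∑ l, X k l i i' := by
    intro X
    rw [sum_congr rfl fun k _ => sum_comm, sum_comm]
    refine sum_congr rfl fun i _ => ?_
    rw [sum_congr rfl fun k _ => sum_comm, sum_comm]
  simp only [tr, this, divT, cov_ric, mul_sum, sum_neg_distrib]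
  rw [e]

lemma fnT_scal : fnT C.scal = tr C.gi C.ricT := ext0 rfl

lemma d_scal (m : Fin n) : C.d m C.scal = ∑ k, ∑ l, C.gi k l * C.cov C.ricT (v3 m k l) := by
  rw [← C.cov_tr, ← fnT_scal, cov_fnT]; rfl

/-- twice contracted Bianchi identity -/
theorem two_div_ric (m : Fin n) : 2 * C.divT C.ricT (v1 m) = C.d m C.scal := by
  have h := C.tr_Om m
  have e : ∑ k, ∑ l, C.gi k l * C.cov C.ricT (v3 l m k) = C.divT C.ricT (v1 m) := by
    rw [sum_comm]
    exact sum_congr rfl fun l _ => sum_congr rfl fun k _ => by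
      rw [C.gi_symm k l, C.cov_ric_symm l m k]
  have e' : ∑ k, ∑ l, C.gi k l * C.cov C.ricT (v3 m l k) = C.d m C.scal := by
    rw [d_scal]
    exact sum_congr rfl fun k _ => sum_congr rfl fun l _ => by rw [C.cov_ric_symm m l k]
  simp only [tr, Om_eq, mul_sub, sum_sub_distrib, e, e'] at h
  linear_combination h

lemma tr_rm_raise (k m : Fin n) : ∑ a, ∑ b, C.gi a b * (mat (sl (sl C.rmT a) k) * C.gi) b m
    = (mat C.ricT * C.gi) k m := by
  simp only [Matrix.mul_apply, mat, sl_apply, rmT_v4, ricT_v2, ricc_eq, mul_sum, sum_mul]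
  rw [sum_congr rfl fun a _ => sum_comm, sum_comm]
  exact sum_congr rfl fun _ _ => sum_congr rfl fun _ _ => sum_congr rfl fun _ _ => by ring

lemma tr_act_rm (T : Ten n S (p + 1)) (k : Fin n) (x : Fin p → Fin n) :
    ∑ a, ∑ b, C.gi a b * act (mat (sl (sl C.rmT a) k) * C.gi) T (Fin.cons b x)
      = rho C.gi C.ricT T (Fin.cons k x) + bet C.gi C.rmT T (Fin.cons k x) := by
  simp only [act_cons, mul_add, sum_add_distrib, rho_cons, bet_cons, ← tr_rm_raise, sum_mul,
    mul_sum]
  congr 1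
  · rw [sum_congr rfl fun a _ => sum_comm, sum_comm]
    exact sum_congr rfl fun _ _ => sum_congr rfl fun _ _ => sum_congr rfl fun _ _ => by ring
  · rw [sum_comm]
    exact sum_congr rfl fun _ _ => sum_congr rfl fun _ _ => by rw [C.gi_symm]

/-- commutator of `Δ` and `∇` -/
theorem lap_cov (T : Ten n S p) : C.lapT (C.cov T) = C.cov (C.lapT T) + rho C.gi C.ricT (C.cov T)
    + the C.gi C.Om T + (2 : S) • bet C.gi C.rmT (C.cov T) := by
  refine ten_ext fun k x => ?_
  have h1 := C.tr_act_rm (C.cov T) k x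
  have h2 : the C.gi C.Om T (Fin.cons k x)
      = ∑ a, ∑ b, C.gi a b * act (mat (sl (sl (sl (C.cov C.rmT) a) b) k) * C.gi) T x := by
    have : sl C.Om k = ∑ a, ∑ b, C.gi a b • sl (sl (sl (C.cov C.rmT) a) b) k := by
      funext y
      simp only [Om, divT, tr, sl_apply, Finset.sum_apply, Pi.smul_apply, smul_eq_mul]
    simp only [the_cons, this, mat_sum, mat_smul, Matrix.sum_mul, Matrix.smul_mul, act_sumL,
      act_smulL, Finset.sum_apply, Pi.smul_apply, smul_eq_mul]
  have h3 : ∀ a b, C.cov (C.cov (C.cov T)) (Fin.cons a (Fin.cons b (Fin.cons k x)))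
      = C.cov (C.cov (C.cov T)) (Fin.cons k (Fin.cons a (Fin.cons b x)))
        + act (mat (sl (sl C.rmT a) k) * C.gi) (C.cov T) (Fin.cons b x)
        + act (mat (sl (sl (sl (C.cov C.rmT) a) b) k) * C.gi) T x
        + act (mat (sl (sl C.rmT b) k) * C.gi) (sl (C.cov T) a) x := by
    intro a b
    rw [C.cov3_a T a b k x, C.cov3_b T a k b x, act_cons]; ring
  simp only [Pi.add_apply, Pi.smul_apply, smul_eq_mul, lapT, cov_tr, h2]
  simp only [tr, h3, mul_add, sum_add_distrib, h1, ← bet_cons]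
  ring

/-- the linear part of `ΔRm` -/
noncomputable def Zr : Ten n S 4 := C.cov C.Om - sw (p := 2) (C.cov C.Om)
  + (rho C.gi C.ricT C.rmT - sw (p := 2) (rho C.gi C.ricT C.rmT))

/-- Laplacian of the curvature tensor -/
theorem lap_rm : C.lapT C.rmT
    = C.Zr + (bet C.gi C.rmT C.rmT - sw (p := 2) (bet C.gi C.rmT C.rmT)) := by
  refine ext4 fun k l a b => ?_
  have h1 : ∀ k l, C.cov C.Om (v4 k l a b)
      = ∑ i, ∑ j, C.gi i j * C.cov (C.cov C.rmT) (v6 k i j l a b) := fun k l => C.cov_tr _ k _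
  have h2 : ∀ i k l j, C.cov (C.cov C.rmT) (v6 i k l j a b) = C.cov (C.cov C.rmT) (v6 k i l j a b)
      + act (mat (sl (sl C.rmT i) k) * C.gi) C.rmT (v4 l j a b) :=
    fun i k l j => congrFun (C.ricci_id C.rmT) (v6 i k l j a b)
  have h3 : ∀ i j, C.cov (C.cov C.rmT) (v6 i j k l a b) = C.cov (C.cov C.rmT) (v6 k i j l a b)
      - C.cov (C.cov C.rmT) (v6 l i j k a b)
      + act (mat (sl (sl C.rmT i) k) * C.gi) C.rmT (v4 j l a b)
      - act (mat (sl (sl C.rmT i) l) * C.gi) C.rmT (v4 j k a b) := by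
    intro i j
    have h4 := (C.cs_cov2 k i).a12 l j a b
    simp only [sl_apply] at h4
    linear_combination C.bianchi2_cov i j k l a b - h2 i k l j - h2 i l j k - h4
      - C.cs_rm.act_a12 (mat (sl (sl C.rmT i) k) * C.gi) l j a b
  have h5 := C.tr_act_rm C.rmT k (v3 l a b)
  have h6 := C.tr_act_rm C.rmT l (v3 k a b)
  simp only [Zr, Pi.add_apply, Pi.sub_apply, sw_cons, h1, lapT, tr, h3, mul_add, mul_sub,
    sum_add_distrib, sum_sub_distrib, h5, h6]
  ring

end Co

end Crest.Agent.N207.A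
end

-- ▼ part N207/A/Tf4
section

/-!
# Row 207, block A (helper33): tensors over a differential ring, part 4

Scalars (`lap0`, `gam`), Laplacian of inner products, and the Ricci flow `Rf` with Uhlenbeck's time
derivative: commutators and the evolution of `Rm`.
-/

set_option autoImplicit false
set_option linter.unusedSectionVars false

namespace Crest.Agent.N207.A

open Finset Function

variable {n p q : ℕ} {S : Type*} [CommRing S] [Algebra ℝ S]

/-- contraction of all indices of `A` with the last indices of `U` -/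
def con (H : Matrix (Fin n) (Fin n) S) (A : Ten n S p) (U : Ten n S (p + 1)) : Ten n S 1 :=
  fun I => ip H A (sl U (I 0))

@[simp] lemma con_v1 (H : Matrix (Fin n) (Fin n) S) (A : Ten n S p) (U : Ten n S (p + 1))
    (k : Fin n) : con H A U (v1 k) = ip H A (sl U k) := rfl

lemma cd_v1 (δ : Derivation ℝ S S) (ω : Matrix (Fin n) (Fin n) S) (T : Ten n S 1) (a : Fin n) :
    cd δ ω T (v1 a) = δ (T (v1 a)) - ∑ m, ω a m * T (v1 m) := by rw [cd_apply, act_v1]

lemma cd_con {δ : Derivation ℝ S S} {ω H : Matrix (Fin n) (Fin n) S} (h : Compat δ ω H)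
    (A : Ten n S p) (U : Ten n S (p + 1)) :
    cd δ ω (con H A U) = con H (cd δ ω A) U + con H A (cd δ ω U) := by
  refine ext1 fun k => ?_
  simp only [cd_v1, con_v1, Pi.add_apply, D_ip h, sl_cd, ip_subR, ip_sumR, ip_smulR]
  ring

lemma ip_v1 (H : Matrix (Fin n) (Fin n) S) (A B : Ten n S 1) :
    ip H A B = ∑ a, ∑ b, H a b * (A (v1 a) * B (v1 b)) := by
  simp only [ip_cons H (p := 0), ip_zero0, sl_apply]

lemma ip_v2 (H : Matrix (Fin n) (Fin n) S) (A B : Ten n S 2) :
    ip H A B = ∑ a, ∑ b, H a b * ∑ c, ∑ d, H c d * (A (v2 a c) * B (v2 b d)) := by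
  simp only [ip_cons H (p := 1), ip_v1, sl_apply]

namespace Co

variable (C : Co n S)

/-- `|T|²` -/
noncomputable def nsq (T : Ten n S p) : S := ip C.gi T T

/-- Laplacian of a function -/
noncomputable def lap0 (f : S) : S := C.lapT (fnT f) Fin.elim0

/-- `⟨∇f, ∇h⟩` -/
noncomputable def gam (f h : S) : S := ip C.gi (C.dT f) (C.dT h)

@[simp] lemma dT_v1 (f : S) (k : Fin n) : C.dT f (v1 k) = C.d k f := rfl

lemma lap0_eq (f : S) : C.lap0 f = ∑ a, ∑ b, C.gi a b * C.hessT f (v2 a b) := by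
  rw [lap0, lapT, cov_fnT]; rfl

lemma lapT_fnT (f : S) : C.lapT (fnT f) = fnT (C.lap0 f) := ext0 rfl

lemma hess_symm (f : S) (a b : Fin n) : C.hessT f (v2 a b) = C.hessT f (v2 b a) := by
  have := C.ricci_id0 (fnT f) a b Fin.elim0
  rw [act_zero0, cov_fnT] at this
  exact sub_eq_zero.1 (this.trans neg_zero)

lemma dT_ip (A B : Ten n S p) :
    C.dT (ip C.gi A B) = con C.gi B (C.cov A) + con C.gi A (C.cov B) := by
  refine ext1 fun k => ?_
  rw [dT_v1, D_ip (C.compat k), Pi.add_apply, con_v1, con_v1, ip_comm _ B C.gi_symm]; rfl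

lemma tr_cov_con (A : Ten n S p) (U : Ten n S (p + 1)) :
    ∑ a, ∑ b, C.gi a b * C.cov (con C.gi A U) (v2 a b)
      = ip C.gi (C.cov A) U + ip C.gi A (C.divT U) := by
  have : ∀ a b, C.cov (con C.gi A U) (v2 a b)
      = ip C.gi (sl (C.cov A) a) (sl U b) + ip C.gi A (sl (sl (C.cov U) a) b) := by
    intro a b
    rw [cov_cons, cd_con (C.compat a)]; rfl
  simp only [this, mul_add, sum_add_distrib, ← ip_cons, divT, tr_eq, ip_sumR, ip_smulR]

/-- divergence of a contraction -/
lemma div_con (A : Ten n S p) (U : Ten n S (p + 1)) :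
    C.divT (con C.gi A U) Fin.elim0 = ip C.gi (C.cov A) U + ip C.gi A (C.divT U) :=
  C.tr_cov_con A U

theorem lap0_ip (A B : Ten n S p) : C.lap0 (ip C.gi A B) = ip C.gi (C.lapT A) B
    + 2 * ip C.gi (C.cov A) (C.cov B) + ip C.gi A (C.lapT B) := by
  rw [lap0_eq, hessT, dT_ip, cov_add]
  simp only [Pi.add_apply, mul_add, sum_add_distrib, tr_cov_con]
  rw [ip_comm (C.cov B) _ C.gi_symm, ip_comm (C.lapT A) _ C.gi_symm]
  simp only [divT, lapT]; ring

theorem lap0_nsq (T : Ten n S p) :
    C.lap0 (C.nsq T) = 2 * ip C.gi (C.lapT T) T + 2 * C.nsq (C.cov T) := by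
  rw [nsq, lap0_ip, ip_comm T _ C.gi_symm, nsq]; ring


/-- a linear map commuting with the covariant derivatives commutes with the Laplacian -/
lemma lapT_comm {L : Ten n S p → Ten n S q} (hL : IsLinearMap S L)
    (h : ∀ k T, cd (C.d k) (C.Gm k) (L T) = L (cd (C.d k) (C.Gm k) T)) (T : Ten n S p) :
    C.lapT (L T) = L (C.lapT T) := by
  have e : ∀ {r : ℕ} (T : Ten n S r), C.lapT T = ∑ a, ∑ b, C.gi a b •
      (cd (C.d a) (C.Gm a) (cd (C.d b) (C.Gm b) T)
        - ∑ m, C.Gam m a b • cd (C.d m) (C.Gm m) T) := by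
    intro r T
    funext x
    simp only [lapT, tr, cov_cov, Finset.sum_apply, Pi.smul_apply, Pi.sub_apply, smul_eq_mul]
  rw [e, e]
  have := fun x => (hL.mk'_apply x).symm
  simp only [h]
  simp only [this, map_sum, map_smul, map_sub]

end Co

lemma isLin_tr (H : Matrix (Fin n) (Fin n) S) : IsLinearMap S (tr (p := p) H) :=
  ⟨fun A B => by funext x; simp only [tr, Pi.add_apply, mul_add, sum_add_distrib],
    fun c A => by
      funext x
      simp only [tr, Pi.smul_apply, smul_eq_mul, mul_sum]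
      exact sum_congr rfl fun _ _ => sum_congr rfl fun _ _ => by ring⟩


/-- a Ricci flow over a differential ring -/
structure Rf (n : ℕ) (S : Type*) [CommRing S] [Algebra ℝ S] extends Co n S where
  dt : Derivation ℝ S S
  dt_comm : ∀ k f, dt (d k f) = d k (dt f)
  rf : ∀ i j, dt (g i j) = -2 * toCo.ricc i j

namespace Rf

variable (F : Rf n S)

/-- the connection matrix in the time direction -/
noncomputable def wt : Matrix (Fin n) (Fin n) S := mat (-F.ricT) * F.gi

/-- Uhlenbeck's time derivative -/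
noncomputable def DtT (T : Ten n S p) : Ten n S p := cd F.dt F.wt T

/-- heat operator on tensors -/
noncomputable def boxT (T : Ten n S p) : Ten n S p := F.DtT T - F.lapT T

lemma wt_g (a b : Fin n) : ∑ m, F.wt a m * F.g m b = -F.ricc a b := by
  have : (F.wt * F.g) a b = -F.ricc a b := by
    rw [wt, Matrix.mul_assoc, F.gi_g, Matrix.mul_one]; rfl
  rw [← this, Matrix.mul_apply]

lemma Dt_g : cd F.dt F.wt (matT F.g) = 0 := by
  refine ext2 fun a b => ?_
  have := F.wt_g b a
  simp only [cd_apply, act_v2, matT_v2, Pi.zero_apply, wt_g, F.rf, F.g_symm a, this,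
    F.ricc_symm b a]
  ring

lemma compat_t : Compat F.dt F.wt F.gi := F.compat_of F.Dt_g

lemma wt_apply (k m : Fin n) : F.wt k m = -(mat F.ricT * F.gi) k m := by
  rw [wt, mat_neg, Matrix.neg_mul, Matrix.neg_apply]

/-- the mixed curvature of the space-time connection -/
lemma curv_t (k : Fin n) : dM F.dt (F.Gm k) - dM (F.d k) F.wt + (F.Gm k * F.wt - F.wt * F.Gm k)
    = -(mat (sl F.Om k) * F.gi) := by
  set W : Fin n → Matrix (Fin n) (Fin n) S := fun k =>
    dM F.dt (F.Gm k) - dM (F.d k) F.wt + (F.Gm k * F.wt - F.wt * F.Gm k) with hW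
  have h1 : ∀ k, W k = dM F.dt (F.Gm k) + mat (sl (F.cov F.ricT) k) * F.gi := by
    intro k
    have := (F.compat k).raise (-F.ricT)
    rw [cd_neg, mat_neg (cd _ _ _), Matrix.neg_mul] at this
    rw [F.sl_cov, ← neg_neg (mat (cd (F.d k) (F.Gm k) F.ricT) * F.gi), ← this]
    simp only [hW, wt]; abel
  have h2 : ∀ k l m, (W k * F.g) l m + (W k * F.g) m l = 0 := by
    intro k l m
    have := cd_comm F.dt F.wt (matT F.g) (F.d k) (F.Gm k) (v2 l m)
    rw [F.cd_g, F.Dt_g, cd_zero, cd_zero, F.dt_comm, act_v2] at this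
    simp only [Pi.zero_apply, matT_v2, F.g_symm l] at this
    simp only [Matrix.mul_apply, hW]
    linear_combination this
  have h3 : ∀ k l m, (W k * F.g) l m - (W l * F.g) k m
      = F.cov F.ricT (v3 k l m) - F.cov F.ricT (v3 l k m) := by
    intro k l m
    have e : (dM F.dt (F.Gm k) * F.g) l m = (dM F.dt (F.Gm l) * F.g) k m := by
      simp only [Matrix.mul_apply, dM, Co.Gm, F.Gam_symm _ k l]
    simp only [h1, Matrix.add_mul, Matrix.mul_assoc, F.gi_g, Matrix.mul_one, Matrix.add_apply, e,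
      mat, sl_apply]
    ring
  have h4 : W k * F.g = -mat (sl F.Om k) := by
    ext l m
    apply eq_of_two
    have : (-mat (sl F.Om k)) l m = -F.Om (v3 k l m) := rfl
    rw [this, F.Om_eq]
    linear_combination h3 k l m + h3 m k l - h3 l m k + h2 k l m - h2 m k l + h2 l m k
      - 2 * h2 l m k + h2 m k l + h2 l m k - F.cov_ric_symm k m l + F.cov_ric_symm m k l
      - F.cov_ric_symm l k m + h2 l k m - h2 m l k
  have : W k = W k * F.g * F.gi := by rw [Matrix.mul_assoc, F.g_gi, Matrix.mul_one]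
  change W k = _
  rw [this, h4, Matrix.neg_mul]

theorem Dt_cov (T : Ten n S p) : F.DtT (F.cov T) = F.cov (F.DtT T) + rho F.gi F.ricT (F.cov T)
    + the F.gi F.Om T := by
  refine ten_ext fun k x => ?_
  have h := cd_comm F.dt F.wt T (F.d k) (F.Gm k) x
  rw [curv_t, act_negL, F.dt_comm] at h
  rw [DtT, cd_cons, F.sl_cov]
  simp only [Pi.add_apply, rho_cons, the_cons, wt_apply, neg_mul, sum_neg_distrib, DtT,
    Pi.neg_apply] at h ⊢
  rw [F.cov_cons (cd F.dt F.wt T)]
  linear_combination h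

lemma DtT_add (A B : Ten n S p) : F.DtT (A + B) = F.DtT A + F.DtT B := cd_add _ _ A B

/-- commutator of the heat operator and `∇` -/
theorem box_cov (T : Ten n S p) :
    F.boxT (F.cov T) = F.cov (F.boxT T) - (2 : S) • bet F.gi F.rmT (F.cov T) := by
  rw [boxT, boxT, Dt_cov, F.lap_cov, F.cov_sub]; abel

lemma Dt_cov2 (T : Ten n S p) (k l : Fin n) (x : Fin p → Fin n) :
    F.DtT (F.cov (F.cov T)) (Fin.cons k (Fin.cons l x))
      = F.cov (F.cov (F.DtT T)) (Fin.cons k (Fin.cons l x))
        + ∑ m, (mat (sl (F.cov F.ricT) k) * F.gi) l m * F.cov T (Fin.cons m x)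
        + ∑ m, (mat F.ricT * F.gi) l m * F.cov (F.cov T) (Fin.cons k (Fin.cons m x))
        + act (mat (sl (sl (F.cov F.Om) k) l) * F.gi) T x
        + act (mat (sl F.Om l) * F.gi) (sl (F.cov T) k) x
        + ∑ m, (mat F.ricT * F.gi) k m * F.cov (F.cov T) (Fin.cons m (Fin.cons l x))
        + ∑ m, (mat (sl F.Om k) * F.gi) l m * F.cov T (Fin.cons m x)
        + act (mat (sl F.Om k) * F.gi) (sl (F.cov T) l) x := by
  rw [Dt_cov, Dt_cov, F.cov_add, F.cov_add]
  simp only [Pi.add_apply]
  rw [F.cov_cons (rho _ _ _), F.cov_cons (the _ _ _), cd_rho (F.compat k), cd_the (F.compat k),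
    the_cons, act_cons]
  simp only [Pi.add_apply, rho_cons, the_cons, ← add_assoc]
  rfl

lemma Om_sub (k l m : Fin n) : (mat (sl (F.cov F.ricT) k) * F.gi) l m
    - (mat (sl (F.cov F.ricT) l) * F.gi) k m + (mat (sl F.Om k) * F.gi) l m
    - (mat (sl F.Om l) * F.gi) k m = 0 := by
  simp only [Matrix.mul_apply, mat, sl_apply, F.Om_eq, ← sum_sub_distrib, ← sum_add_distrib]
  refine sum_eq_zero fun c _ => ?_
  rw [F.cov_ric_symm k c l, F.cov_ric_symm l c k, F.cov_ric_symm c l k]; ring

/-- time derivative of the curvature tensor -/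
theorem Dt_rm : F.DtT F.rmT = F.Zr := by
  refine ten_ext2 fun k l => congrFun (?_ : sl (sl (F.DtT F.rmT) k) l = sl (sl F.Zr k) l)
  refine F.raise_inj fun T x => ?_
  have h := congrFun (congrArg F.DtT (F.ricci_id T)) (Fin.cons k (Fin.cons l x))
  rw [DtT_add, DtT, DtT, DtT, cd_sw, cd_gamH F.compat_t] at h
  simp only [Pi.add_apply, sw_cons, gamH_cons] at h
  have h1 := F.Dt_cov2 T k l x
  have h2 := F.Dt_cov2 T l k x
  have h3 := congrFun (F.ricci_id (F.DtT T)) (Fin.cons k (Fin.cons l x))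
  have h4 : ∀ a b, F.cov (F.cov T) (Fin.cons a (Fin.cons b x))
      = F.cov (F.cov T) (Fin.cons b (Fin.cons a x))
        + act (mat (sl (sl F.rmT a) b) * F.gi) T x :=
    fun a b => congrFun (F.ricci_id T) (Fin.cons a (Fin.cons b x))
  simp only [Pi.add_apply, sw_cons, gamH_cons, DtT] at h1 h2 h3
  have h5 : ∑ m, ((mat (sl (F.cov F.ricT) k) * F.gi) l m
      - (mat (sl (F.cov F.ricT) l) * F.gi) k m + (mat (sl F.Om k) * F.gi) l m
      - (mat (sl F.Om l) * F.gi) k m) * F.cov T (Fin.cons m x) = 0 := by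
    simp only [Om_sub, zero_mul, sum_const_zero]
  have h6 : ∀ k l, sl (sl (rho F.gi F.ricT F.rmT) k) l
      = ∑ m, (mat F.ricT * F.gi) k m • sl (sl F.rmT m) l := by
    intro k l; funext y
    simp only [sl_apply, rho_cons, Finset.sum_apply, Pi.smul_apply, smul_eq_mul]
  have h7 : sl (sl F.Zr k) l = sl (sl (F.cov F.Om) k) l - sl (sl (F.cov F.Om) l) k
      + (sl (sl (rho F.gi F.ricT F.rmT) k) l - sl (sl (rho F.gi F.ricT F.rmT) l) k) := rfl
  have h8 : ∀ k l, ∑ m, (mat F.ricT * F.gi) k m * F.cov (F.cov T) (Fin.cons m (Fin.cons l x))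
      = ∑ m, (mat F.ricT * F.gi) k m * F.cov (F.cov T) (Fin.cons l (Fin.cons m x))
        + ∑ m, (mat F.ricT * F.gi) k m * act (mat (sl (sl F.rmT m) l) * F.gi) T x := by
    intro k l
    rw [← sum_add_distrib]
    exact sum_congr rfl fun m _ => by rw [h4 m l]; ring
  rw [h8] at h1 h2
  simp only [sub_mul, add_mul, sum_add_distrib, sum_sub_distrib] at h5
  rw [h7, h6, h6]
  simp only [mat_add, mat_sub, mat_sum, mat_smul, Matrix.add_mul, Matrix.sub_mul, Matrix.sum_mul,
    Matrix.smul_mul, act_addL, act_subL, act_sumL, act_smulL, Pi.add_apply, Pi.sub_apply,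
    Finset.sum_apply, Pi.smul_apply, smul_eq_mul, DtT]
  linear_combination h1 - h2 - h + h3 + h5

/-- evolution of the curvature tensor -/
theorem box_rm :
    F.boxT F.rmT = sw (p := 2) (bet F.gi F.rmT F.rmT) - bet F.gi F.rmT F.rmT := by
  rw [boxT, Dt_rm, F.lap_rm]; abel

lemma dt_ip (A B : Ten n S p) :
    F.dt (ip F.gi A B) = ip F.gi (F.DtT A) B + ip F.gi A (F.DtT B) := D_ip F.compat_t A B

theorem box_ip (A B : Ten n S p) : F.dt (ip F.gi A B) - F.lap0 (ip F.gi A B)
    = ip F.gi (F.boxT A) B + ip F.gi A (F.boxT B) - 2 * ip F.gi (F.cov A) (F.cov B) := by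
  rw [dt_ip, F.lap0_ip, boxT, boxT, ip_subL, ip_subR]; ring

theorem box_nsq (T : Ten n S p) : F.dt (F.nsq T) - F.lap0 (F.nsq T)
    = 2 * ip F.gi (F.boxT T) T - 2 * F.nsq (F.cov T) := by
  rw [Co.nsq, box_ip, ip_comm T _ F.gi_symm, Co.nsq]; ring

lemma DtT_fnT (f : S) : F.DtT (fnT f) = fnT (F.dt f) := ext0 (cd_zero0 _ _ _ _)

lemma boxT_fnT (f : S) : F.boxT (fnT f) = fnT (F.dt f - F.lap0 f) := by
  rw [boxT, DtT_fnT, F.lapT_fnT]; rfl

lemma box_dT (f : S) : F.boxT (F.dT f) = F.dT (F.dt f - F.lap0 f) := by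
  rw [← F.cov_fnT, box_cov, boxT_fnT, F.cov_fnT]
  refine ext1 fun k => ?_
  simp only [Pi.sub_apply, Pi.smul_apply, bet_cons, act_zero0, mul_zero, sum_const_zero, smul_zero,
    sub_zero]

/-- Bochner formula along the flow -/
theorem box_gam (f h : S) : F.dt (F.gam f h) - F.lap0 (F.gam f h)
    = F.gam (F.dt f - F.lap0 f) h + F.gam f (F.dt h - F.lap0 h)
      - 2 * ip F.gi (F.hessT f) (F.hessT h) := by
  rw [Co.gam, box_ip, box_dT, box_dT]; rfl


end Rf

end Crest.Agent.N207.A
end

-- ▼ part N207/A/Tf5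

/-!
# Row 207, block A (helper33): tensors over a differential ring, part 5

Evolution of `Ric` and `R`, the commutator `[∂ₜ, Δ]` on functions.
-/

set_option autoImplicit false
set_option linter.unusedSectionVars false

namespace Crest.Agent.N207.A

open Finset Function

variable {n p q : ℕ} {S : Type*} [CommRing S] [Algebra ℝ S]

lemma sum4_comm (X : Fin n → Fin n → Fin n → Fin n → S) :
    ∑ k, ∑ l, ∑ i, ∑ j, X k l i j = ∑ i, ∑ j, ∑ k, ∑ l, X k l i j := by
  rw [sum_congr rfl fun k _ => sum_comm, sum_comm]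
  refine sum_congr rfl fun i _ => ?_
  rw [sum_congr rfl fun k _ => sum_comm, sum_comm]

namespace Co

variable (C : Co n S)

/-- both indices raised -/
noncomputable def up (B : Ten n S 2) : Matrix (Fin n) (Fin n) S := C.gi * mat B * C.gi

lemma up_apply (B : Ten n S 2) (b e : Fin n) :
    C.up B b e = ∑ a, ∑ m, C.gi b a * B (v2 a m) * C.gi m e := by
  simp only [up, Matrix.mul_apply, mat, sum_mul]
  rw [sum_comm]

lemma up_symm {B : Ten n S 2} (hB : ∀ a b, B (v2 a b) = B (v2 b a)) (b e : Fin n) :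
    C.up B b e = C.up B e b := by
  rw [up_apply, up_apply, sum_comm]
  exact sum_congr rfl fun a _ => sum_congr rfl fun m _ => by
    rw [hB m a, C.gi_symm b m, C.gi_symm a e]; ring

lemma ip_up (A B : Ten n S 2) : ip C.gi A B = ∑ b, ∑ e, C.up A b e * B (v2 b e) := by
  simp only [ip_v2, up_apply, mul_sum, sum_mul]
  rw [sum_congr rfl fun a _ => sum_congr rfl fun b _ => sum_comm, sum_comm]
  refine sum_congr rfl fun b _ => ?_
  rw [sum_comm]
  exact sum_congr rfl fun e _ => sum_congr rfl fun a _ => sum_congr rfl fun c _ => by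
    rw [C.gi_symm a b]; ring

lemma bet_two (R : Ten n S 4) (B : Ten n S 2) (j c : Fin n) :
    bet C.gi R B (v2 j c) = ∑ b, ∑ e, C.up B b e * R (v4 b j c e) := by
  simp only [bet_cons, act_v1, up_apply, Matrix.mul_apply, mat, sl_apply, mul_sum, sum_mul]
  rw [sum_comm]
  refine sum_congr rfl fun b _ => ?_
  rw [sum_congr rfl fun a _ => sum_comm, sum_comm]
  exact sum_congr rfl fun e _ => sum_congr rfl fun a _ => sum_congr rfl fun m _ => by
    rw [C.gi_symm a b, C.gi_symm e m]; ring

lemma bet_ric_symm (j c : Fin n) :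
    bet C.gi C.rmT C.ricT (v2 j c) = bet C.gi C.rmT C.ricT (v2 c j) := by
  rw [bet_two, bet_two, sum_comm]
  refine sum_congr rfl fun e _ => sum_congr rfl fun b _ => ?_
  rw [C.up_symm C.ricc_symm b e, rmT_v4, rmT_v4, C.rl_pair b j c e, C.rl_anti12 c e b j,
    C.rl_anti34 e c b j, neg_neg]

lemma cov2_ric_symm (i m k j : Fin n) :
    C.cov (C.cov C.ricT) (v4 i m k j) = C.cov (C.cov C.ricT) (v4 i m j k) := by
  have h : C.cov C.ricT = prm eC3 (prm eR3 (C.cov C.ricT)) := ext3 fun m k j => by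
    rw [prm_eC3, prm_eR3]; exact C.cov_ric_symm m k j
  have := congrFun (congrArg (cd (C.d i) (C.Gm i)) h) (v3 m k j)
  rwa [cd_prm, cd_prm, prm_eC3, prm_eR3] at this

lemma cov_Om (i k l m : Fin n) : C.cov C.Om (v4 i k l m)
    = C.cov (C.cov C.ricT) (v4 i l m k) - C.cov (C.cov C.ricT) (v4 i m l k) := by
  have h : C.Om = prm eC3 (C.cov C.ricT) - prm eR3 (C.cov C.ricT) := ext3 fun k l m => by
    rw [Pi.sub_apply, prm_eC3, prm_eR3]; exact C.Om_eq k l m
  have := congrFun (congrArg (cd (C.d i) (C.Gm i)) h) (v3 k l m)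
  rwa [cd_sub, cd_prm, cd_prm, Pi.sub_apply, prm_eC3, prm_eR3] at this

lemma cov_div_ric (j c : Fin n) : 2 * C.cov (C.divT C.ricT) (v2 j c) = C.hessT C.scal (v2 j c) := by
  have h : C.divT C.ricT + C.divT C.ricT = C.dT C.scal := ext1 fun m => by
    rw [Pi.add_apply, ← two_mul]; exact C.two_div_ric m
  rw [hessT, ← h, cov_add, Pi.add_apply, two_mul]

lemma cov_div_ric_symm (j c : Fin n) :
    C.cov (C.divT C.ricT) (v2 j c) = C.cov (C.divT C.ricT) (v2 c j) :=
  eq_of_two (by rw [cov_div_ric, cov_div_ric, hess_symm])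

lemma rho_ric_symm (j c : Fin n) :
    rho C.gi C.ricT C.ricT (v2 j c) = rho C.gi C.ricT C.ricT (v2 c j) := by
  simp only [rho_cons, Matrix.mul_apply, mat, ricT_v2, sum_mul]
  rw [sum_comm]
  exact sum_congr rfl fun e _ => sum_congr rfl fun m _ => by
    rw [C.ricc_symm m c, C.ricc_symm j e, C.gi_symm e m]; ring

/-- the Ricci contraction of `Zr` -/
lemma tr_Zr (j c : Fin n) : ∑ l, ∑ i, C.gi l i * C.Zr (v4 l j i c)
    = C.lapT C.ricT (v2 j c) - 2 * bet C.gi C.rmT C.ricT (v2 j c) := by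
  have h1 : ∑ l, ∑ i, C.gi l i * C.cov (C.cov C.ricT) (v4 l i c j) = C.lapT C.ricT (v2 j c) :=
    sum_congr rfl fun l _ => sum_congr rfl fun i _ => by rw [C.cov2_ric_symm l i c j]
  have h2 : ∑ l, ∑ i, C.gi l i * C.cov (C.cov C.ricT) (v4 l c i j)
      = C.cov (C.divT C.ricT) (v2 c j) + (rho C.gi C.ricT C.ricT (v2 c j)
        + bet C.gi C.rmT C.ricT (v2 c j)) := by
    rw [← C.tr_act_rm, divT, C.cov_tr, ← sum_add_distrib]
    refine sum_congr rfl fun l _ => ?_
    rw [← sum_add_distrib]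
    refine sum_congr rfl fun i _ => ?_
    rw [← mul_add]
    exact congrArg _ (congrFun (C.ricci_id C.ricT) (v4 l c i j))
  have h3 : ∑ l, ∑ i, C.gi l i * C.cov C.Om (v4 j l i c) = -C.cov (C.divT C.ricT) (v2 j c) := by
    have h : tr C.gi C.Om = -C.divT C.ricT := ext1 C.tr_Om
    rw [← C.cov_tr, h, cov_neg]; rfl
  have h4 : ∑ l, ∑ i, C.gi l i * rho C.gi C.ricT C.rmT (v4 l j i c)
      = -bet C.gi C.rmT C.ricT (v2 j c) := by
    simp only [bet_two, rho_cons, up_apply, Matrix.mul_apply, mat, ricT_v2, rmT_v4, mul_sum,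
      sum_mul, ← sum_neg_distrib]
    rw [sum4_comm]
    refine sum_congr rfl fun m _ => ?_
    rw [sum_comm, sum_congr rfl fun l _ => sum_comm, sum_comm]
    refine sum_congr rfl fun i _ => ?_
    rw [sum_comm]
    exact sum_congr rfl fun e _ => sum_congr rfl fun l _ => by
      rw [C.rl_anti34 m j i c, C.gi_symm e m, C.ricc_symm l e]; ring
  have h5 : ∑ l, ∑ i, C.gi l i * rho C.gi C.ricT C.rmT (v4 j l i c)
      = -rho C.gi C.ricT C.ricT (v2 j c) := by
    simp only [rho_cons, ricT_v2, rmT_v4, C.ricc_eq _ c, mul_sum, ← sum_neg_distrib]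
    rw [sum_congr rfl fun l _ => sum_comm, sum_comm]
    exact sum_congr rfl fun m _ => sum_congr rfl fun l _ => sum_congr rfl fun i _ => by
      rw [C.rl_anti12 m l i c]; ring
  have h6 : ∀ l i, C.Zr (v4 l j i c) = C.cov (C.cov C.ricT) (v4 l i c j)
      - C.cov (C.cov C.ricT) (v4 l c i j) - C.cov C.Om (v4 j l i c)
      + (rho C.gi C.ricT C.rmT (v4 l j i c) - rho C.gi C.ricT C.rmT (v4 j l i c)) := by
    intro l i; rw [← cov_Om]; rfl
  simp only [h6, mul_add, mul_sub, sum_add_distrib, sum_sub_distrib, h1, h2, h3, h4, h5]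
  rw [C.cov_div_ric_symm c j, C.rho_ric_symm c j, C.bet_ric_symm c j]; ring

lemma tr_bet_ric : ∑ j, ∑ c, C.gi j c * bet C.gi C.rmT C.ricT (v2 j c) = -C.nsq C.ricT := by
  simp only [bet_two, nsq, ip_up, ricT_v2, rmT_v4, ricc_eq, mul_sum, ← sum_neg_distrib]
  rw [sum4_comm]
  exact sum_congr rfl fun b _ => sum_congr rfl fun e _ => sum_congr rfl fun j _ =>
    sum_congr rfl fun c _ => by rw [C.rl_anti12 b j c e]; ring

end Co

namespace Rf

variable (F : Rf n S)

lemma boxT_comm {L : Ten n S p → Ten n S q} (hL : IsLinearMap S L)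
    (h : ∀ δ ω, Compat δ ω F.gi → ∀ T, cd δ ω (L T) = L (cd δ ω T)) (T : Ten n S p) :
    F.boxT (L T) = L (F.boxT T) := by
  rw [boxT, boxT, F.lapT_comm hL fun k => h _ _ (F.compat k), hL.map_sub, DtT, DtT,
    h _ _ F.compat_t]

/-- evolution of the Ricci tensor -/
theorem box_ric : F.boxT F.ricT = -((2 : S) • bet F.gi F.rmT F.ricT) := by
  refine ext2 fun j c => ?_
  have h := F.cd_ric F.compat_t j c
  have h2 := F.Dt_rm
  rw [DtT] at h2
  rw [h2, F.tr_Zr] at h
  simp only [boxT, DtT, Pi.sub_apply, Pi.neg_apply, Pi.smul_apply, smul_eq_mul, h]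
  ring

/-- evolution of the scalar curvature -/
theorem box_scal : F.dt F.scal - F.lap0 F.scal = 2 * F.nsq F.ricT := by
  have h := F.boxT_comm (p := 2) (q := 0) (isLin_tr F.gi) (fun _ _ h => cd_tr h) F.ricT
  rw [← F.fnT_scal, boxT_fnT, box_ric] at h
  have h2 := congrFun h Fin.elim0
  simp only [fnT, tr, Pi.neg_apply, Pi.smul_apply, smul_eq_mul] at h2
  have h3 := F.tr_bet_ric
  rw [h2]
  simp only [mul_neg, sum_neg_distrib, mul_left_comm _ (2 : S), ← mul_sum]
  rw [h3]; ring

lemma Dt_hess (f : S) (k l : Fin n) : F.DtT (F.hessT f) (v2 k l) = F.hessT (F.dt f) (v2 k l)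
    + ∑ m, ((mat (sl (F.cov F.ricT) k) * F.gi) l m + (mat (sl F.Om k) * F.gi) l m) * F.d m f
    + ∑ m, (mat F.ricT * F.gi) l m * F.hessT f (v2 k m)
    + ∑ m, (mat F.ricT * F.gi) k m * F.hessT f (v2 m l) := by
  have := F.Dt_cov2 (fnT f) k l Fin.elim0
  simp only [act_zero0, add_zero, DtT_fnT, F.cov_fnT, Co.dT_v1] at this
  simp only [Co.hessT, this, add_mul, sum_add_distrib]; ring

/-- `[∂ₜ, Δ] f = 2 ⟨Ric, Hess f⟩` -/
theorem dt_lap0 (f : S) :
    F.dt (F.lap0 f) = F.lap0 (F.dt f) + 2 * ip F.gi F.ricT (F.hessT f) := by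
  have h : F.dt (F.lap0 f) = ∑ k, ∑ l, F.gi k l * F.DtT (F.hessT f) (v2 k l) := by
    have := congrFun (cd_tr F.compat_t (F.hessT f)) Fin.elim0
    rw [cd_zero0] at this
    rw [F.lap0_eq]; exact this
  have h1 : ∑ k, ∑ l, F.gi k l * ∑ m, ((mat (sl (F.cov F.ricT) k) * F.gi) l m
      + (mat (sl F.Om k) * F.gi) l m) * F.d m f = 0 := by
    have e : ∀ c, ∑ k, ∑ l, F.gi k l * (F.cov F.ricT (v3 k l c) + F.Om (v3 k l c)) = 0 := by
      intro c
      have := F.tr_Om c
      simp only [tr, Co.divT] at this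
      simp only [mul_add, sum_add_distrib, this]; ring
    have e2 : ∀ k l, F.gi k l * ∑ m, ((mat (sl (F.cov F.ricT) k) * F.gi) l m
        + (mat (sl F.Om k) * F.gi) l m) * F.d m f = ∑ m, ∑ c,
          F.gi k l * (F.cov F.ricT (v3 k l c) + F.Om (v3 k l c)) * (F.gi c m * F.d m f) := by
      intro k l
      simp only [Matrix.mul_apply, mat, sl_apply, ← sum_add_distrib, mul_sum, sum_mul]
      exact sum_congr rfl fun m _ => sum_congr rfl fun c _ => by ring
    simp only [e2]
    rw [sum4_comm]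
    simp only [← sum_mul, e, zero_mul, sum_const_zero]
  have h2 : ∑ k, ∑ l, F.gi k l * ∑ m, (mat F.ricT * F.gi) k m * F.hessT f (v2 m l)
      = ip F.gi F.ricT (F.hessT f) := by
    simp only [F.ip_up, Co.up_apply, Matrix.mul_apply, mat, mul_sum, sum_mul]
    rw [sum_congr rfl fun k _ => sum_comm, sum4_comm]
    rw [sum_congr rfl fun l _ => sum_congr rfl fun c _ => sum_comm,
      sum_congr rfl fun l _ => sum_comm, sum_comm]
    refine sum_congr rfl fun m _ => sum_congr rfl fun l _ => sum_congr rfl fun c _ =>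
      sum_congr rfl fun k _ => ?_
    simp only [Co.ricT_v2]
    rw [F.ricc_symm k c, F.gi_symm c m]; ring
  have h3 : ∑ k, ∑ l, F.gi k l * ∑ m, (mat F.ricT * F.gi) l m * F.hessT f (v2 k m)
      = ip F.gi F.ricT (F.hessT f) := by
    rw [← h2, sum_comm]
    refine sum_congr rfl fun l _ => sum_congr rfl fun k _ => ?_
    rw [F.gi_symm k l]
    exact congrArg _ (sum_congr rfl fun m _ => by rw [F.hess_symm f k m])
  rw [h, F.lap0_eq]
  simp only [Dt_hess, mul_add, sum_add_distrib, h1, h2, h3]; ring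

end Rf

end Crest.Agent.N207.A
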