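import Crest.Agent.N207.A.Tf5
import Crest.Agent.N207.AI.GlobT
import Crest.Agent.N207.A.Co3

-- ▼ part N207/A/Tg1
section

/-!
# Row 207, block A (helper33): the differential ring of smooth functions on `J × U`

`SR J U`: restrictions of functions smooth on `J ×ˢ U`; `Rep φ f`: the ring element `φ` is the
restriction of `f`.  `J` is any set of times with `Ok J U` (open sets, intervals).
-/

set_option autoImplicit false
set_option linter.unusedSectionVars false

open scoped ContDiff Topology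
open Set Crest.GeometryTopology.CoordMetric

noncomputable section

namespace Crest.Agent.N207.A

section ring

variable {E : Type*} [NormedAddCommGroup E] [NormedSpace ℝ E]

/-- restrictions of smooth functions -/
def SW (W : Set E) : Subalgebra ℝ (W → ℝ) where
  carrier := {φ | ∃ f : E → ℝ, ContDiffOn ℝ ∞ f W ∧ ∀ p : W, φ p = f p}
  mul_mem' := by
    rintro φ ψ ⟨f, hf, h⟩ ⟨g, hg, h'⟩
    exact ⟨fun x => f x * g x, hf.mul hg, fun p => by rw [Pi.mul_apply, h, h']⟩
  add_mem' := by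
    rintro φ ψ ⟨f, hf, h⟩ ⟨g, hg, h'⟩
    exact ⟨fun x => f x + g x, hf.add hg, fun p => by rw [Pi.add_apply, h, h']⟩
  algebraMap_mem' c := ⟨fun _ => c, contDiffOn_const, fun _ => rfl⟩

variable {W : Set E}

lemma SW.sm {φ : SW W} {f : E → ℝ} (h : ∀ p : W, φ.1 p = f p) : ContDiffOn ℝ ∞ f W := by
  obtain ⟨g, hg, h'⟩ := φ.2
  exact hg.congr fun x hx => (h ⟨x, hx⟩).symm.trans (h' ⟨x, hx⟩)

/-- a representative -/
def SW.rep (φ : SW W) : E → ℝ := φ.2.choose

lemma SW.rep_eq (φ : SW W) (p : W) : φ.1 p = SW.rep φ p := φ.2.choose_spec.2 p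

/-- directional derivative -/
def SW.D0 (hW : UniqueDiffOn ℝ W) (v : E) (φ : SW W) : SW W :=
  ⟨fun p => fderivWithin ℝ (SW.rep φ) W p v, fun x => fderivWithin ℝ (SW.rep φ) W x v,
    ((SW.sm (SW.rep_eq φ)).fderivWithin (m := ∞) hW (by simp)).clm_apply contDiffOn_const,
    fun _ => rfl⟩

lemma SW.D0_eq (hW : UniqueDiffOn ℝ W) (v : E) {φ : SW W} {f : E → ℝ} (h : ∀ p : W, φ.1 p = f p)
    (p : W) : (SW.D0 hW v φ).1 p = fderivWithin ℝ f W p v := by
  have : EqOn (SW.rep φ) f W := fun x hx => (SW.rep_eq φ ⟨x, hx⟩).symm.trans (h ⟨x, hx⟩)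
  change fderivWithin ℝ (SW.rep φ) W p v = _
  rw [fderivWithin_congr' this p.2]

lemma SW.dAt {φ : SW W} {f : E → ℝ} (h : ∀ p : W, φ.1 p = f p) (p : W) :
    DifferentiableWithinAt ℝ f W p := (SW.sm h p p.2).differentiableWithinAt (by simp)

/-- directional derivative -/
def SW.D (hW : UniqueDiffOn ℝ W) (v : E) : Derivation ℝ (SW W) (SW W) :=
  Derivation.mk'
    { toFun := SW.D0 hW v
      map_add' := fun φ ψ => Subtype.ext <| funext fun p => by
        have h : ∀ p : W, (φ + ψ).1 p = (fun x => SW.rep φ x + SW.rep ψ x) p := fun p => by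
          simp only [← SW.rep_eq]; rfl
        rw [SW.D0_eq hW v (f := fun x => SW.rep φ x + SW.rep ψ x) h, fderivWithin_fun_add (hW p p.2) (SW.dAt (SW.rep_eq φ) p)
          (SW.dAt (SW.rep_eq ψ) p)]
        rfl
      map_smul' := fun c φ => Subtype.ext <| funext fun p => by
        have h : ∀ p : W, (c • φ).1 p = (fun x => c • SW.rep φ x) p := fun p => by
          simp only [← SW.rep_eq]; rfl
        rw [SW.D0_eq hW v (f := fun x => c • SW.rep φ x) h, fderivWithin_fun_const_smul (hW p p.2) (SW.dAt (SW.rep_eq φ) p)]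
        rfl }
    fun φ ψ => Subtype.ext <| funext fun p => by
      have h : ∀ p : W, (φ * ψ).1 p = (fun x => SW.rep φ x * SW.rep ψ x) p := fun p => by
        simp only [← SW.rep_eq]; rfl
      change (SW.D0 hW v (φ * ψ)).1 p = φ.1 p * (SW.D0 hW v ψ).1 p + ψ.1 p * (SW.D0 hW v φ).1 p
      rw [SW.D0_eq hW v (f := fun x => SW.rep φ x * SW.rep ψ x) h, fderivWithin_fun_mul (hW p p.2) (SW.dAt (SW.rep_eq φ) p)
        (SW.dAt (SW.rep_eq ψ) p), SW.rep_eq φ p, SW.rep_eq ψ p]
      rfl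

lemma SW.D_eq (hW : UniqueDiffOn ℝ W) (v : E) {φ : SW W} {f : E → ℝ} (h : ∀ p : W, φ.1 p = f p)
    (p : W) : (SW.D hW v φ).1 p = fderivWithin ℝ f W p v := SW.D0_eq hW v h p

lemma SW.D_comm (hW : UniqueDiffOn ℝ W) (hc : W ⊆ closure (interior W)) (v w : E) (φ : SW W) :
    SW.D hW v (SW.D hW w φ) = SW.D hW w (SW.D hW v φ) := by
  refine Subtype.ext (funext fun p => ?_)
  have hf := SW.sm (SW.rep_eq φ)
  have e : ∀ v w : E, (SW.D hW v (SW.D hW w φ)).1 p
      = fderivWithin ℝ (fderivWithin ℝ (SW.rep φ) W) W p v w := by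
    intro v w
    have hd : DifferentiableWithinAt ℝ (fderivWithin ℝ (SW.rep φ) W) W p :=
      (hf.fderivWithin (m := ∞) hW (by simp) p p.2).differentiableWithinAt (by simp)
    rw [SW.D_eq hW v (f := fun x => fderivWithin ℝ (SW.rep φ) W x w) (fun _ => rfl),
      fderivWithin_clm_apply (hW p p.2) hd (differentiableWithinAt_const _)]
    simp
  rw [e, e]
  exact (hf p p.2).isSymmSndFDerivWithinAt (by simp; exact R247.Bo84.two_le_infty) hW (hc p.2) p.2 v w

/-- evaluation -/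
def SW.ev (p : W) : SW W →+* ℝ := (Pi.evalRingHom (fun _ : W => ℝ) p).comp (SW W).val.toRingHom

@[simp] lemma SW.ev_apply (p : W) (φ : SW W) : SW.ev p φ = φ.1 p := rfl

end ring

variable {n k : ℕ} {J : Set ℝ} {U : Set (En n)}

/-- admissible domains -/
structure Ok (J : Set ℝ) (U : Set (En n)) : Prop where
  ud : UniqueDiffOn ℝ J
  cl : J ⊆ closure (interior J)
  op : IsOpen U

lemma Ok.of_open (hJ : IsOpen J) (hU : IsOpen U) : Ok J U :=
  ⟨hJ.uniqueDiffOn, by rw [hJ.interior_eq]; exact subset_closure, hU⟩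

lemma Ok.icc {a b : ℝ} (hab : a < b) (hU : IsOpen U) : Ok (Icc a b) U :=
  ⟨uniqueDiffOn_Icc hab, by rw [interior_Icc, closure_Ioo hab.ne], hU⟩


lemma Ok.udW (o : Ok J U) : UniqueDiffOn ℝ (J ×ˢ U) := o.ud.prod o.op.uniqueDiffOn

lemma Ok.clW (o : Ok J U) : J ×ˢ U ⊆ closure (interior (J ×ˢ U)) := by
  rw [interior_prod_eq, closure_prod_eq, o.op.interior_eq]
  exact prod_mono o.cl subset_closure

/-- the ring of smooth functions on `J × U` -/
abbrev SR (J : Set ℝ) (U : Set (En n)) : Type := SW (J ×ˢ U)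

/-- evaluation at `(t, y)` -/
def evp {t : ℝ} {y : En n} (ht : t ∈ J) (hy : y ∈ U) : SR J U →+* ℝ := SW.ev ⟨(t, y), ht, hy⟩

/-- `φ` is the restriction of `f` -/
def Rep (φ : SR J U) (f : ℝ → En n → ℝ) : Prop :=
  ∀ ⦃t : ℝ⦄ ⦃y : En n⦄ (ht : t ∈ J) (hy : y ∈ U), evp ht hy φ = f t y

/-- `A` is the restriction of `T` -/
def RepT (A : Ten n (SR J U) k) (T : ℝ → Tn n k) : Prop := ∀ I, Rep (A I) fun t y => T t y I

/-- the restriction of a smooth function -/
def mkS (f : ℝ → En n → ℝ) (hf : St f J U) : SR J U :=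
  ⟨fun p => f p.1.1 p.1.2, fun p => f p.1 p.2, hf, fun _ => rfl⟩

/-- the restriction of a smooth tensor -/
def mkT (T : ℝ → Tn n k) (hT : SmTT T J U) : Ten n (SR J U) k := fun I =>
  mkS (fun t y => T t y I) (hT I)

lemma rep_mkS {f : ℝ → En n → ℝ} (hf : St f J U) : Rep (mkS f hf) f := fun _ _ _ _ => rfl

lemma repT_mkT {T : ℝ → Tn n k} (hT : SmTT T J U) : RepT (mkT T hT) T := fun _ _ _ _ _ => rfl

/-- spatial partial derivatives -/
def Ok.dX (o : Ok J U) (i : Fin n) : Derivation ℝ (SR J U) (SR J U) :=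
  SW.D o.udW (0, EuclideanSpace.single i 1)

/-- time derivative -/
def Ok.dT (o : Ok J U) : Derivation ℝ (SR J U) (SR J U) := SW.D o.udW (1, 0)

namespace Rep

variable {φ ψ : SR J U} {f g : ℝ → En n → ℝ}

lemma eq' (h : Rep φ f) (p : (J ×ˢ U : Set (ℝ × En n))) :
    φ.1 p = (fun q : ℝ × En n => f q.1 q.2) p := h p.2.1 p.2.2

lemma st (h : Rep φ f) : St f J U := SW.sm h.eq'

lemma congr (h : Rep φ f) (e : ∀ t ∈ J, ∀ y ∈ U, g t y = f t y) : Rep φ g :=
  fun t y ht hy => (h ht hy).trans (e t ht y hy).symm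

lemma unique (h : Rep φ f) (h' : Rep φ g) {t : ℝ} {y : En n} (ht : t ∈ J) (hy : y ∈ U) :
    f t y = g t y := (h ht hy).symm.trans (h' ht hy)

lemma ext (h : Rep φ f) (h' : Rep ψ g) (e : ∀ t ∈ J, ∀ y ∈ U, f t y = g t y) : φ = ψ :=
  Subtype.ext <| funext fun p => (h.eq' p).trans ((e _ p.2.1 _ p.2.2).trans (h'.eq' p).symm)

lemma dX (o : Ok J U) (h : Rep φ f) (i : Fin n) :
    Rep (o.dX i φ) fun t y => pderiv i (f t) y := by
  intro t y ht hy
  have h1 := (SW.dAt (f := fun q : ℝ × En n => f q.1 q.2) h.eq' ⟨(t, y), ht, hy⟩).hasFDerivWithinAt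
  have h2 : HasFDerivWithinAt (fun z : En n => ((t, z) : ℝ × En n))
      (ContinuousLinearMap.inr ℝ ℝ (En n)) U y := (hasFDerivAt_prodMk_right t y).hasFDerivWithinAt
  have h3 := (h1.comp y h2 fun z hz => ⟨ht, hz⟩).hasFDerivAt (o.op.mem_nhds hy)
  have h4 : pderiv i (f t) y = _ := congrArg (· (EuclideanSpace.single i 1)) h3.fderiv
  exact (SW.D_eq o.udW _ (f := fun q : ℝ × En n => f q.1 q.2) h.eq' _).trans h4.symm

lemma hasDeriv (o : Ok J U) (h : Rep φ f) {t : ℝ} {y : En n} (ht : t ∈ J) (hy : y ∈ U) :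
    HasDerivWithinAt (fun s => f s y) (evp ht hy (o.dT φ)) J t := by
  have h1 := (SW.dAt (f := fun q : ℝ × En n => f q.1 q.2) h.eq' ⟨(t, y), ht, hy⟩).hasFDerivWithinAt
  have h2 : HasDerivWithinAt (fun s : ℝ => ((s, y) : ℝ × En n)) (1, 0) J t :=
    ((hasDerivAt_id t).prodMk (hasDerivAt_const t y)).hasDerivWithinAt
  have h3 := h1.comp_hasDerivWithinAt t h2 fun s hs => mk_mem_prod hs hy
  have h4 : evp ht hy (o.dT φ) = _ := SW.D_eq o.udW _ (f := fun q : ℝ × En n => f q.1 q.2) h.eq' _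
  rw [h4]; exact h3

lemma dT (o : Ok J U) (h : Rep φ f)
    (hd : ∀ t ∈ J, ∀ y ∈ U, HasDerivWithinAt (fun s => f s y) (g t y) J t) : Rep (o.dT φ) g :=
  fun t y ht hy => (o.ud t ht).eq_deriv _ (h.hasDeriv o ht hy) (hd t ht y hy)

lemma hasDeriv_of (o : Ok J U) (h : Rep φ f) (h' : Rep (o.dT φ) g) {t : ℝ} {y : En n} (ht : t ∈ J)
    (hy : y ∈ U) : HasDerivWithinAt (fun s => f s y) (g t y) J t :=
  h' ht hy ▸ h.hasDeriv o ht hy

lemma dT_deriv (o : Ok J U) (hJ : IsOpen J) (h : Rep φ f) :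
    Rep (o.dT φ) fun t y => deriv (fun s => f s y) t := fun _ _ ht hy =>
  ((h.hasDeriv o ht hy).hasDerivAt (hJ.mem_nhds ht)).deriv.symm

lemma dT_static (o : Ok J U) {f : En n → ℝ} (h : Rep φ fun _ => f) : o.dT φ = 0 :=
  (h.dT o (g := fun _ _ => 0) fun _ _ _ _ => hasDerivWithinAt_const ..).ext
    (g := fun _ _ => 0) (fun _ _ _ _ => map_zero _) fun _ _ _ _ => rfl

end Rep

lemma Ok.dX_comm (o : Ok J U) (i j : Fin n) (φ : SR J U) :
    o.dX i (o.dX j φ) = o.dX j (o.dX i φ) := SW.D_comm o.udW o.clW _ _ φ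

lemma Ok.dT_comm (o : Ok J U) (i : Fin n) (φ : SR J U) :
    o.dT (o.dX i φ) = o.dX i (o.dT φ) := SW.D_comm o.udW o.clW _ _ φ

end Crest.Agent.N207.A

end
end

-- ▼ part N207/A/Tg2

/-!
# Row 207, block A (helper33): dictionary between the ring calculus and the coordinate calculus

`mp ev`: evaluation of a tensor over `S`; the algebraic operations commute with it.
`CFam.co`, `WF.rf'`: the structures `Co`, `Rf` over `SR J U`; `rep_*`, `RepT.*`: dictionary.
-/

set_option autoImplicit false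
set_option linter.unusedSectionVars false

open scoped ContDiff Topology
open Set Crest.GeometryTopology.CoordMetric Crest.GeometryTopology.ChartCurvature
  Crest.GeometryTopology.MetricFamily Crest.Agent.R247

noncomputable section

namespace Crest.Agent.N207.A

section mp

variable {n p q : ℕ} {S S' : Type*} [CommRing S] [Algebra ℝ S] [CommRing S'] [Algebra ℝ S']
  (ev : S →+* S')

/-- evaluation of a tensor -/
def mp (A : Ten n S p) : Ten n S' p := fun I => ev (A I)

lemma mp_apply (A : Ten n S p) (I : Fin p → Fin n) : mp ev A I = ev (A I) := rfl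
lemma mp_add (A B : Ten n S p) : mp ev (A + B) = mp ev A + mp ev B := funext fun _ => map_add ..
lemma mp_sub (A B : Ten n S p) : mp ev (A - B) = mp ev A - mp ev B := funext fun _ => map_sub ..
lemma mp_sw (A : Ten n S (p + 2)) : mp ev (sw A) = sw (mp ev A) := rfl

variable (H : Matrix (Fin n) (Fin n) S)

lemma mp_act (A : Ten n S p) : mp ev (act H A) = act (H.map ev) (mp ev A) := by
  funext I; simp only [mp, act, map_sum, map_mul, Matrix.map_apply]
lemma ev_ip (A B : Ten n S p) : ev (ip H A B) = ip (H.map ev) (mp ev A) (mp ev B) := by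
  simp only [mp, ip, map_sum, map_mul, map_prod, Matrix.map_apply]
lemma mp_con (A : Ten n S p) (B : Ten n S (p + 1)) :
    mp ev (con H A B) = con (H.map ev) (mp ev A) (mp ev B) := funext fun _ => ev_ip ..
lemma map_raise (M : Ten n S 2) : (mat M * H).map ev = mat (mp ev M) * H.map ev := Matrix.map_mul
lemma mp_rho (M : Ten n S 2) (A : Ten n S (p + 1)) :
    mp ev (rho H M A) = rho (H.map ev) (mp ev M) (mp ev A) := by
  funext I; simp only [mp_apply, rho, map_sum, map_mul, ← map_raise, Matrix.map_apply]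
lemma mp_bet (R : Ten n S 4) (A : Ten n S (p + 1)) :
    mp ev (bet H R A) = bet (H.map ev) (mp ev R) (mp ev A) := by
  funext I
  simp only [mp_apply, bet, map_sum, map_mul, Matrix.map_apply]
  exact Finset.sum_congr rfl fun a _ => Finset.sum_congr rfl fun b _ => by
    rw [← mp_apply ev (act _ _), mp_act, map_raise]; rfl

end mp

variable {n k l : ℕ} {J : Set ℝ} {U : Set (En n)} {G : ℝ → MetricField n}

lemma evp_algebraMap {t : ℝ} {y : En n} (ht : t ∈ J) (hy : y ∈ U) (c : ℝ) :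
    evp ht hy (algebraMap ℝ (SR J U) c) = c := rfl

lemma RepT.mp {A : Ten n (SR J U) k} {T : ℝ → Tn n k} (h : RepT A T) {t : ℝ} {y : En n}
    (ht : t ∈ J) (hy : y ∈ U) : mp (evp ht hy) A = T t y := funext fun I => h I ht hy

lemma RepT.of_mp {A : Ten n (SR J U) k} {T : ℝ → Tn n k}
    (h : ∀ ⦃t : ℝ⦄ ⦃y : En n⦄ (ht : t ∈ J) (hy : y ∈ U), N207.A.mp (evp ht hy) A = T t y) :
    RepT A T :=
  fun I _ _ ht hy => congrFun (h ht hy) I


lemma RepT.congr {A : Ten n (SR J U) k} {T T' : ℝ → Tn n k} (h : RepT A T)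
    (e : ∀ t ∈ J, ∀ y ∈ U, T' t y = T t y) : RepT A T' :=
  fun I => (h I).congr fun t ht y hy => congrFun (e t ht y hy) I

namespace Rep

variable {φ ψ : SR J U} {f g : ℝ → En n → ℝ}

lemma add (h : Rep φ f) (h' : Rep ψ g) : Rep (φ + ψ) fun t y => f t y + g t y :=
  fun _ _ ht hy => by rw [map_add, h ht hy, h' ht hy]
lemma sub (h : Rep φ f) (h' : Rep ψ g) : Rep (φ - ψ) fun t y => f t y - g t y :=
  fun _ _ ht hy => by rw [map_sub, h ht hy, h' ht hy]
lemma mul (h : Rep φ f) (h' : Rep ψ g) : Rep (φ * ψ) fun t y => f t y * g t y :=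
  fun _ _ ht hy => by rw [map_mul, h ht hy, h' ht hy]
lemma neg (h : Rep φ f) : Rep (-φ) fun t y => -f t y := fun _ _ ht hy => by rw [map_neg, h ht hy]
lemma const (c : ℝ) : Rep (algebraMap ℝ (SR J U) c) fun _ _ => c := fun _ _ _ _ => rfl
lemma two_mul (h : Rep φ f) : Rep (2 * φ) fun t y => 2 * f t y :=
  fun _ _ ht hy => by rw [map_mul, map_ofNat, h ht hy]
lemma sum {ι : Type*} (s : Finset ι) {φ : ι → SR J U} {f : ι → ℝ → En n → ℝ}
    (h : ∀ i, Rep (φ i) (f i)) : Rep (∑ i ∈ s, φ i) fun t y => ∑ i ∈ s, f i t y :=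
  fun _ _ ht hy => by rw [map_sum]; exact Finset.sum_congr rfl fun i _ => h i ht hy

end Rep

/-- the ring calculus of a family of metrics -/
def co (c : CFam G J U) (o : Ok J U) : Co n (SR J U) where
  d := o.dX
  comm := o.dX_comm
  g := Matrix.of fun i j => mkS (fun t y => G t y i j) (c.sm i j)
  gi := Matrix.of fun i j => mkS (fun t y => (G t y)⁻¹ i j) (c.st_inv i j)
  g_symm i j := (rep_mkS (f := fun t y => G t y i j) (c.sm i j)).ext
    (rep_mkS (f := fun t y => G t y j i) (c.sm j i)) fun t ht y hy => by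
    simpa using ((c.pos t ht y hy).isHermitian.apply i j).symm
  gi_g := by
    ext i j ⟨⟨t, y⟩, ht, hy⟩
    have h1 : (G t y)⁻¹ * G t y = 1 :=
      Matrix.nonsing_inv_mul _ ((Matrix.isUnit_iff_isUnit_det _).1 (c.pos t ht y hy).isUnit)
    have h2 := congrFun (congrFun h1 i) j
    change evp ht hy _ = evp ht hy _
    rw [Matrix.mul_apply, map_sum, Matrix.one_apply, apply_ite (evp ht hy), map_one, map_zero,
      ← Matrix.one_apply, ← h2, Matrix.mul_apply]
    rfl

section co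

variable (c : CFam G J U) (o : Ok J U)

lemma rep_g (i j : Fin n) : Rep ((co c o).g i j) fun t y => G t y i j := fun _ _ _ _ => rfl
lemma rep_gi (i j : Fin n) : Rep ((co c o).gi i j) fun t y => (G t y)⁻¹ i j :=
  rep_mkS (c.st_inv i j)


lemma rep_d {φ : SR J U} {f : ℝ → En n → ℝ} (h : Rep φ f) (i : Fin n) :
    Rep ((co c o).d i φ) fun t y => pderiv i (f t) y := h.dX o i

lemma rep_Gam (a i j : Fin n) :
    Rep ((co c o).Gam a i j) fun t y => christoffel (G t) y a i j :=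
  (Rep.const _).mul <| Rep.sum _ fun m => (rep_gi c o a m).mul
    (((rep_d c o (rep_g c o j m) i).add (rep_d c o (rep_g c o i m) j)).sub
      (rep_d c o (rep_g c o i j) m))

lemma rep_riem (a b i j : Fin n) :
    Rep ((co c o).riem a b i j) fun t y => riemann (G t) y a b i j :=
  ((rep_d c o (rep_Gam c o a j b) i).sub (rep_d c o (rep_Gam c o a i b) j)).add <|
    Rep.sum _ fun m => ((rep_Gam c o a i m).mul (rep_Gam c o m j b)).sub
      ((rep_Gam c o a j m).mul (rep_Gam c o m i b))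

lemma rep_rl (a b i j : Fin n) :
    Rep ((co c o).rl a b i j) fun t y => riemannLower (G t) y a b i j :=
  Rep.sum _ fun m => (rep_g c o a m).mul (rep_riem c o m b i j)

lemma rep_ricc (i j : Fin n) : Rep ((co c o).ricc i j) fun t y => ricci (G t) y i j :=
  (((Rep.sum _ fun m => rep_d c o (rep_Gam c o m i j) m).sub
    (rep_d c o (Rep.sum _ fun m => rep_Gam c o m m i) j)).add
    (Rep.sum _ fun a => Rep.sum _ fun b => (rep_Gam c o a a b).mul (rep_Gam c o b i j))).sub
    (Rep.sum _ fun a => Rep.sum _ fun b => (rep_Gam c o a j b).mul (rep_Gam c o b a i))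

lemma rep_scal : Rep (co c o).scal fun t y => scalarCurv (G t) y :=
  Rep.sum _ fun i => Rep.sum _ fun j => (rep_gi c o i j).mul (rep_ricc c o i j)

lemma repT_rm : RepT (co c o).rmT fun t => N207.rmT (G t) := fun _ => rep_rl c o _ _ _ _
lemma repT_ric : RepT (co c o).ricT fun t => N207.ricT (G t) := fun _ => rep_ricc c o _ _
lemma repT_g : RepT (matT (co c o).g) fun t => N207.matT (G t) := fun _ => rep_g c o _ _

lemma Rep.fnT {φ : SR J U} {f : ℝ → En n → ℝ} (h : Rep φ f) :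
    RepT (fnT φ) fun t => N207.fnT (f t) := fun _ => h

lemma Rep.dT' {φ : SR J U} {f : ℝ → En n → ℝ} (h : Rep φ f) :
    RepT ((co c o).dT φ) fun t => N207.dT (f t) := fun _ => rep_d c o h _

namespace RepT

variable {A B : Ten n (SR J U) k} {S T : ℝ → Tn n k}

lemma add (h : RepT A S) (h' : RepT B T) : RepT (A + B) fun t => S t + T t :=
  fun I => (h I).add (h' I)
lemma sub (h : RepT A S) (h' : RepT B T) : RepT (A - B) fun t => S t - T t :=
  fun I => (h I).sub (h' I)
lemma neg (h : RepT A S) : RepT (-A) fun t => -S t := fun I => (h I).neg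
lemma smT {φ : SR J U} {f : ℝ → En n → ℝ} (hf : Rep φ f) (h : RepT A S) :
    RepT (φ • A) fun t => smT (f t) (S t) := fun I => hf.mul (h I)
lemma const_smul (a : ℝ) (h : RepT A S) :
    RepT (algebraMap ℝ (SR J U) a • A) fun t => a • S t := fun I => (Rep.const a).mul (h I)

lemma cov (h : RepT A T) : RepT ((co c o).cov A) fun t => N207.cov (G t) (T t) := fun I =>
  (rep_d c o (h _) _).sub <| Rep.sum _ fun s => Rep.sum _ fun m =>
    (rep_Gam c o m (I 0) (Fin.tail I s)).mul (h _)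

lemma covN (h : RepT A T) :
    ∀ j, RepT ((co c o).covN A j) fun t => N207.covN (G t) (T t) j
  | 0 => h
  | j + 1 => (covN h j).cov c o

lemma tr {A : Ten n (SR J U) (k + 2)} {T : ℝ → Tn n (k + 2)} (h : RepT A T) :
    RepT (tr (co c o).gi A) fun t => trT (G t) (T t) := fun _ =>
  Rep.sum _ fun a => Rep.sum _ fun b => (rep_gi c o a b).mul (h _)

lemma lapT (h : RepT A T) : RepT ((co c o).lapT A) fun t => N207.lapT (G t) (T t) :=
  ((h.cov c o).cov c o).tr c o

lemma divT {A : Ten n (SR J U) (k + 1)} {T : ℝ → Tn n (k + 1)} (h : RepT A T) :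
    RepT ((co c o).divT A) fun t => N207.divT (G t) (T t) := (h.cov c o).tr c o

lemma ip (h : RepT A S) (h' : RepT B T) :
    Rep (ip (co c o).gi A B) fun t y => N207.ip (G t) (S t) (T t) y := fun _ _ ht hy => by
  rw [ev_ip, h.mp ht hy, h'.mp ht hy]; rfl

lemma nsq (h : RepT A T) : Rep ((co c o).nsq A) fun t y => N207.nsq (G t) (T t) y := h.ip c o h

lemma con {B : Ten n (SR J U) (k + 1)} {T : ℝ → Tn n (k + 1)} (h : RepT A S) (h' : RepT B T) :
    RepT (con (co c o).gi A B) fun t => conT (G t) (S t) (T t) := of_mp fun _ _ ht hy => by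
  rw [mp_con, h.mp ht hy, h'.mp ht hy]; rfl

end RepT

namespace Rep

variable {φ ψ : SR J U} {f g : ℝ → En n → ℝ}

lemma hessT (h : Rep φ f) : RepT ((co c o).hessT φ) fun t => N207.hessT (G t) (f t) :=
  (h.dT' c o).cov c o

lemma lap0 (h : Rep φ f) : Rep ((co c o).lap0 φ) fun t y => laplaceBeltrami (G t) (f t) y :=
  fun _ _ ht hy => (h.fnT.lapT c o _ ht hy).trans (lapB_eq_lapT (c.riem ht) hy
    (((st_slice h.st ht).contDiffAt (c.isOpen.mem_nhds hy)).of_le Bo84.two_le_infty)).symm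

lemma gam (h : Rep φ f) (h' : Rep ψ g) :
    Rep ((co c o).gam φ ψ) fun t y => Bo84.gam (G t) (f t) (g t) y :=
  ((h.dT' c o).ip c o (h'.dT' c o)).congr fun _ _ _ _ => (ip_dT ..).symm

end Rep

end co

/-- a Ricci flow on `J × U`, `J` not necessarily open -/
structure WF (G : ℝ → MetricField n) (J : Set ℝ) (U : Set (En n)) : Prop extends CFam G J U where
  ok : Ok J U
  rf : ∀ t ∈ J, ∀ y ∈ U, ∀ i j,
    HasDerivWithinAt (fun s => G s y i j) (-2 * ricci (G t) y i j) J t

lemma WF.of_sub (c : CFlow G J U) {J' : Set ℝ} (h : J' ⊆ J) (o : Ok J' U) : WF G J' U :=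
  ⟨c.toCFam.mono h c.isOpen subset_rfl, o,
    fun t ht y hy i j => (c.rf t (h ht) y hy i j).hasDerivWithinAt⟩

lemma WF.of_cflow (c : CFlow G J U) : WF G J U :=
  .of_sub c subset_rfl (.of_open c.isOpenJ c.isOpen)

lemma WF.icc (c : CFlow G J U) {a b : ℝ} (hab : a < b) (h : Icc a b ⊆ J) : WF G (Icc a b) U :=
  .of_sub c h (.icc hab c.isOpen)

/-- the ring calculus of a Ricci flow -/
def WF.R (w : WF G J U) : Rf n (SR J U) where
  toCo := co w.toCFam w.ok
  dt := w.ok.dT
  dt_comm := w.ok.dT_comm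
  rf i j := ((rep_g w.toCFam w.ok i j).dT w.ok fun t ht y hy => w.rf t ht y hy i j).ext
    (g := fun t y => -2 * ricci (G t) y i j)
    (fun _ _ ht hy => by rw [map_mul, map_neg, map_ofNat, rep_ricc _ _ i j ht hy])
    fun _ _ _ _ => rfl

lemma WF.R_toCo (w : WF G J U) : w.R.toCo = co w.toCFam w.ok := rfl
lemma WF.R_dt (w : WF G J U) : w.R.dt = w.ok.dT := rfl

lemma RepT.DtT (w : WF G J U) (hJ : IsOpen J) {A : Ten n (SR J U) k} {T : ℝ → Tn n k}
    (h : RepT A T) : RepT (w.R.DtT A) (N207.DtT G T) := fun I t y ht hy => by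
  have e : ∀ a b, evp ht hy (w.R.wt a b) = -∑ m, ricci (G t) y a m * (G t y)⁻¹ m b := fun a b => by
    rw [w.R.wt_apply, map_neg, Matrix.mul_apply, map_sum]
    exact congrArg _ (Finset.sum_congr rfl fun m _ => by
      rw [map_mul]; exact congrArg₂ _ (rep_ricc w.toCFam w.ok a m ht hy) rfl)
  rw [Rf.DtT, cd_apply, map_sub, WF.R_dt, (h I).dT_deriv w.ok hJ ht hy]
  simp only [act, map_sum, map_mul, e, fun I => h I ht hy, N207.DtT, dtT, neg_mul,
    Finset.sum_neg_distrib, sub_neg_eq_add, Finset.sum_mul]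
  exact congrArg _ (Finset.sum_congr rfl fun s _ => Finset.sum_comm)

lemma RepT.boxT (w : WF G J U) (hJ : IsOpen J) {A : Ten n (SR J U) k} {T : ℝ → Tn n k}
    (h : RepT A T) : RepT (w.R.boxT A) (N207.boxT G T) :=
  (h.DtT w hJ).sub (h.lapT w.toCFam w.ok)

end Crest.Agent.N207.A

end
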