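import Crest.Agent.N207.A.Tg2

/-!
# Row 207, block A (helper33): the identities of the ring calculus, in coordinates

Static identities (`hG : IsRiemannianOn g U`): Ricci identity, symmetries, Bianchi identities,
`Δ∇`, `ΔRm`.  Evolution equations along `w : WF G J U` (`WF.of_cflow`, `WF.icc`).
The pointwise operations `sw, gamH, rho, the, bet` are those of `A/Tf*` with `S = ℝ`.
-/

set_option autoImplicit false
set_option linter.unusedSectionVars false

open scoped ContDiff Topology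
open Set Crest.GeometryTopology.CoordMetric Crest.GeometryTopology.ChartCurvature
  Crest.GeometryTopology.MetricFamily Crest.Agent.R247

noncomputable section

namespace Crest.Agent.N207.A

variable {n k : ℕ} {J : Set ℝ} {U : Set (En n)} {G : ℝ → MetricField n}

section static

variable {g : MetricField n} {y : En n} (hG : IsRiemannianOn g U) (hy : y ∈ U)

lemma okU (hG : IsRiemannianOn g U) : Ok univ U := .of_open isOpen_univ hG.isOpen

/-- the ring calculus of a fixed metric -/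
def sco (hG : IsRiemannianOn g U) : Co n (SR univ U) := co (cfam_const hG univ) (okU hG)

/-- evaluation at `y` -/
def ev0 (hy : y ∈ U) : SR univ U →+* ℝ := evp (mem_univ 0) hy

/-- a fixed tensor in the ring -/
def sT {T : Tn n k} (hT : SmT T U) : Ten n (SR univ U) k := mkT (fun _ => T) (smTT_const hT univ)


lemma rep_sT {T : Tn n k} (hT : SmT T U) : RepT (sT hT) fun _ => T := repT_mkT _

lemma s_gi : (sco hG).gi.map (ev0 hy) = (g y)⁻¹ := rfl
lemma s_rm : mp (ev0 hy) (sco hG).rmT = N207.rmT g y := (repT_rm _ _).mp _ hy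
lemma s_ric : mp (ev0 hy) (sco hG).ricT = N207.ricT g y := (repT_ric _ _).mp _ hy
lemma s_cov_rm : mp (ev0 hy) ((sco hG).cov (sco hG).rmT) = N207.cov g (N207.rmT g) y :=
  ((repT_rm _ _).cov _ _).mp _ hy
lemma s_cov_ric : mp (ev0 hy) ((sco hG).cov (sco hG).ricT) = N207.cov g (N207.ricT g) y :=
  ((repT_ric _ _).cov _ _).mp _ hy
lemma s_Om : mp (ev0 hy) (sco hG).Om = N207.divT g (N207.rmT g) y :=
  ((repT_rm _ _).divT _ _).mp _ hy

include hG hy


lemma cs_mp {S : Type*} [CommRing S] [Algebra ℝ S] (ev : S →+* ℝ) {T : Ten n S 4} (h : CS T) :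
    CS (mp ev T) :=
  ⟨fun a b c d => by rw [mp_apply, h.a12, map_neg]; rfl,
    fun a b c d => by rw [mp_apply, h.a34, map_neg]; rfl, fun a b c d => congrArg ev (h.pr a b c d)⟩

/-- symmetries of the curvature tensor -/
theorem cs_rm : CS (N207.rmT g y) := s_rm hG hy ▸ cs_mp hG hy _ (sco hG).cs_rm

theorem cs_cov_rm (a : Fin n) : CS (sl (N207.cov g (N207.rmT g) y) a) :=
  s_cov_rm hG hy ▸ cs_mp hG hy _ ((sco hG).cs_cov a)



/-- second Bianchi identity -/
theorem bianchi2 (j a l b c : Fin n) : N207.cov g (N207.rmT g) y (v5 j a l b c)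
    + N207.cov g (N207.rmT g) y (v5 a l j b c) + N207.cov g (N207.rmT g) y (v5 l j a b c) = 0 := by
  have h := congrArg (ev0 hy) ((sco hG).bianchi2 j a l b c)
  rw [map_add, map_add, map_zero] at h
  rw [← s_cov_rm hG hy]; exact h

/-- contracted Bianchi identity -/
theorem div_rm (a l m : Fin n) : N207.divT g (N207.rmT g) y (v3 a l m)
    = N207.cov g (N207.ricT g) y (v3 l m a) - N207.cov g (N207.ricT g) y (v3 m l a) := by
  have h := congrArg (ev0 hy) ((sco hG).Om_eq a l m)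
  rw [map_sub] at h
  rw [← s_cov_ric hG hy, ← s_Om hG hy]; exact h


/-- twice contracted Bianchi identity -/
theorem two_div_ric (m : Fin n) :
    2 * N207.divT g (N207.ricT g) y (v1 m) = pderiv m (scalarCurv g) y := by
  have h := congrArg (ev0 hy) ((sco hG).two_div_ric m)
  rw [map_mul, map_ofNat] at h
  have e1 : mp (ev0 hy) ((sco hG).divT (sco hG).ricT) = _ := ((repT_ric _ _).divT _ _).mp _ hy
  have e2 : ev0 hy ((sco hG).d m (sco hG).scal) = pderiv m (scalarCurv g) y :=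
    rep_d _ _ (rep_scal _ _) m (mem_univ 0) hy
  rw [← e1, ← e2]; exact h



/-- Laplacian of the curvature tensor; `W = ∇ div Rm` -/
theorem lap_rm : N207.lapT g (N207.rmT g) y
    = N207.cov g (N207.divT g (N207.rmT g)) y
      - sw (p := 2) (N207.cov g (N207.divT g (N207.rmT g)) y)
      + (rho (g y)⁻¹ (N207.ricT g y) (N207.rmT g y)
        - sw (p := 2) (rho (g y)⁻¹ (N207.ricT g y) (N207.rmT g y)))
      + (bet (g y)⁻¹ (N207.rmT g y) (N207.rmT g y)
        - sw (p := 2) (bet (g y)⁻¹ (N207.rmT g y) (N207.rmT g y))) := by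
  have h := congrArg (mp (ev0 hy)) (sco hG).lap_rm
  have e1 : mp (ev0 hy) ((sco hG).lapT (sco hG).rmT) = _ := ((repT_rm _ _).lapT _ _).mp _ hy
  have e2 : mp (ev0 hy) ((sco hG).cov (sco hG).Om) = _ :=
    (((repT_rm _ _).divT _ _).cov _ _).mp _ hy
  rwa [Co.Zr, mp_add, mp_add, mp_sub, mp_sub, mp_sub, mp_sw, mp_sw, mp_sw, mp_rho, mp_bet, e1, e2,
    s_gi, s_rm, s_ric] at h


end static

namespace WF

variable (w : WF G J U) {t : ℝ} {y : En n} (ht : t ∈ J) (hy : y ∈ U)

lemma rm : RepT w.R.rmT fun t => N207.rmT (G t) := repT_rm w.1 w.ok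
lemma ric : RepT w.R.ricT fun t => N207.ricT (G t) := repT_ric w.1 w.ok
lemma scal : Rep w.R.scal fun t => scalarCurv (G t) := rep_scal w.1 w.ok
lemma gi : w.R.gi.map (evp ht hy) = (G t y)⁻¹ := rfl

include w ht hy

/-- `∂ₜ R = Δ R + 2 |Ric|²` -/
theorem dt_scal : HasDerivWithinAt (fun s => scalarCurv (G s) y)
    (laplaceBeltrami (G t) (scalarCurv (G t)) y + 2 * N207.nsq (G t) (N207.ricT (G t)) y) J t := by
  refine w.scal.hasDeriv_of w.ok (g := fun t y => laplaceBeltrami (G t) (scalarCurv (G t)) y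
    + 2 * N207.nsq (G t) (N207.ricT (G t)) y) ?_ ht hy
  rw [← w.R_dt, eq_add_of_sub_eq' w.R.box_scal]
  exact (w.scal.lap0 w.1 w.ok).add (w.ric.nsq w.1 w.ok).two_mul

variable {u u' v v' : ℝ → En n → ℝ}

/-- `∂ₜ Δ u = Δ u' + 2 ⟨Ric, Hess u⟩` -/
theorem dt_lap (hu : St u J U)
    (hd : ∀ t ∈ J, ∀ y ∈ U, HasDerivWithinAt (fun s => u s y) (u' t y) J t) :
    HasDerivWithinAt (fun s => laplaceBeltrami (G s) (u s) y)
      (laplaceBeltrami (G t) (u' t) y
        + 2 * N207.ip (G t) (N207.ricT (G t)) (N207.hessT (G t) (u t)) y) J t := by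
  have h := rep_mkS hu
  refine (h.lap0 w.toCFam w.ok).hasDeriv_of w.ok (g := fun t y => laplaceBeltrami (G t) (u' t) y
    + 2 * N207.ip (G t) (N207.ricT (G t)) (N207.hessT (G t) (u t)) y) ?_ ht hy
  rw [← w.R_dt, ← w.R_toCo, w.R.dt_lap0]
  exact ((h.dT w.ok hd).lap0 w.1 w.ok).add (w.ric.ip w.1 w.ok (h.hessT w.1 w.ok)).two_mul

/-- evolution of `⟨∇u, ∇v⟩` -/
theorem dt_gam2 (hu : St u J U) (hv : St v J U)
    (hd : ∀ t ∈ J, ∀ y ∈ U, HasDerivWithinAt (fun s => u s y) (u' t y) J t)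
    (hd' : ∀ t ∈ J, ∀ y ∈ U, HasDerivWithinAt (fun s => v s y) (v' t y) J t) :
    HasDerivWithinAt (fun s => Bo84.gam (G s) (u s) (v s) y)
      (laplaceBeltrami (G t) (Bo84.gam (G t) (u t) (v t)) y
        + (Bo84.gam (G t) (fun z => u' t z - laplaceBeltrami (G t) (u t) z) (v t) y
          + Bo84.gam (G t) (u t) (fun z => v' t z - laplaceBeltrami (G t) (v t) z) y
          - 2 * N207.ip (G t) (N207.hessT (G t) (u t)) (N207.hessT (G t) (v t)) y)) J t := by
  have h := rep_mkS hu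
  have h' := rep_mkS hv
  refine (h.gam w.toCFam w.ok h').hasDeriv_of w.ok (g := fun t y =>
    laplaceBeltrami (G t) (Bo84.gam (G t) (u t) (v t)) y
      + (Bo84.gam (G t) (fun z => u' t z - laplaceBeltrami (G t) (u t) z) (v t) y
        + Bo84.gam (G t) (u t) (fun z => v' t z - laplaceBeltrami (G t) (v t) z) y
        - 2 * N207.ip (G t) (N207.hessT (G t) (u t)) (N207.hessT (G t) (v t)) y)) ?_ ht hy
  rw [← w.R_dt, ← w.R_toCo, eq_add_of_sub_eq' (w.R.box_gam _ _)]
  exact ((h.gam w.1 w.ok h').lap0 w.1 w.ok).add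
    (((((h.dT w.ok hd).sub (h.lap0 w.1 w.ok)).gam w.1 w.ok h').add
      (h.gam w.1 w.ok ((h'.dT w.ok hd').sub (h'.lap0 w.1 w.ok)))).sub
      ((h.hessT w.1 w.ok).ip w.1 w.ok (h'.hessT w.1 w.ok)).two_mul)

/-- evolution of `|∇u|²` (shape of `HC.Evo.dt_gam`) -/
theorem dt_gam (hu : St u J U)
    (hd : ∀ t ∈ J, ∀ y ∈ U, HasDerivWithinAt (fun s => u s y) (u' t y) J t) :
    HasDerivWithinAt (fun s => Bo84.gam (G s) (u s) (u s) y)
      (laplaceBeltrami (G t) (Bo84.gam (G t) (u t) (u t)) y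
        + 2 * Bo84.gam (G t) (u t) (fun z => u' t z - laplaceBeltrami (G t) (u t) z) y
        - 2 * N207.nsq (G t) (N207.hessT (G t) (u t)) y) J t := by
  convert w.dt_gam2 ht hy hu hu hd hd using 1
  rw [← ip_dT (G t) (fun z => u' t z - laplaceBeltrami (G t) (u t) z),
    N207.ip_comm (w.riem ht) hy, ip_dT, N207.nsq]
  ring


end WF

section cflow

variable (c : CFlow G J U) {t : ℝ} {y : En n} (ht : t ∈ J) (hy : y ∈ U)

include c ht hy







end cflow

end Crest.Agent.N207.A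

end
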