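import Crest.Agent.N207.A.Tg2
import Crest.Agent.N207.A.Tg3
import Crest.Agent.N207.A.Arr

-- ▼ part N207/A/Tf6
section

/-!
# Row 207, block A (helper33): natural operations and their norms

`nr ev H A = |A|` at the point `ev`.  `N1 H c L`, `N2 H c β`: linear and bilinear operations that
commute with compatible connections and have norm at most `c`.  `Star`: sums `∑ ∇ⁱA * ∇ʲB`.
-/

set_option autoImplicit false
set_option linter.unusedSectionVars false

noncomputable section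

namespace Crest.Agent.N207.A

open Finset Function

variable {n p q r s : ℕ} {S : Type*} [CommRing S] [Algebra ℝ S]

lemma ev_alg (ev : S →+* ℝ) (c : ℝ) : ev (algebraMap ℝ S c) = c :=
  DFunLike.congr_fun (Subsingleton.elim (ev.comp (algebraMap ℝ S)) (RingHom.id ℝ)) c

/-- `H` is a sum of squares at the point `ev` -/
def Pt (ev : S →+* ℝ) (H : Matrix (Fin n) (Fin n) S) : Prop :=
  ∃ P : Fin n → Fin n → ℝ, ∀ a b, ev (H a b) = ∑ i, P i a * P i b

/-- the norm at the point `ev` -/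
def nr (ev : S →+* ℝ) (H : Matrix (Fin n) (Fin n) S) (A : Ten n S p) : ℝ := √(ev (ip H A A))

/-- slice along a real vector -/
def fs (v : Fin n → ℝ) (A : Ten n S (p + 1)) : Ten n S p := ∑ a, algebraMap ℝ S (v a) • sl A a

lemma ip_prm (H : Matrix (Fin n) (Fin n) S) (σ : Fin p ≃ Fin q) (A B : Ten n S p) :
    ip H (prm σ A) (prm σ B) = ip H A B := by
  let e : (Fin q → Fin n) ≃ (Fin p → Fin n) := (Equiv.arrowCongr σ (Equiv.refl _)).symm
  unfold ip
  rw [← e.sum_comp]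
  refine sum_congr rfl fun I _ => ?_
  rw [← e.sum_comp]
  refine sum_congr rfl fun J _ => ?_
  rw [← σ.prod_comp]
  rfl

lemma ip_sw (H : Matrix (Fin n) (Fin n) S) (A B : Ten n S (p + 2)) :
    ip H (sw A) (sw B) = ip H A B := by
  have e : ∀ (A : Ten n S (p + 2)) a b, sl (sl (sw A) a) b = sl (sl A b) a := fun _ _ _ => rfl
  simp only [ip_cons H (p := p + 1), ip_cons H (p := p), e, mul_sum]
  rw [sum4_comm]
  exact sum_congr rfl fun _ _ => sum_congr rfl fun _ _ => sum_congr rfl fun _ _ =>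
    sum_congr rfl fun _ _ => by ring

section nr

variable {ev : S →+* ℝ} {H : Matrix (Fin n) (Fin n) S} {P : Fin n → Fin n → ℝ}

lemma nr_nonneg (A : Ten n S p) : 0 ≤ nr ev H A := Real.sqrt_nonneg _

lemma nr_congr {A B : Ten n S p} (h : mp ev A = mp ev B) : nr ev H A = nr ev H B := by
  rw [nr, nr, ev_ip, ev_ip, h]

lemma nr_zero : nr ev H (0 : Ten n S p) = 0 := by rw [nr, ip_zeroL, map_zero, Real.sqrt_zero]

lemma nr_smul (c : S) (A : Ten n S p) : nr ev H (c • A) = |ev c| * nr ev H A := by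
  rw [nr, ip_smulL, ip_smulR, ← mul_assoc, map_mul, map_mul, ← sq, Real.sqrt_mul (sq_nonneg _),
    Real.sqrt_sq_eq_abs, nr]

lemma nr_neg (A : Ten n S p) : nr ev H (-A) = nr ev H A := by
  rw [← neg_one_smul S A, nr_smul]; simp

lemma nr_zero0 (A : Ten n S 0) : nr ev H A = |ev (A Fin.elim0)| := by
  rw [nr, ip_zero0, map_mul, ← sq, Real.sqrt_sq_eq_abs]

lemma ip_fs (hP : ∀ a b, ev (H a b) = ∑ i, P i a * P i b) (A B : Ten n S (p + 1)) :
    ev (ip H A B) = ∑ i, ev (ip H (fs (P i) A) (fs (P i) B)) := by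
  simp only [ip_cons H (p := p), fs, ip_sumL, ip_sumR, ip_smulL, ip_smulR, map_sum, map_mul, hP,
    ev_alg, sum_mul, mul_sum]
  rw [sum_congr rfl fun a _ => sum_comm, sum_comm]
  refine sum_congr rfl fun i _ => ?_
  rw [sum_comm]
  exact sum_congr rfl fun _ _ => sum_congr rfl fun _ _ => by ring

lemma Pt.nonneg (h : Pt ev H) : ∀ {p : ℕ} (A : Ten n S p), 0 ≤ ev (ip H A A)
  | 0, A => by rw [ip_zero0, map_mul]; exact mul_self_nonneg _
  | p + 1, A => by
    obtain ⟨P, hP⟩ := h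
    rw [ip_fs hP]; exact sum_nonneg fun i _ => Pt.nonneg ⟨P, hP⟩ _

lemma Pt.nr_sq (h : Pt ev H) (A : Ten n S p) : nr ev H A ^ 2 = ev (ip H A A) :=
  Real.sq_sqrt (h.nonneg A)

lemma nr_fs (hP : ∀ a b, ev (H a b) = ∑ i, P i a * P i b) (A : Ten n S (p + 1)) :
    nr ev H A = √(∑ i, nr ev H (fs (P i) A) ^ 2) := by
  simp only [Pt.nr_sq ⟨P, hP⟩, ← ip_fs hP]; rfl

lemma nr_fs_le (hP : ∀ a b, ev (H a b) = ∑ i, P i a * P i b) (A : Ten n S (p + 1)) (i : Fin n) :
    nr ev H (fs (P i) A) ≤ nr ev H A := by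
  rw [nr_fs hP A]
  exact Real.le_sqrt_of_sq_le (single_le_sum (f := fun i => nr ev H (fs (P i) A) ^ 2)
    (fun _ _ => sq_nonneg _) (mem_univ i))

lemma Pt.abs_ip (h : Pt ev H) :
    ∀ {p : ℕ} (A B : Ten n S p), |ev (ip H A B)| ≤ nr ev H A * nr ev H B
  | 0, A, B => by rw [ip_zero0, map_mul, abs_mul, nr_zero0, nr_zero0]
  | p + 1, A, B => by
    obtain ⟨P, hP⟩ := h
    rw [ip_fs hP, nr_fs hP A, nr_fs hP B]
    exact (abs_sum_le_sum_abs _ _).trans ((sum_le_sum fun i _ => Pt.abs_ip ⟨P, hP⟩ _ _).trans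
      (Real.sum_mul_le_sqrt_mul_sqrt _ _ _))

lemma Pt.nr_add (h : Pt ev H) (A B : Ten n S p) : nr ev H (A + B) ≤ nr ev H A + nr ev H B := by
  have h1 := (abs_le.1 (h.abs_ip A B)).2
  have h2 := (abs_le.1 (h.abs_ip B A)).2
  refine Real.sqrt_le_iff.2 ⟨add_nonneg (nr_nonneg _) (nr_nonneg _), ?_⟩
  rw [ip_addL, ip_addR, ip_addR, map_add, map_add, map_add, ← h.nr_sq, ← h.nr_sq]
  nlinarith

lemma Pt.nr_sub (h : Pt ev H) (A B : Ten n S p) : nr ev H (A - B) ≤ nr ev H A + nr ev H B := by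
  rw [sub_eq_add_neg, ← nr_neg B]; exact h.nr_add _ _

lemma Pt.nr_sum (h : Pt ev H) {ι : Type*} (s : Finset ι) (A : ι → Ten n S p) :
    nr ev H (∑ i ∈ s, A i) ≤ ∑ i ∈ s, nr ev H (A i) := by
  classical
  induction s using Finset.induction_on with
  | empty => simp [nr_zero]
  | insert a s ha ih => rw [sum_insert ha, sum_insert ha]; linarith [h.nr_add (A a) (∑ i ∈ s, A i)]

lemma Pt.nr_tr (h : Pt ev H) (T : Ten n S (p + 2)) : nr ev H (tr H T) ≤ n * nr ev H T := by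
  obtain ⟨P, hP⟩ := h
  have e : mp ev (tr H T) = mp ev (∑ i, fs (P i) (fs (P i) T)) := by
    funext x
    simp only [mp_apply, tr, fs, Finset.sum_apply, Pi.smul_apply, smul_eq_mul, sl_apply, map_sum,
      map_mul, hP, ev_alg, sum_mul, mul_sum]
    rw [sum_congr rfl fun a _ => sum_comm, sum_comm]
    refine sum_congr rfl fun i _ => ?_
    rw [sum_comm]
    exact sum_congr rfl fun _ _ => sum_congr rfl fun _ _ => by ring
  rw [nr_congr e]
  refine (Pt.nr_sum ⟨P, hP⟩ _ _).trans ((sum_le_card_nsmul _ _ _ fun i _ =>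
    (nr_fs_le hP _ i).trans (nr_fs_le hP T i)).trans_eq ?_)
  simp

/-- a bound for a linear map passes to the slices -/
lemma Pt.nr_lift (h : Pt ev H) {L : Ten n S p → Ten n S q} (hL : IsLinearMap S L) {c : ℝ}
    (hc : 0 ≤ c) (hb : ∀ X, nr ev H (L X) ≤ c * nr ev H X) (A : Ten n S (p + 1))
    (B : Ten n S (q + 1)) (e : ∀ k, sl B k = L (sl A k)) : nr ev H B ≤ c * nr ev H A := by
  obtain ⟨P, hP⟩ := h
  have e' : ∀ v, fs v B = L (fs v A) := fun v => by
    have := map_sum (hL.mk' L) (fun a => algebraMap ℝ S (v a) • sl A a) univ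
    simp only [IsLinearMap.mk'_apply, hL.map_smul] at this
    simp only [fs, e, this]
  rw [nr_fs hP A, nr_fs hP B, ← Real.sqrt_sq hc, ← Real.sqrt_mul (sq_nonneg c), mul_sum]
  refine Real.sqrt_le_sqrt (sum_le_sum fun i _ => ?_)
  rw [e', ← mul_pow]
  exact pow_le_pow_left₀ (nr_nonneg _) (hb _) 2

end nr

/-- natural linear operations -/
structure N1 (H : Matrix (Fin n) (Fin n) S) (c : ℝ) (L : Ten n S p → Ten n S q) : Prop where
  c0 : 0 ≤ c
  lin : IsLinearMap S L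
  cd : ∀ δ ω, Compat δ ω H → ∀ A, cd δ ω (L A) = L (cd δ ω A)
  bd : ∀ ev, Pt ev H → ∀ A, nr ev H (L A) ≤ c * nr ev H A

/-- natural bilinear operations -/
structure N2 (H : Matrix (Fin n) (Fin n) S) (c : ℝ) (β : Ten n S p → Ten n S q → Ten n S r) :
    Prop where
  c0 : 0 ≤ c
  linL : ∀ B, IsLinearMap S fun A => β A B
  linR : ∀ A, IsLinearMap S (β A)
  cd : ∀ δ ω, Compat δ ω H → ∀ A B, cd δ ω (β A B) = β (cd δ ω A) B + β A (cd δ ω B)
  bd : ∀ ev, Pt ev H → ∀ A B, nr ev H (β A B) ≤ c * nr ev H A * nr ev H B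

variable {H : Matrix (Fin n) (Fin n) S} {c c' : ℝ}

lemma n1_tr : N1 H n (tr (p := p) H) :=
  ⟨Nat.cast_nonneg n, isLin_tr H, fun _ _ h => cd_tr h, fun _ h => h.nr_tr⟩


lemma n1_sw : N1 H 1 (sw (p := p)) :=
  ⟨zero_le_one, ⟨fun _ _ => rfl, fun _ _ => rfl⟩, fun δ ω _ => cd_sw δ ω, fun _ _ A => by
    rw [one_mul, nr, ip_sw]; rfl⟩

lemma n1_neg : N1 H 1 fun A : Ten n S p => -A :=
  ⟨zero_le_one, ⟨neg_add, fun c A => (smul_neg c A).symm⟩, fun δ ω _ => cd_neg δ ω,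
    fun _ _ A => by rw [one_mul, nr_neg]⟩

/-- lift in the left argument -/
def lL (β : Ten n S p → Ten n S q → Ten n S r) (A : Ten n S (p + 1)) (B : Ten n S q) :
    Ten n S (r + 1) := fun x => β (sl A (x 0)) B (Fin.tail x)

/-- lift in the right argument -/
def lR (β : Ten n S p → Ten n S q → Ten n S r) (A : Ten n S p) (B : Ten n S (q + 1)) :
    Ten n S (r + 1) := fun x => β A (sl B (x 0)) (Fin.tail x)

lemma lin_sl_cd {L : Ten n S p → Ten n S q} (hL : IsLinearMap S L) (δ : Derivation ℝ S S)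
    (ω : Matrix (Fin n) (Fin n) S) (A : Ten n S (p + 1)) (k : Fin n) :
    L (sl (cd δ ω A) k) = L (cd δ ω (sl A k)) - ∑ m, ω k m • L (sl A m) := by
  have := map_sum (hL.mk' L) (fun m => ω k m • sl A m) univ
  simp only [IsLinearMap.mk'_apply, hL.map_smul] at this
  rw [sl_cd, hL.map_sub, this]

lemma sl_ext {A B : Ten n S (p + 1)} (h : ∀ k, sl A k = sl B k) : A = B :=
  ten_ext fun k y => congrFun (h k) y

namespace N2

variable {β β' : Ten n S p → Ten n S q → Ten n S r}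

lemma congr (h : N2 H c β) (e : ∀ A B, β' A B = β A B) : N2 H c β' :=
  (funext₂ e : β' = β) ▸ h

lemma flip (h : N2 H c β) : N2 H c fun B A => β A B :=
  ⟨h.c0, h.linR, h.linL, fun δ ω hc B A => (h.cd δ ω hc A B).trans (add_comm _ _),
    fun ev hp B A => (h.bd ev hp A B).trans_eq (by ring)⟩

lemma add (h : N2 H c β) (h' : N2 H c' β') : N2 H (c + c') fun A B => β A B + β' A B :=
  ⟨add_nonneg h.c0 h'.c0,
    fun B => ⟨fun A A' => by rw [(h.linL B).map_add, (h'.linL B).map_add]; abel,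
      fun a A => by rw [(h.linL B).map_smul, (h'.linL B).map_smul, smul_add]⟩,
    fun A => ⟨fun B B' => by rw [(h.linR A).map_add, (h'.linR A).map_add]; abel,
      fun a B => by rw [(h.linR A).map_smul, (h'.linR A).map_smul, smul_add]⟩,
    fun δ ω hc A B => by rw [cd_add, h.cd δ ω hc, h'.cd δ ω hc]; abel,
    fun ev hp A B => (hp.nr_add _ _).trans (by linarith [h.bd ev hp A B, h'.bd ev hp A B])⟩

lemma comp {L : Ten n S r → Ten n S s} (hL : N1 H c' L) (h : N2 H c β) :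
    N2 H (c' * c) fun A B => L (β A B) :=
  ⟨mul_nonneg hL.c0 h.c0,
    fun B => ⟨fun A A' => by rw [(h.linL B).map_add, hL.lin.map_add],
      fun a A => by rw [(h.linL B).map_smul, hL.lin.map_smul]⟩,
    fun A => ⟨fun B B' => by rw [(h.linR A).map_add, hL.lin.map_add],
      fun a B => by rw [(h.linR A).map_smul, hL.lin.map_smul]⟩,
    fun δ ω hc A B => by rw [hL.cd δ ω hc, h.cd δ ω hc, hL.lin.map_add],
    fun ev hp A B => (hL.bd ev hp _).trans
      ((mul_le_mul_of_nonneg_left (h.bd ev hp A B) hL.c0).trans_eq (by ring))⟩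

lemma lR (h : N2 H c β) : N2 H c (lR β) := by
  have e : ∀ X B k, sl (N207.A.lR β X B) k = β X (sl B k) := fun _ _ _ => rfl
  refine ⟨h.c0, fun B => ⟨fun A A' => sl_ext fun k => ?_, fun a A => sl_ext fun k => ?_⟩,
    fun A => ⟨fun B B' => sl_ext fun k => ?_, fun a B => sl_ext fun k => ?_⟩,
    fun δ ω hc A B => sl_ext fun k => ?_, fun ev hp A B => ?_⟩
  · exact (h.linL (sl B k)).map_add A A'
  · exact (h.linL (sl B k)).map_smul a A
  · exact (h.linR A).map_add (sl B k) (sl B' k)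
  · exact (h.linR A).map_smul a (sl B k)
  · simp only [sl_cd (T := N207.A.lR β A B), sl_add, e, h.cd δ ω hc, lin_sl_cd (h.linR A)]; abel
  · exact hp.nr_lift (h.linR A) (mul_nonneg h.c0 (nr_nonneg A)) (h.bd ev hp A) B _ (e A B)

lemma lL (h : N2 H c β) : N2 H c (lL β) := h.flip.lR.flip

end N2

lemma n2_zero : N2 H 0 fun (_ : Ten n S p) (_ : Ten n S q) => (0 : Ten n S r) :=
  ⟨le_rfl, fun _ => ⟨fun _ _ => (add_zero _).symm, fun _ _ => (smul_zero _).symm⟩,
    fun _ => ⟨fun _ _ => (add_zero _).symm, fun _ _ => (smul_zero _).symm⟩,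
    fun δ ω _ _ _ => by rw [cd_zero, add_zero], fun _ _ _ _ => by rw [nr_zero]; simp⟩

lemma n2_smul : N2 H 1 fun (A : Ten n S 0) (T : Ten n S p) => A Fin.elim0 • T :=
  ⟨zero_le_one, fun _ => ⟨fun _ _ => add_smul .., fun _ _ => mul_smul ..⟩,
    fun _ => ⟨smul_add _, fun _ _ => smul_comm ..⟩,
    fun δ ω _ A T => by rw [cd_smul, cd_zero0], fun _ _ A T => by rw [nr_smul, nr_zero0, one_mul]⟩

lemma n2_rho : N2 H n (rho (p := p) H) := by
  have := ((n2_smul (H := H) (p := p)).lR.lL.comp n1_tr).lL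
  rw [mul_one] at this
  refine this.congr fun M T => ten_ext fun k x => ?_
  simp only [rho_cons, Matrix.mul_apply, sum_mul]
  rw [sum_comm]
  exact sum_congr rfl fun a _ => sum_congr rfl fun b _ => by
    change M (v2 k a) * H a b * T (Fin.cons b x) = H a b * (M (v2 k a) * T (Fin.cons b x)); ring

lemma n2_act : ∀ p : ℕ, N2 H (p * n) fun M (T : Ten n S p) => act (mat M * H) T
  | 0 => by
    rw [Nat.cast_zero, zero_mul]
    exact n2_zero.congr fun M T => funext fun x => act_zero0 ..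
  | p + 1 => by
    rw [Nat.cast_succ, add_mul, one_mul, add_comm (p * n : ℝ)]
    exact (n2_rho.add (n2_act p).lR).congr fun M T => ten_ext fun k x => act_cons ..

lemma n2_the : N2 H (p * n) (the (p := p) H) := (n2_act p).lL


lemma n2_bet : N2 H (n * (p * n)) (bet (p := p) H) := n2_the.lL.lR.comp n1_tr

lemma N2.cov (C : Co n S) {β : Ten n S p → Ten n S q → Ten n S r} (h : N2 C.gi c β)
    (A : Ten n S p) (B : Ten n S q) :
    C.cov (β A B) = N207.A.lL β (C.cov A) B + N207.A.lR β A (C.cov B) :=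
  sl_ext fun k => h.cd _ _ (C.compat k) A B

/-- sums of natural products of `∇ⁱ A` and `∇ʲ B`, `i + j = k` -/
inductive Star (C : Co n S) (A : Ten n S p) (B : Ten n S q) (k : ℕ) : ℝ → Ten n S r → Prop
  | base (i j : ℕ) (h : i + j = k) {c : ℝ} {β : Ten n S (p + i) → Ten n S (q + j) → Ten n S r}
      (hβ : N2 C.gi c β) : Star C A B k c (β (C.covN A i) (C.covN B j))
  | add {c c' : ℝ} {T T' : Ten n S r} : Star C A B k c T → Star C A B k c' T' →
      Star C A B k (c + c') (T + T')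

namespace Star

variable {C : Co n S} {A : Ten n S p} {B : Ten n S q} {k : ℕ} {T : Ten n S r}

lemma cov (h : Star C A B k c T) : Star C A B (k + 1) (2 * c) (C.cov T) := by
  induction h with
  | base i j h hβ =>
    rw [hβ.cov, two_mul]
    exact (base (k := k + 1) (i + 1) j (by omega) hβ.lL).add
      (base (k := k + 1) i (j + 1) (by omega) hβ.lR)
  | add _ _ ih ih' => rw [C.cov_add, mul_add]; exact ih.add ih'

lemma bd (h : Star C A B k c T) {ev : S →+* ℝ} (hp : Pt ev C.gi) : nr ev C.gi T ≤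
    c * ∑ i ∈ range (k + 1), nr ev C.gi (C.covN A i) * nr ev C.gi (C.covN B (k - i)) := by
  induction h with
  | base i j h hβ =>
    obtain rfl : j = k - i := by omega
    refine (hβ.bd ev hp _ _).trans ?_
    rw [mul_assoc]
    exact mul_le_mul_of_nonneg_left (single_le_sum
      (f := fun i => nr ev C.gi (C.covN A i) * nr ev C.gi (C.covN B (k - i)))
      (fun _ _ => mul_nonneg (nr_nonneg _) (nr_nonneg _)) (mem_range.2 (by omega))) hβ.c0
  | add _ _ ih ih' => rw [add_mul]; exact (hp.nr_add _ _).trans (add_le_add ih ih')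

end Star

/-- the constants of Shi's estimates -/
def cS (n p : ℕ) (c : ℝ) : ℕ → ℝ
  | 0 => c
  | k + 1 => 2 * cS n p c k + (1 * (n * ((p + k : ℕ) * n)) + 1 * (n * ((p + k : ℕ) * n)))

lemma cS_nonneg (n p : ℕ) {c : ℝ} (hc : 0 ≤ c) : ∀ k, 0 ≤ cS n p c k
  | 0 => hc
  | k + 1 => by have := cS_nonneg n p hc k; rw [cS]; positivity

namespace Rf

variable (F : Rf n S)

lemma star_box {T : Ten n S p} (h : Star F.toCo F.rmT T 0 c (F.boxT T)) :
    ∀ k, Star F.toCo F.rmT T k (cS n p c k) (F.boxT (F.covN T k))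
  | 0 => h
  | k + 1 => by
    have h1 := Star.base (C := F.toCo) (A := F.rmT) (B := T) 0 (k + 1) (zero_add _)
      ((n2_bet (p := p + k)).comp n1_neg)
    rw [Co.covN, box_cov, two_smul, sub_eq_add_neg, neg_add]
    exact (star_box h k).cov.add (h1.add h1)

lemma star_rm : Star F.toCo F.rmT F.rmT 0 (1 * (n * ((3 : ℕ) * n)) + 1 * (n * ((3 : ℕ) * n)))
    (F.boxT F.rmT) := by
  rw [box_rm, sub_eq_add_neg]
  exact (Star.base 0 0 rfl ((n2_bet (p := 3)).comp (n1_sw (p := 2)))).add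
    (Star.base 0 0 rfl ((n2_bet (p := 3)).comp n1_neg))

lemma star_ric : Star F.toCo F.rmT F.ricT 0 (1 * (n * ((1 : ℕ) * n)) + 1 * (n * ((1 : ℕ) * n)))
    (F.boxT F.ricT) := by
  rw [box_ric, two_smul, neg_add]
  exact (Star.base 0 0 rfl ((n2_bet (p := 1)).comp n1_neg)).add
    (Star.base 0 0 rfl ((n2_bet (p := 1)).comp n1_neg))

/-- Shi's inequality -/
theorem shi {T : Ten n S p} (h : Star F.toCo F.rmT T 0 c (F.boxT T)) (k : ℕ) {ev : S →+* ℝ}
    (hp : Pt ev F.gi) : |ev (F.dt (F.nsq (F.covN T k))) - ev (F.lap0 (F.nsq (F.covN T k)))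
      + 2 * ev (F.nsq (F.covN T (k + 1)))| ≤ 2 * cS n p c k * ∑ i ∈ range (k + 1),
        nr ev F.gi (F.covN F.rmT i) * nr ev F.gi (F.covN T (k - i)) * nr ev F.gi (F.covN T k) := by
  have h1 := congrArg ev (F.box_nsq (F.covN T k))
  have h2 := hp.abs_ip (F.boxT (F.covN T k)) (F.covN T k)
  have h3 := mul_le_mul_of_nonneg_right ((F.star_box h k).bd hp)
    (nr_nonneg (ev := ev) (H := F.gi) (F.covN T k))
  simp only [map_sub, map_mul, map_ofNat] at h1
  rw [h1, Co.covN, sub_add_cancel, abs_mul, abs_two, ← sum_mul]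
  linarith

end Rf

end Crest.Agent.N207.A

end
private theorem rz_51708fbd2e : type_of% @_root_.Crest.Agent.N207.A.cS.eq_def := @_root_.Crest.Agent.N207.A.cS.eq_def -- L330
private theorem rz_b428af1bce : type_of% @_root_.Crest.Agent.N207.A.cS.eq_1 := @_root_.Crest.Agent.N207.A.cS.eq_1 -- L330
end

-- ▼ part N207/A/Tg4

/-!
# Row 207, block A (helper33): Shi's inequalities and the Bochner inequality in coordinates
-/

set_option autoImplicit false
set_option linter.unusedSectionVars false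

open scoped ContDiff Topology
open Set Crest.GeometryTopology.CoordMetric Crest.GeometryTopology.ChartCurvature
  Crest.GeometryTopology.MetricFamily Crest.Agent.R247

noncomputable section

namespace Crest.Agent.N207.A

section ring

variable {n p : ℕ} {S : Type*} [CommRing S] [Algebra ℝ S] (C : Co n S) {ev : S →+* ℝ}

/-- `(i,k,l,m) ↦ (i,l,m,k)` -/
def eA : Fin 4 ≃ Fin 4 := ⟨![0, 2, 3, 1], ![0, 3, 1, 2], by decide, by decide⟩
/-- `(i,k,l,m) ↦ (i,m,l,k)` -/
def eB : Fin 4 ≃ Fin 4 := ⟨![0, 3, 2, 1], ![0, 3, 2, 1], by decide, by decide⟩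

lemma prm_eA (T : Ten n S 4) (a b c d : Fin n) : prm eA T (v4 a b c d) = T (v4 a c d b) := by
  unfold prm; congr 1; funext i; fin_cases i <;> rfl

lemma prm_eB (T : Ten n S 4) (a b c d : Fin n) : prm eB T (v4 a b c d) = T (v4 a d c b) := by
  unfold prm; congr 1; funext i; fin_cases i <;> rfl

lemma nr_prm {q : ℕ} {H : Matrix (Fin n) (Fin n) S} (e : Fin p ≃ Fin q) (T : Ten n S p) :
    nr ev H (prm e T) = nr ev H T := by rw [nr, ip_prm]; rfl

lemma nr_sw {H : Matrix (Fin n) (Fin n) S} (T : Ten n S (p + 2)) :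
    nr ev H (sw T) = nr ev H T := by rw [nr, ip_sw]; rfl

variable (hp : Pt ev C.gi)

include hp

lemma Co.nr_ric : nr ev C.gi C.ricT ≤ n * nr ev C.gi C.rmT := by
  rw [C.ricT_eq, ← nr_prm e12 C.rmT]; exact hp.nr_tr _


lemma Co.nr_cov_Om : nr ev C.gi (C.cov C.Om) ≤ 2 * nr ev C.gi (C.cov (C.cov C.ricT)) := by
  have h : C.cov C.Om = prm eA (C.cov (C.cov C.ricT)) - prm eB (C.cov (C.cov C.ricT)) :=
    ext4 fun i k l m => by rw [Pi.sub_apply, prm_eA, prm_eB]; exact C.cov_Om i k l m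
  have := hp.nr_sub (prm eA (C.cov (C.cov C.ricT))) (prm eB (C.cov (C.cov C.ricT)))
  rwa [nr_prm, nr_prm, ← h, ← two_mul] at this

lemma Co.nr_lap_rm : nr ev C.gi (C.lapT C.rmT) ≤ 4 * nr ev C.gi (C.cov (C.cov C.ricT))
    + 8 * n ^ 2 * nr ev C.gi C.rmT ^ 2 := by
  have h1 := C.nr_cov_Om hp
  have h2 := (n2_rho (p := 3)).bd ev hp C.ricT C.rmT
  have h3 := (n2_bet (p := 3)).bd ev hp C.rmT C.rmT
  have h4 := mul_le_mul_of_nonneg_right (mul_le_mul_of_nonneg_left (C.nr_ric hp) (Nat.cast_nonneg n))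
    (nr_nonneg (ev := ev) (H := C.gi) C.rmT)
  have e : ∀ T : Ten n S 4, nr ev C.gi (T - sw (p := 2) T) ≤ 2 * nr ev C.gi T := fun T => by
    have := hp.nr_sub T (sw (p := 2) T)
    rwa [nr_sw, ← two_mul] at this
  rw [C.lap_rm, Co.Zr]
  refine (hp.nr_add _ _).trans ((add_le_add ((hp.nr_add _ _).trans (add_le_add (e _) (e _)))
    (e _)).trans ?_)
  push_cast at h3
  nlinarith

/-- Bochner inequality for `|Rm|²` -/
theorem Co.bo_rm : 2 * ev (C.nsq (C.cov C.rmT)) - (16 * n ^ 2 + 8) *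
    (ev (C.nsq C.rmT) * nr ev C.gi C.rmT + nr ev C.gi C.rmT * nr ev C.gi (C.cov (C.cov C.ricT)))
      ≤ ev (C.lap0 (C.nsq C.rmT)) := by
  have h1 := (abs_le.1 (hp.abs_ip (C.lapT C.rmT) C.rmT)).1
  have h0 := nr_nonneg (ev := ev) (H := C.gi) C.rmT
  have h0' := nr_nonneg (ev := ev) (H := C.gi) (C.cov (C.cov C.ricT))
  have h2 := mul_le_mul_of_nonneg_right (C.nr_lap_rm hp) h0
  rw [C.lap0_nsq, map_add, map_mul, map_mul, map_ofNat,
    show ev (C.nsq C.rmT) = _ from (hp.nr_sq C.rmT).symm]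
  nlinarith [mul_nonneg h0 h0', mul_nonneg (sq_nonneg (n : ℝ)) (mul_nonneg h0 h0'), pow_nonneg h0 3]

end ring

variable {n k : ℕ} {J : Set ℝ} {U : Set (En n)} {G : ℝ → MetricField n} {t : ℝ} {y : En n}

lemma pt_co (c : CFam G J U) (o : Ok J U) (ht : t ∈ J) (hy : y ∈ U) :
    Pt (evp ht hy) (co c o).gi := by
  obtain ⟨e, he⟩ := Ar.exists_fr (c.pos t ht y hy)
  exact ⟨fun i a => e i a, he.inv⟩

lemma RepT.nr (c : CFam G J U) (o : Ok J U) {A : Ten n (SR J U) k} {T : ℝ → Tn n k} (h : RepT A T)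
    (ht : t ∈ J) (hy : y ∈ U) : nr (evp ht hy) (co c o).gi A = √(N207.nsq (G t) (T t) y) :=
  congrArg _ (h.nsq c o ht hy)

lemma WF.pt (w : WF G J U) (ht : t ∈ J) (hy : y ∈ U) : Pt (evp ht hy) w.R.gi := pt_co w.1 w.ok ht hy

lemma WF.shi (w : WF G J U) (ht : t ∈ J) (hy : y ∈ U) {p : ℕ} {A : Ten n (SR J U) p}
    {T : ℝ → Tn n p} (h : RepT A T) {c : ℝ} (hs : Star w.R.toCo w.R.rmT A 0 c (w.R.boxT A))
    (k : ℕ) : ∃ N', HasDerivWithinAt (fun s => N207.nsq (G s) (N207.covN (G s) (T s) k) y) N' J t ∧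
      |N' - laplaceBeltrami (G t) (N207.nsq (G t) (N207.covN (G t) (T t) k)) y
        + 2 * N207.nsq (G t) (N207.covN (G t) (T t) (k + 1)) y| ≤ 2 * cS n p c k *
        ∑ i ∈ Finset.range (k + 1), √(N207.nsq (G t) (N207.covN (G t) (N207.rmT (G t)) i) y) *
          √(N207.nsq (G t) (N207.covN (G t) (T t) (k - i)) y) *
          √(N207.nsq (G t) (N207.covN (G t) (T t) k) y) := by
  refine ⟨_, ((h.covN w.1 w.ok k).nsq w.1 w.ok).hasDeriv w.ok ht hy, ?_⟩
  have h1 := w.R.shi hs k (w.pt ht hy)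
  have e1 : ∀ j, nr (evp ht hy) w.R.gi (w.R.covN A j) = _ :=
    fun j => (h.covN w.1 w.ok j).nr w.1 w.ok ht hy
  have e2 : ∀ j, nr (evp ht hy) w.R.gi (w.R.covN w.R.rmT j) = _ :=
    fun j => (w.rm.covN w.1 w.ok j).nr w.1 w.ok ht hy
  have e3 : evp ht hy (w.R.lap0 (w.R.nsq (w.R.covN A k))) = _ :=
    ((h.covN w.1 w.ok k).nsq w.1 w.ok).lap0 w.1 w.ok ht hy
  have e4 : evp ht hy (w.R.nsq (w.R.covN A (k + 1))) = _ :=
    (h.covN w.1 w.ok (k + 1)).nsq w.1 w.ok ht hy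
  simp only [e1, e2, e3, e4] at h1
  exact h1

/-- evolution of `|∇ᵏ Rm|²` -/
theorem dt_N (n k : ℕ) : ∃ C, 0 ≤ C ∧ ∀ {G : ℝ → MetricField n} {J : Set ℝ} {U : Set (En n)},
    WF G J U → ∀ t ∈ J, ∀ y ∈ U, ∃ N',
      HasDerivWithinAt (fun s => N207.nsq (G s) (N207.covN (G s) (N207.rmT (G s)) k) y) N' J t ∧
      |N' - laplaceBeltrami (G t) (N207.nsq (G t) (N207.covN (G t) (N207.rmT (G t)) k)) y
        + 2 * N207.nsq (G t) (N207.covN (G t) (N207.rmT (G t)) (k + 1)) y| ≤ C *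
        ∑ i ∈ Finset.range (k + 1), √(N207.nsq (G t) (N207.covN (G t) (N207.rmT (G t)) i) y) *
          √(N207.nsq (G t) (N207.covN (G t) (N207.rmT (G t)) (k - i)) y) *
          √(N207.nsq (G t) (N207.covN (G t) (N207.rmT (G t)) k) y) :=
  ⟨_, mul_nonneg zero_le_two (cS_nonneg n 4 (by positivity) k),
    fun w _ ht _ hy => w.shi ht hy w.rm w.R.star_rm k⟩

/-- evolution of `|∇ᵏ Ric|²` -/
theorem dt_Q (n k : ℕ) : ∃ C, 0 ≤ C ∧ ∀ {G : ℝ → MetricField n} {J : Set ℝ} {U : Set (En n)},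
    WF G J U → ∀ t ∈ J, ∀ y ∈ U, ∃ N',
      HasDerivWithinAt (fun s => N207.nsq (G s) (N207.covN (G s) (N207.ricT (G s)) k) y) N' J t ∧
      |N' - laplaceBeltrami (G t) (N207.nsq (G t) (N207.covN (G t) (N207.ricT (G t)) k)) y
        + 2 * N207.nsq (G t) (N207.covN (G t) (N207.ricT (G t)) (k + 1)) y| ≤ C *
        ∑ i ∈ Finset.range (k + 1), √(N207.nsq (G t) (N207.covN (G t) (N207.rmT (G t)) i) y) *
          √(N207.nsq (G t) (N207.covN (G t) (N207.ricT (G t)) (k - i)) y) *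
          √(N207.nsq (G t) (N207.covN (G t) (N207.ricT (G t)) k) y) :=
  ⟨_, mul_nonneg zero_le_two (cS_nonneg n 2 (by positivity) k),
    fun w _ ht _ hy => w.shi ht hy w.ric w.R.star_ric k⟩

/-- Bochner inequality for `|Rm|²` (this is `H.BoRm` for `n = 4`) -/
theorem bo_rm (n : ℕ) : ∃ C : ℝ, ∀ (G : MetricField n) (U : Set (En n)), IsRiemannianOn G U →
    ∀ x ∈ U, 2 * N207.nsq G (N207.covN G (N207.rmT G) 1) x - C * (N207.nsq G (N207.rmT G) x *
      √(N207.nsq G (N207.rmT G) x) + √(N207.nsq G (N207.rmT G) x) *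
        √(N207.nsq G (N207.covN G (N207.ricT G) 2) x))
      ≤ laplaceBeltrami G (N207.nsq G (N207.rmT G)) x := by
  refine ⟨16 * n ^ 2 + 8, fun G U hG x hx => ?_⟩
  have c := cfam_const hG univ
  have o := okU hG
  have h := (co c o).bo_rm (pt_co c o (mem_univ 0) hx)
  rwa [((repT_rm c o).cov c o).nsq c o, (repT_rm c o).nsq c o, (repT_rm c o).nr c o,
    (((repT_ric c o).cov c o).cov c o).nr c o, ((repT_rm c o).nsq c o).lap0 c o] at h

end Crest.Agent.N207.A

end
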